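import Crest.Agent.X212.Gb50.Ptw

/-! # Row 212, GL-LOCS (helper50): gluing of the two sides, the sum of all terms, the final bound -/

set_option autoImplicit false
set_option linter.unusedSectionVars false
noncomputable section
open scoped Manifold ContDiff Topology NNReal
open MeasureTheory Set Function Filter TopologicalSpace

namespace Crest.Agent.X212.Gb50
open An An.Job M Nd18 Gj67 Sob92 Loc45
open Rsp69 (Cx Tw Ub)
open Gl67 (g0 q2)

section gen
variable {E : Type} [NormedAddCommGroup E] [NormedSpace ℝ E] [FiniteDimensional ℝ E]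
  [MeasurableSpace E] [BorelSpace E]
  {HM : Type} [TopologicalSpace HM] {I : ModelWithCorners ℝ E HM} [I.Boundaryless]
  {M : Type} [TopologicalSpace M] [ChartedSpace HM M] [IsManifold I ∞ M]
  [MeasurableSpace M] [T2Space M] [BorelSpace M] [SecondCountableTopology M] {𝒟 : Type*}
  {lam ι : Type} [Fintype lam] [Fintype ι] {X : Cx I M ι 𝒟} {T : Tw X lam}
  {N : Type} [NormedAddCommGroup N] [NormedSpace ℝ N] {c c' : 𝒟 → Bool → N} {k r n : ℕ}

theorem sp_add (h : SP T c) (h' : SP T c') : SP T fun d i => c d i + c' d i :=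
  let ⟨K, hK, h⟩ := h; let ⟨K', hK', h'⟩ := h'
  ⟨K + K', by positivity, (h.and h').mono fun _ h =>
    ⟨fun i => norm_add_le_of_le (h.1.1 i) (h.2.1 i), by
      rw [add_sub_add_comm, add_mul]; exact norm_add_le_of_le h.1.2 h.2.2⟩⟩

theorem sp_smul {s : 𝒟 → Bool → ℝ} (h : SP T s) (h' : SP T c) : SP T fun d i => s d i • c d i :=
  let ⟨K, hK, h⟩ := h; let ⟨K', hK', h'⟩ := h'
  ⟨2 * (K * K'), by positivity, ((h.and h').and T.lw.2).mono fun d h =>
    have q := (h.2 0 0).1.le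
    ⟨fun i => ((norm_smul_le _ _).trans (mul_le_mul (h.1.1.1 i) (h.1.2.1 i) (norm_nonneg _) hK)).trans
      (by nlinarith [mul_nonneg hK hK']), by
      rw [show s d true • c d true - s d false • c d false = (s d true - s d false) • c d true +
        s d false • (c d true - c d false) by module]
      exact (norm_add_le_of_le ((norm_smul_le _ _).trans (mul_le_mul h.1.1.2 (h.1.2.1 _)
        (norm_nonneg _) (mul_nonneg hK q))) ((norm_smul_le _ _).trans (mul_le_mul (h.1.1.1 _) h.1.2.2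
          (norm_nonneg _) hK))).trans_eq (by ring)⟩⟩

theorem sp_sum {α : Type} (s : Finset α) {u : α → 𝒟 → Bool → N} (h : ∀ a, SP T (u a)) :
    SP T fun d i => ∑ a ∈ s, u a d i := by
  classical
  induction s using Finset.induction_on with
  | empty => exact sp_same (u := fun _ => 0) (.const _)
  | insert a s ha ih => simpa only [Finset.sum_insert ha] using sp_add (h a) ih

theorem sp_q2 (h : SP T c) : ∃ K, 0 ≤ K ∧ ∀ᶠ d in X.l,
    q2 (c d false - c d true) ≤ ENNReal.ofReal (K * T.ρ d 0 ^ 2) :=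
  let ⟨K, _, h⟩ := h
  ⟨K ^ 2, sq_nonneg _, h.mono fun _ h => ENNReal.ofReal_le_ofReal (by
    rw [norm_sub_rev, ← mul_pow]; exact pow_le_pow_left₀ (norm_nonneg _) h.2 2)⟩

theorem N_zero_eq (F : Pre I M ι) {u : M → N} (hu : Sm I u) (hc : HasCompactSupport u) :
    Gl67.N F (fun _ => 0) univ k u = ENNReal.ofReal (N2 F k u) := by
  obtain ⟨h1, h2⟩ := Gl67.J_int (F := F) k (FL_of_hcs k hu hc)
  rw [N2, ← h2, ofReal_integral_eq_lintegral_ofReal h1 (.of_forall fun _ => Gl67.J_nonneg k u),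
    Gl67.N, Measure.restrict_univ]
  simp

/-- Sobolev bounds near the bottom -/
theorem hk_bot (h : T0 T) {f : 𝒟 → M → N} (e : X.Hk (N := fun _ => N) T.ρ k f) {R : ℝ} (hR : 0 ≤ R) :
    ∃ K, 0 ≤ K ∧ ∀ᶠ d in X.l, ∃ u, Sm I u ∧ (∀ x ∈ X.W R (d, 0), u =ᶠ[𝓝 x] f d) ∧
      Gl67.N (X.F d).toPre (fun _ => 0) univ k u ≤ ENNReal.ofReal (K * T.ρ d 0 ^ 2) := by
  obtain ⟨L, -, e⟩ := e.ext
  obtain ⟨K, hK, e⟩ := e _ R le_rfl hR
  refine ⟨K, hK, ((Cx.ev_lw.1 (e.and (Cx.ext_ev (N := fun _ => N) (R := R) f))).and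
    (h.deep (L + R))).mono fun d e => ?_⟩
  obtain ⟨⟨-, h1, h2, h3⟩, h4⟩ := e.1 0 e.2
  exact ⟨_, h1, h4, (N_zero_eq _ h1 h2).trans_le (ENNReal.ofReal_le_ofReal h3)⟩

variable {W : Type} {q : W →₀ ℝ} {F : Finset W} (hF : q.support ⊆ F)
include hF

theorem sum_F (u : W → N) : (q.sum fun w a => a • u w) = ∑ w ∈ F, q w • u w :=
  Finsupp.sum_of_support_subset q hF _ fun _ _ => zero_smul _ _

theorem fsum_S (τ : W → Pt M ι lam r n) (c : Cfg M ι lam r) :
    (fsum τ q).S c = ∑ w ∈ F, q w • (τ w).S c := funext fun i => by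
  rw [Finset.sum_apply]
  exact (sum_F hF fun w => (τ w).S c i)

theorem sg_sum (k : Cut M lam) (B : Base M ι lam) (s : W → ℝ) (t : W → Pc r B k)
    (c : Cfg M ι lam r) (u : L2c (Fin c.m.N)) :
    sg k B (fun x => q.sum fun w a => (a * s w) • t w x) c u =
      ∑ w ∈ F, q w • sg k B (fun x => s w • t w x) c u := by
  rw [sg, Finsupp.sum_of_support_subset q hF _ fun _ _ => by rw [zero_mul, zero_smul]]
  simp only [sg, mul_smul, sum_apply, smul_apply, Submodule.coe_sum, Submodule.coe_smul]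

end gen

variable {Wi : Type} {X : Mf 4} {A κ lam : Type} [Fintype A] [Fintype κ] [Fintype lam]
  [DecidableEq lam] {M : Mark X A κ} {W : World M} {L : ML M lam} {Λ : Lns W L}
  {A' h : Type} [Fintype A'] [DecidableEq A'] [Fintype h] {r n : ℕ}
  {J : Job Wi Λ A' h r n} {σ : Cel A'} {a : A'}
  {U Up R : Type} [NormedAddCommGroup U] [NormedSpace ℝ U] [NormedAddCommGroup Up]
  [NormedSpace ℝ Up] [NormedAddCommGroup R] [NormedSpace ℝ R]

variable (J) in
theorem τ_S (c : M.Cl) {q : Wi →₀ ℝ} {F : Finset Wi} (hF : q.support ⊆ F) (s : A' → ℝ)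
    (x : Cfg (W.Z c).M (Option κ) (lam ⊕ lam) r) :
    (J.τ c q s).S x = ∑ w ∈ F, q w • (tww J c s w).S x := by
  have z : ∀ {p : A × Option Bool → Prop} {τ : ∀ i, p i → Pt _ _ _ r n},
      (∀ i hi j, (τ i hi).S x j = 0) → ∀ j, (Pt.dsum p τ).S x j = 0 := fun e j =>
    Finset.sum_eq_zero fun i _ => by split_ifs; exacts [e _ _ _, rfl]
  refine Eq.trans (funext fun j => (congrArg (· + _) (z (fun _ _ _ => rfl) j)).trans (zero_add _))
    ((fsum_S hF (J.τw c s) x).trans (Finset.sum_congr rfl fun w _ => congrArg _ (funext fun j =>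
      (congrArg (_ + ·) (z (fun _ _ _ => Finset.sum_eq_zero fun _ _ => mul_zero _) j)).trans
        (add_zero _))))

variable (J) in
theorem σ_sum (c : M.Cl) {q : Wi →₀ ℝ} {F : Finset Wi} (hF : q.support ⊆ F) (s : A' → ℝ) (j : h)
    (x : Cfg (W.Z c).M (Option κ) (lam ⊕ lam) r) (u : L2c (Fin x.m.N)) :
    sg (J.cut c j) (J.B c) (J.σc c q s j) x u =
      ∑ w ∈ F, q w • sg (J.cut c j) (J.B c) (tcw J c s j w) x u :=
  sg_sum hF (J.cut c j) (J.B c) (fun w => J.cc j w s)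
    (fun w x => x.tc (J.B c) (J.G c s).F (J.cut c j) ((J.tp c).tc (J.tc j w))) x u

variable {d : Dat J σ a U Up R} {q₀ : Wi →₀ ℝ} {δ : ℝ} {k : ℕ} (I : Ix d q₀ δ k)

/-! ### gluing -/

theorem hk_glue {N : Type} [NormedAddCommGroup N] [NormedSpace ℝ N] {w : I.𝒟 → ℝ → ℝ}
    {f : I.𝒟 → (W.Z (J.cf a)).M → N} (O : Clopens (W.Z (J.cf a)).M)
    (h1 : (I.cx O).Hk (N := fun _ => N) w k f) (h2 : (I.cx Oᶜ).Hk (N := fun _ => N) w k f) :
    (I.cx ⊤).Hk (N := fun _ => N) w k f := by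
  obtain ⟨L₁, p₁, h1⟩ := h1
  obtain ⟨L₂, p₂, h2⟩ := h2
  refine ⟨L₁ + L₂, by positivity, fun ρ hρ => Rsp69.NB.congr (Rsp69.NB.add
    ((h1.mono (L' := L₁ + L₂) (by linarith)) ρ hρ) ((h2.mono (L' := L₁ + L₂) (by linarith)) ρ hρ))
    (Cx.lw_in.mono fun z hz => funext fun x => ?_)⟩
  have off : ∀ O : Clopens _, x ∉ O → (I.cx O).η ρ z x = 0 := fun O c => Cx.η_zero fun e =>
    c (Ix.tm_le (I := I) (e := z.1) (by
      have h3 : I.tm O z.1 x - z.2 ≤ ρ := (abs_le.1 e).2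
      linarith [hz.2 _ rfl]))
  have ins : ∀ O : Clopens _, x ∈ O → (I.cx O).η ρ z x = (I.cx ⊤).η ρ z x := fun O c =>
    congrArg (Rsp69.wc ρ z.2) ((Ix.tm_of c).trans (tm_top I _ x).symm)
  by_cases c : x ∈ O
  · rw [ins O c, off Oᶜ (not_not.2 c), zero_smul, add_zero]
  · rw [off O c, ins Oᶜ c, zero_smul, zero_add]

/-- **LEAF GLUE** -/
theorem glS : I.GlS := fun O _ _ h h' =>
  ⟨⟨fun i => hk_glue I O (h.D.b i) (h'.D.b i), hk_glue I O h.D.d h'.D.d⟩,
    ⟨fun i => hk_glue I O (h.C.b i) (h'.C.b i), hk_glue I O h.C.d h'.C.d⟩⟩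

/-! ### the sum -/

open Classical in
/-- the indices which occur -/
def sF : Finset Wi := I.S ∪ q₀.support

theorem sF0 : q₀.support ⊆ sF I := by
  classical
  exact fun _ k => by simp only [sF, Finset.mem_union]; exact .inr k

theorem sFq (e : I.𝒟) : (I.q e).support ⊆ sF I := fun w k => by
  classical
  simp only [sF, Finset.mem_union]
  exact (em (w ∈ I.S)).imp_right fun c => by rwa [Finsupp.mem_support_iff, I.qS e w c,
    ← Finsupp.mem_support_iff] at k

theorem sp_q (w : Wi) : SP (I.T ⊤) fun e i => bif i then I.q e w else q₀ w :=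
  ⟨‖q₀ w‖ + 1, by positivity, ((I.tq w).norm.eventually_lt_const (lt_add_one _)).mono fun e k =>
    ⟨fun i => by cases i; exacts [(lt_add_one _).le, k.le], by
      have h1 : ‖I.q e w - q₀ w‖ ≤ I.ε e := by
        by_cases c : w ∈ I.S
        · exact Finset.single_le_sum (f := fun w => |I.q e w - q₀ w|) (fun _ _ => abs_nonneg _) c
        · rw [I.qS e w c, sub_self, norm_zero]; exact I.ε0 e
      have h2 : I.ε e ≤ I.ρ e 0 := le_add_of_nonneg_left (Real.exp_pos _).le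
      exact (h1.trans h2).trans (le_mul_of_one_le_left ((I.ε0 e).trans h2)
        (le_add_of_nonneg_left (norm_nonneg _)))⟩⟩

theorem tρ : Tendsto (fun e => I.ρ e 0) I.l (𝓝 0) := by
  have h1 : Tendsto (fun e => I.γ / 8 * (I.Q e - 0)) I.l atTop := by
    simp only [sub_zero]
    exact (tendsto_atTop_add_const_right _ (-2) ((geo I.ok).la.comp I.tτ)).const_mul_atTop
      (by have := I.γ0; positivity)
  have h2 := tendsto_finsetSum I.S fun w _ => ((I.tq w).sub_const (q₀ w)).abs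
  simp only [sub_self, abs_zero, Finset.sum_const_zero] at h2
  have h3 := (Real.tendsto_exp_neg_atTop_nhds_zero.comp h1).add h2
  rwa [add_zero] at h3

variable {I}

theorem cl_τ (h0 : T0 (I.T ⊤)) (hN : I.NkS) (hT : I.TwS) :
    I.Cl ⊤ (fun e => τS d (I.τ e) q₀ (I.p e)) fun e => τX d (I.τ e) (I.q e) (I.p e) := by
  have c := fun w => (h0.ec (k := k) (sp_q I w)).el
  refine ⟨(hN.1.D.add (.sum (sF I) fun w _ => (c w).smul I.hk le_rfl
    ((hT w).1.D.add (hN.2 w).D))).congr' fun e i x => ?_, (hN.1.C.add (.sum (sF I) fun w _ =>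
      (c w).smul I.hk le_rfl ((hT w).1.C.add (hN.2 w).C))).congr' fun e i x => ?_⟩
  · cases i
    exacts [congrArg (_ + ·) (sum_F (sF0 I) _).symm, congrArg (_ + ·) (sum_F (sFq I e) _).symm]
  · cases i
    exacts [congrArg (_ + ·) (sum_F (sF0 I) _).symm, congrArg (_ + ·) (sum_F (sFq I e) _).symm]

set_option maxRecDepth 4000 in
/-- **the final bound** -/
theorem finS (hC : I.CgS) (hN : I.NkS) (hT : I.TwS) (hS : I.SgS) : I.Fin := fun t η η0 => by
  have h0 := (hC ⊤).2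
  have cl := cl_τ h0 hN hT
  obtain ⟨K₁, p₁, h1⟩ := hk_bot h0 (R := |t|) ((cl.D.d.neg.clm
    (T := fun _ => ContinuousLinearMap.inl ℝ _ (Fm (Option κ × Option κ) (HS (Fin d.N))))
      (.const _)).add (cl.C.d.neg.clm (T := fun _ => ContinuousLinearMap.inr ℝ _ _) (.const _)))
    (abs_nonneg t)
  obtain ⟨K₂, p₂, h2⟩ := sp_q2 (sp_sum (sF I) fun w => sp_smul (sp_q I w) (hT w).2)
  obtain ⟨K₃, p₃, h3⟩ := sp_q2 (sp_pi fun j => sp_sum (sF I) fun w => sp_smul (sp_q I w) (hS j w))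
  have p₄ : 0 ≤ |I.C k| * (Real.exp (2 * (δ * Gl67.ka t)) * K₁) := by positivity
  have h4 := (((tρ I).pow 2).const_mul (|I.C k| * (Real.exp (2 * (δ * Gl67.ka t)) * K₁) +
    (K₂ + K₃))).eventually (Iio_mem_nhds (a := (η : ℝ)) (by simpa using η0))
  simp only [cond_false, cond_true] at h2 h3
  filter_upwards [h1, h2, h3, h4] with e ⟨u, u1, u2, u3⟩ h2 h3 h4
  have m := (isClosed_Iic.preimage d.sm_hS.continuous (t := Iic t)).measurableSet
  have q := sq_nonneg (I.ρ e 0)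
  refine (add_le_add (b := ENNReal.ofReal (|I.C k| * (Real.exp (2 * (δ * Gl67.ka t)) * K₁) *
    I.ρ e 0 ^ 2)) ?_ (add_le_add (h2.trans_eq' (congrArg q2 (congrArg₂ (· - ·) ?_ ?_)))
      (h3.trans_eq' (congrArg q2 (congrArg₂ (· - ·) (funext fun j => ?_)
        (funext fun j => ?_)))))).trans ?_
  · refine (Gl67.N_congr m (v := u) fun x hx => EventuallyEq.trans
      (.of_forall fun y => ?_) (u2 x ?_).symm).trans_le
      (((I.ubS e).rev _ k u _ _ univ isOpen_univ m (subset_univ _) (Gl67.smO u1)).trans ?_)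
    · exact Prod.ext (by simp; rfl) (by simp; rfl)
    · show |I.tm ⊤ e x - 0| ≤ |t|
      rw [tm_top, sub_zero, abs_of_nonneg (Ix.hS0 x)]
      exact le_trans hx (le_abs_self t)
    · rw [mul_assoc, mul_assoc, ENNReal.ofReal_mul (abs_nonneg _), ENNReal.ofReal_mul (Real.exp_pos _).le]
      exact mul_le_mul' (ENNReal.ofReal_le_ofReal (le_abs_self _)) ((Gl67.N_wt m
        (g' := fun _ => 0) fun x hx => by
          rw [Gl67.g0_eq, zero_add]
          exact mul_le_mul_of_nonneg_left (Gl67.ka_mono hx) I.ok.δ0.le).trans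
        (mul_le_mul_right ((Gl67.N_mono (subset_univ _)).trans u3) _))
  · exact (τ_S (jb J d.x) _ (sF0 I) _ _).symm
  · exact (τ_S J _ (sFq I e) _ _).symm
  · exact (σ_sum (jb J d.x) _ (sF0 I) _ j (I.cS e) _).symm
  · exact (σ_sum J _ (sFq I e) _ j (I.cX e) _).symm
  · rw [← ENNReal.ofReal_add (mul_nonneg p₂ q) (mul_nonneg p₃ q), ← ENNReal.ofReal_add
      (mul_nonneg p₄ q) (by positivity), ← add_mul, ← add_mul, ← ENNReal.ofReal_coe_nnreal]
    exact ENNReal.ofReal_le_ofReal h4.le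

/-- only the configurations and the necks remain -/
theorem fin_of (fw : Fw I) (hC : I.CgS) (hN : I.NkS) : I.Fin := finS hC hN (twS fw hC) (sgS fw hC)

end Crest.Agent.X212.Gb50
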