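import Crest.Agent.X212.Gb50.Ht

/-!
# Row 212, GL (helper50): LEAF GEO
-/

set_option autoImplicit false
set_option linter.unusedSectionVars false
noncomputable section
open scoped Manifold ContDiff Topology
open Set Function Filter Metric

namespace Crest.Agent.X212.Gb50
open An An.Job M Prm93 Cht98 Nd18 Gj67 Sob92
open Gl67 (ka ka_deriv cd_ka)
open Met55 (fam_ok famIn_cpt)
open Cyf70 (IC)

section gen
variable {E : Type} [NormedAddCommGroup E] [NormedSpace ℝ E] [FiniteDimensional ℝ E]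
  [MeasurableSpace E] [BorelSpace E]
  {HM : Type} [TopologicalSpace HM] {I : ModelWithCorners ℝ E HM} [I.Boundaryless]
  {M : Type} [TopologicalSpace M] [ChartedSpace HM M] [IsManifold I ∞ M]
  [MeasurableSpace M] [T2Space M] [BorelSpace M] [SecondCountableTopology M]
  {ι lam : Type} [Fintype ι] [Fintype lam] {N N' N'' : Type} [NormedAddCommGroup N] [NormedSpace ℝ N]
  [NormedAddCommGroup N'] [NormedSpace ℝ N'] [NormedAddCommGroup N''] [NormedSpace ℝ N'']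
  {α : Type} {l : Filter α} {F : α → Pre I M ι} {f g : α → M → N} {h : α → M → ℝ} {b : α → ℝ → ℝ}

/-- uniform bounds along a filter -/
def UC (l : Filter α) (F : α → Pre I M ι) (f : α → M → N) : Prop := ∃ C, ∀ᶠ i in l, (F i).CBs (f i) C

theorem UC.ec (k : UC l F f) : EC l fun i C => (F i).CBs (f i) C := .of (fun _ _ _ => CBs_mono) k

theorem UC.congr (k : UC l F f) (e : ∀ᶠ i in l, g i = f i) : UC l F g :=
  k.imp fun _ k => (k.and e).mono fun _ k => k.2 ▸ k.1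

theorem UC.const (c : N) : UC l F fun _ _ => c :=
  ⟨_, .of_forall fun _ => ⟨contMDiff_const, fun k => CB_const k c⟩⟩

theorem UC.add (k : UC l F f) (k' : UC l F g) : UC l F fun i x => f i x + g i x :=
  let ⟨_, k⟩ := k; let ⟨_, k'⟩ := k'
  ⟨_, (k.and k').mono fun _ k => ⟨k.1.1.add k.2.1, fun n => CB_add k.1.1 k.2.1 (k.1.2 n) (k.2.2 n)⟩⟩

theorem UC.bil (β : N →L[ℝ] N' →L[ℝ] N'') {g : α → M → N'} (k : UC l F f) (k' : UC l F g) :
    UC l F fun i x => β (f i x) (g i x) :=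
  let ⟨_, k⟩ := k; let ⟨_, k'⟩ := k'
  ⟨_, (k.and k').mono fun _ k => ⟨(β.contMDiff.comp k.1.1).clm_apply k.2.1,
    fun n => CB_bil β k.1.1 k.2.1 (k.1.2 n) (k.2.2 n)⟩⟩

theorem UC.smul (k : UC l F h) (k' : UC l F g) : UC l F fun i x => h i x • g i x :=
  k.bil (ContinuousLinearMap.lsmul ℝ ℝ) k'

/-- uniform bounds of real functions -/
def UB (b : α → ℝ → ℝ) : Prop := ∃ A : ℕ → ℝ, ∀ i k, ContDiff ℝ ∞ (b i) ∧ Neck67.Bd k (b i) (A k)

theorem UB.of {c : ℝ → ℝ} (k : Neck67.Sm c) {s : ℝ} (hs : |s| ≤ 1) (t : α → ℝ) :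
    UB fun i u => c (s * u + t i) :=
  let ⟨A, hA⟩ := Classical.axiomOfChoice k.bd
  ⟨A, fun _ n => ⟨Neck67.cd_aff k.cd _ _, (hA n).aff hs _⟩⟩

theorem UC.comp (hb : UB b) (s : ∀ i, Sm I (h i)) (k : ∀ a, UC l F fun i => (F i).D a (h i)) :
    UC l F fun i x => b i (h i x) :=
  let ⟨_, hA⟩ := hb; let ⟨_, k⟩ := (EC.all fun a => (k a).ec).ex
  ⟨_, k.mono fun i k => ⟨(hA i 0).1.contMDiff.comp (s i), fun n =>
    Gl67.CB_comp (s i) (fun a => (k a).2 n) (hA i 0).1 (hA i n).2⟩⟩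

theorem UC.dcomp (c : ∀ i, ContDiff ℝ ∞ (b i)) (hb : UB fun i => deriv (b i)) (s : ∀ i, Sm I (h i))
    (k : ∀ a, UC l F fun i => (F i).D a (h i)) (a : ι) :
    UC l F fun i => (F i).D a fun x => b i (h i x) :=
  ((UC.comp hb s k).smul (k a)).congr
    (.of_forall fun i => funext fun x => Gl67.D_comp (s i) (c i) a x)

theorem sm_drho : Neck67.Sm (deriv rho) := by
  rw [show deriv rho = Real.smoothTransition - fun u => Real.smoothTransition (-1 * u + 0) from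
    funext fun u => (((ka_deriv u).add ((ka_deriv (-u)).comp u (hasDerivAt_neg u))).add_const
      _).deriv.trans (by simp [sub_eq_add_neg])]
  exact Neck67.sm_step.sub (Neck67.sm_step.aff (by simp) 0)

theorem UC.tent (R : ℝ) (τ c : α → ℝ) (s : ∀ i, Sm I (h i))
    (k : ∀ a, UC l F fun i => (F i).D a (h i)) (a : ι) :
    UC l F fun i => (F i).D a fun x => tent R (τ i) (h i x - c i) := by
  have c1 : ∀ i, ContDiff ℝ ∞ fun u => nl (τ i) / 2 - R - rho (u - c i) := fun i =>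
    contDiff_const.sub (cd_rho.comp (contDiff_id.sub contDiff_const))
  refine UC.dcomp (b := fun _ => ka) (h := fun i x => nl (τ i) / 2 - R - rho (h i x - c i))
    (fun _ => cd_ka) ?_ (fun i => (c1 i).contMDiff.comp (s i))
    (UC.dcomp (b := fun i u => nl (τ i) / 2 - R - rho (u - c i)) c1 ?_ s k) a
  · simpa only [one_mul, add_zero, funext fun s => (ka_deriv s).deriv] using
      UB.of Neck67.sm_step (s := 1) (by simp) fun _ : α => 0
  · convert UB.of sm_drho.neg (s := 1) (by simp) fun i => -c i using 3 with i u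
    rw [deriv_const_sub, deriv_comp_sub_const, one_mul, sub_eq_add_neg]; rfl

theorem agr_empty (G G' : Geo I M ι lam) : Agr G G' univᶜ :=
  ⟨isClosed_univ.isOpen_compl, fun _ k => (k trivial).elim, fun _ k => (k trivial).elim⟩

variable {Y : Mf 3} [CompactSpace Y.M] {κ : Type} [Fintype κ] {D : YD Y.I Y.M κ lam}
  {B : Base M (Option κ) lam} {G G' : Geo I M (Option κ) lam}

/-- the same neck in a background that agrees on the neck -/
def nkA (K : Nk D B G) (k : ∀ x ∈ K.ψ.target, ∀ a, G'.F.e a x = G.F.e a x ∧ G'.a a x = G.a a x)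
    (v : D.F.IsVol) (v' : G'.F.IsVol) : Nk D B G' :=
  { K with
    iso := Met55.iso_vol (Int54.isVol_cyl v) v' K.iso.sm K.iso.sm' fun a x hx =>
      (K.iso.e a x hx).trans (k _ (K.ψ.map_source hx) a).1.symm
    a := fun a x hx => (k _ (K.ψ.map_source hx) a).2.trans (K.a a x hx) }

end gen

variable {Wi : Type} {X : Mf 4} {A κ lam : Type} [Fintype A] [Fintype κ] [Fintype lam]
  [DecidableEq lam] {M : Mark X A κ} {W : World M} {L : ML M lam} {Λ : Lns W L}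
  {A' h : Type} [Fintype A'] [DecidableEq A'] [Fintype h] {r n : ℕ}
  {J : Job Wi Λ A' h r n} {σ : Cel A'} {a : A'}
  {U Up R : Type} [NormedAddCommGroup U] [NormedSpace ℝ U] [NormedAddCommGroup Up]
  [NormedSpace ℝ Up] [NormedAddCommGroup R] [NormedSpace ℝ R] {d : Dat J σ a U Up R}
  {q₀ : Wi →₀ ℝ} {δ : ℝ}

theorem Gh_eq (τ : d.Ta) : d.Gh τ = PG Λ J.m d.x (th d (τ, 0)) (J.Θ d.y.s) := rfl

theorem nk_τ (τ : d.Ta) : NkOK M J.m M.c0 (th d (τ, 0)) d.x := act_ok τ.2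

variable (H : d.OK q₀ δ)
include H

theorem Gh_ok (τ : d.Ta) : (d.Gh τ).OK (J.B M.c0) := PG_ok Λ (nk_τ τ) (gp0 H)

theorem agr_X (τ : d.Ta) : Agr (J.G M.c0 (d.s τ 0)) (d.Gh τ) {z | |h0 W d.x z| < 1} :=
  agr_G Λ (nk_τ τ) (gp0 H)

/-- the long neck in the reference background -/
def KH (τ : d.Ta) : Nk d.D (J.B M.c0) (d.Gh τ) :=
  nkA (d.KX τ) (fun z hz i => have k := isNk_sub τ.2 (H.ok.nk _ _ _ _ _) hz
    ⟨(agr_X H τ).e z k i, (agr_X H τ).a z k i⟩) (H.ok.xs _).1.vol (Gh_ok H τ).vol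

theorem cd_sτ (τ : ℝ) : ContDiff ℝ ∞ fun t => th d (τ, t) :=
  (cd_th H).comp (contDiff_const.prodMk contDiff_id)

theorem FX_ok (τ : d.Ta) : (d.FX τ).OK :=
  have o := isOpen_pre (M := M) (c := M.c0) (cd_sτ H τ).continuous
  fam_ok (famIn_cpt (W.Z M.c0).dim.le (Λ.B_ok _ _) (Gh_ok H τ) (fun _ ht => Λ.G_ok _ ht) o
    (jf_W o (cd_sτ H τ).contDiffOn fun _ k => k) (js_a Λ o (cd_sτ H τ).contDiffOn fun _ k => k))
    isClopen_univ isClopen_univ subset_rfl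

theorem FS_ok : d.FS.OK := H.okS.fam

theorem uc_hX (i : Option κ) : UC d.lg (fun τ => (d.Gh τ).F.toPre) fun τ => (d.Gh τ).F.D i (d.hX τ) :=
  UC.tent d.R0 _ _ (fun τ => (d.KX τ).sm_τ)
    (fun j => (cbs_Dτ d.D).imp fun _ k => .of_forall fun τ => k (KH H τ) j) i

theorem tame_Gh : EC d.lg fun τ C => (d.Gh τ).F.Tame C := by
  obtain ⟨τ₁, h1⟩ := (act H).exists
  obtain ⟨C0, k0⟩ := TOn.compact (d.Gh ⟨τ₁, h1⟩).F (W.Z M.c0).dim.le isCompact_univ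
  obtain ⟨C1, k1⟩ := deep_nck d.D.F (J.xs d.x).Y.dim.le one_half_pos
  refine .of (fun _ _ _ => Tame_mono) ⟨cD (Option κ) (Fintype.card Unit) fun k => max |C0 k| (C1 k),
    (ev_lg H).mono fun τ T => ?_⟩
  have ag := agr_out Λ (nk_τ ⟨τ₁, h1⟩) (gp0 H) (nk_τ τ)
  refine tame_of_deep (K := {z | 1 / 2 ≤ |h0 W d.x z|}) (isClosed_le continuous_const cont_h0).isCompact
    (fun z hz => ⟨(), ?_⟩) ((TOn.iso (φ := OpenPartialHomeomorph.ofSet _ ag.op)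
      (K := {z | 1 / 2 ≤ |h0 W d.x z|})
      (Pj41.FRel.iso ag.rel (Gh_ok H τ).vol (Gh_ok H ⟨τ₁, h1⟩).vol)
      (fun z (hz : 1 / 2 ≤ |h0 W d.x z|) => show 1 / 4 < |h0 W d.x z| by linarith)
      (mapsTo_univ _ _) k0).mono subset_rfl
        fun _ => le_max_left _ _) fun _ => (k1 (nck (KH H τ))).mono subset_rfl fun _ => le_max_right _ _
  have hz : |h0 W d.x z| < 1 / 2 := not_le.1 hz
  change (d.KX τ).tm z ∈ Jc (d.KX τ).p (d.KX τ).q (1 / 2)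
  rw [X_tm H T (by linarith), X_p H T, X_q H T, ← nq_false T.lt]
  exact len_mem_Jc (b := false) (le_trans one_half_pos.le T.half) (.inl T.lt) one_half_pos.le (hz.le.trans_eq (by norm_num))

theorem geo_fam : ∃ r > 0, ∃ C, FU d.FS r C ∧ ∀ᶠ τ in d.lg, (d.FX τ).OK ∧ FU (d.FX τ) r C ∧
    ∀ i, (d.FX τ).F0.CBs ((d.FX τ).F0.D i (d.hX τ)) C := by
  obtain ⟨τ₁, h1⟩ := (act H).exists
  have n1 := nk_τ ⟨τ₁, h1⟩
  have c0 : CylAt M J.m M.c0 (J.Θ d.y.s) := fun x _ k => by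
    obtain rfl : x = d.x := by_contra fun e => ((gp0 H).o x e).not_ge k
    exact ⟨(gp0 H).cyl, (gp0 H).mem⟩
  obtain ⟨C1, k1⟩ := bd_ev Λ c0
  have t1 : Tendsto (th d) (𝓝 (1, 0)) (𝓝 (J.Θ d.y.s)) := s_one H ▸ (cd_th H).continuous.tendsto (1, 0)
  obtain ⟨ρ, ρ0, k2⟩ := Metric.eventually_nhds_iff_ball.1 ((ev_gp H).and (t1.eventually k1))
  have cj : ContDiff ℝ ∞ fun q : ℝ × Tc σ a => (1 - q.1 ^ 2, q.2) := by fun_prop
  have ch := (cd_th H).comp cj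
  have cc : ContDiff ℝ ∞ fun _ : ℝ × Tc σ a => th d (τ₁, 0) := contDiff_const
  obtain ⟨ρ', ρ0', k3⟩ := Metric.nhds_basis_closedBall.mem_iff.1 ((isOpen_gd (M := M) (m := J.m)
    (x := d.x) (θ₁ := fun _ => th d (τ₁, 0)) (θ := th d ∘ _)).mem_nhds (x := (0 : ℝ × Tc σ a))
      ((cj.continuous.tendsto' 0 (1, 0) (by simp)).eventually (ev_gp H) |>.mono fun q k =>
        ⟨n1, (k (sub_le_self _ (sq_nonneg _))).1⟩))
  obtain ⟨r, r0, r1, r2⟩ : ∃ r > 0, r ≤ ρ' ∧ 2 * r ≤ ρ := ⟨min ρ' (ρ / 2), by positivity,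
    min_le_left _ _, by linarith [min_le_right ρ' (ρ / 2)]⟩
  have hb : ∀ τ : ℝ, |τ - 1| < ρ → ∀ t ∈ ball (0 : Tc σ a) (2 * r), (τ, t) ∈ ball ((1 : ℝ), (0 : Tc σ a)) ρ :=
    fun τ k t ht => by rw [← ball_prod_same]; exact ⟨k, ball_subset_ball r2 ht⟩
  have sb : closedBall (0 : Tc σ a) r ⊆ ball 0 (2 * r) := closedBall_subset_ball (by linarith)
  have ev : ∀ᶠ τ in d.lg, Lg d τ ∧ √(1 - τ) ≤ r ∧ ∀ t ∈ ball (0 : Tc σ a) (2 * r),
      NkOK M J.m M.c0 (th d (τ, t)) d.x ∧ Bd Λ J.m M.c0 (th d (τ, t)) C1 := by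
    have tc : Tendsto (fun τ : d.Ta => (τ : ℝ)) d.lg (𝓝 1) := tendsto_comap
    filter_upwards [ev_lg H, tc.eventually (ball_mem_nhds 1 ρ0), (((show Continuous fun x : ℝ =>
      √(1 - x) by fun_prop).tendsto' 1 0 (by simp)).comp tc).eventually (Iic_mem_nhds r0)] with τ T k4 k5
    refine ⟨T, k5, fun t ht => ?_⟩
    obtain ⟨k6, k7⟩ := k2 _ (hb τ k4 t ht)
    have k8 := (k6 T.lt.le).1.nk ((T.x t).trans_lt T.lt)
    exact ⟨k8, k7 k8.O (k6 T.lt.le).2.1⟩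
  have hO : ∀ t ∈ closedBall (0 : Tc σ a) r, th d (1, t) ∈ M.O (J.cf a).1 ∧ (th d (1, t)).2 ∈ M.sys.Par :=
    fun t ht => have k := (k2 _ (hb 1 (by simpa using ρ0) t (sb ht))).1 le_rfl
      ⟨fun x hx => k.1.o x fun e => hx.1 ((mem_cf H).2 e), k.2.1⟩
  have oS := isOpen_pre (M := M) (c := J.cf a) (cd_sτ H 1).continuous
  have fS := fu_fam (FS_ok H) (fun t ht => (hO t ht).1) ((tame_unif W (m := J.m)
    ((isCompact_closedBall 0 r).image (cd_sτ H 1).continuous)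
    (forall_mem_image.2 fun t ht => cylAt_of_O (hO t ht).1)).imp fun _ k t ht =>
      k _ ⟨t, ht, rfl⟩ (hO t ht).1 (hO t ht).2)
    (sb_lr (isCompact_thk W.toCaps _ _ one_pos (by norm_num)) oS
      (jf_W oS (cd_sτ H 1).contDiffOn fun _ k => k) fun _ ht => agr_thk Λ (d.hb true).2.2.1 ht)
  have fX : EC d.lg fun τ C => FU (d.FX τ) r C := fu_pat (u := fun τ : d.Ta => √(1 - τ))
    (l := d.lg) (G0 := d.Gh) (H := fun τ t => J.G M.c0 (d.s τ t)) (Q := fun τ => (d.FX τ).Q)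
    (G1 := fun τ : d.Ta => J.G M.c0 (d.s τ 0)) (U1 := {z | 1 / 4 < |h0 W d.x z|})
    (U2 := {z | |h0 W d.x z| < 1}) r0 (fun z => (lt_or_ge (1 / 4 : ℝ) |h0 W d.x z|).imp_right
      fun k => lt_of_le_of_lt k (by norm_num))
    (fam_ok (famIn_cpt (W.Z M.c0).dim.le (Λ.B_ok _ _) (PG_ok Λ n1 (gp0 H)) (fun _ k =>
      PG_ok Λ n1 (Eventually.self_of_nhds k).2) isOpen_gd (jf_PG Λ cc ch) (js_PG Λ cc ch))
      isClopen_univ isClopen_univ subset_rfl)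
    (sb_lr isCompact_univ isOpen_gd (jf_PG Λ cc ch) fun _ _ => agr_empty _ _)
    ((closedBall_subset_closedBall r1).trans k3) (ev.mono fun τ ⟨T, k4, k5⟩ => by
      have o := isOpen_pre (M := M) (c := M.c0) (cd_sτ H τ).continuous
      refine ⟨by rwa [abs_of_nonneg (Real.sqrt_nonneg _)], ⟨fun t ht => (k5 t (sb ht)).1.O,
        Lay.F_vol _ _, agr_out Λ n1 (gp0 H) (nk_τ τ), agr_X H τ, fun t ht => ?_⟩, FX_ok H τ,
        Λ.G_ok _ (nk_τ τ).O, sb_lr isCompact_univ o (jf_W o (cd_sτ H τ).contDiffOn fun _ k => k)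
          fun _ _ => agr_empty _ _⟩
      have k6 := (k5 t ht).1
      simp only [comp_apply, Real.sq_sqrt (sub_nonneg.2 T.lt.le), sub_sub_cancel]
      have k7 := agr_out Λ n1 (gp_of k6) k6
      rw [PG_self] at k7
      exact ⟨Lay.F_vol _ _, (PG_ok Λ n1 (gp_of k6)).vol, k7, (nk_τ τ).agr Λ k6 (by
          rw [Mark.tv_fr (fr0 _), Mark.tv_fr (fr0 _), T.x, T.x])⟩) (tame_Gh H)
    (.of (fun _ _ _ k e t ht => Tame_mono (k t ht) e) ⟨C1, ev.mono fun τ k t ht => (k.2.2 t (sb ht)).2.tame⟩)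
    (.of (fun _ _ _ k e => ⟨Tame_mono k.1 e, fun i j n m => CBs_mono (k.2.1 i j n m) e,
      CBs_mono k.2.2.1 e, fun i => CBs_mono (k.2.2.2 i) e⟩) ⟨C1, ev.mono fun τ k =>
        have k := (k.2.2 0 (mem_ball_self (by linarith))).2; ⟨k.tame, k.o, k.l, k.a⟩⟩)
  obtain ⟨C, k4, k5⟩ := (Eventually.and fS (fX.and (EC.all fun i => (uc_hX H i).ec))).exists
  exact ⟨r, r0, C, eventually_top.1 k4 (), k5.mono fun τ k => ⟨FX_ok H τ, k⟩⟩

/-! ### the charts -/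

theorem φ_eq (τ : ℝ) : ⇑(d.φ τ) = W.up M.c0 (J.cf a) := funext fun w => by
  obtain ⟨x, hx, rfl⟩ := ex_φ H w
  rw [W.up_φ (up0 H) hx]
  exact congrArg (W.φ M.c0) ((W.φ (J.cf a)).left_inv ((W.mem_src _).2 hx))

theorem φ_src (τ : ℝ) : (d.φ τ).source = d.hS ⁻¹' Iio (d.la τ) := by
  refine inter_eq_right.2 fun w _ => ?_
  obtain ⟨x, hx, rfl⟩ := ex_φ H w
  exact ⟨(W.φ (J.cf a)).map_source ((W.mem_src _).2 hx), (W.mem_src _).2 (by simp [Mark.c0, Sys.cores])⟩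

variable {τ : d.Ta} (T : Lg d τ)
include T

theorem φ_rel : Pj41.FRel d.FS.F0 (d.Gh τ).F (d.φ τ) (d.φ τ).source := by
  rw [φ_eq H]
  refine H.nW.fRel (up0 H) (sub_m H) (d.hb true).2.2.1 (d.φ τ).open_source fun w hw => funext fun i => ?_
  rw [φ_src H] at hw
  rw [Mark.mp_br (d.hb true).2.1, Met55.atx, Gh_eq, PG_e Λ (nk_τ τ) (gp0 H)]
  exact pe_out (gp_of (nk_τ τ)) (gp0 H) (h0_up H w ▸ hc_ne H w)
    (by rw [T.x, h0_up H]; exact hS_low H T hw) (by rw [px]; simp) i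

theorem hX_φ {w : (W.Z (J.cf a)).M} (hw : w ∈ (d.φ τ).source) : d.hX τ (d.φ τ w) = d.hS w := by
  rw [φ_eq H]; exact hX_up H T (hS_low H T (by rwa [φ_src H] at hw))

theorem φ_tgt : (d.φ τ).target = d.hX τ ⁻¹' Iio (d.la τ) := by
  rw [← (d.φ τ).image_source_eq_target]
  refine Subset.antisymm (forall_mem_image.2 fun w hw => ?_) fun z hz => ?_
  · rw [mem_preimage, hX_φ H T hw]; rwa [φ_src H] at hw
  · have k := hX_low H T hz
    obtain ⟨w, rfl⟩ := ex_up H (z := z) fun e => by rw [e, abs_zero] at k; linarith [T.lt]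
    exact ⟨w, by rw [φ_src H, mem_preimage, ← hX_up H T (h0_up H w ▸ k)]; exact hz, by rw [φ_eq H]⟩

theorem φ_a {w : (W.Z (J.cf a)).M} (hw : w ∈ (d.φ τ).source) (i : Option κ) :
    (d.Gh τ).a i (d.φ τ w) = d.FS.G0.a i w := by
  have h1 := (φ_rel H T).e i w hw
  have h2 := H.nΛ.ln (up0 H) (sub_m H) (J.Θ d.y.s)
  rw [Mark.mp_br (d.hb true).2.1] at h2
  rw [φ_eq H] at h1 ⊢
  refine (congrArg (fun v => Line51.rl (((Λ.Λ J.m M.c0).ln _).cm _ _ v)) h1.symm).trans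
    ((congrArg Line51.rl (Line51.cm_pull (((Λ.Λ J.m M.c0).ln_on _).sm _ trivial)
      (W.md_up (up0 H) w) _).symm).trans ?_)
  rw [← h2]; rfl

omit H T in
theorem ψ_apply (z : d.Y × ℝ) : d.ψ τ z = (d.KX τ).ψ (z.1, z.2 + nl τ / 2) := rfl

theorem ψ_mem {z : d.Y × ℝ} (k : 0 < d.hZ τ z) : (z.1, z.2 + nl τ / 2) ∈ (d.KX τ).ψ.source := by
  have := abs_lt.1 (hZ_pos H T k)
  exact (d.KX τ).mem_src.2 ((X_J H T).2 ⟨by linarith [H.R1], by linarith [H.R1]⟩)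

theorem ψ_src : (d.ψ τ).source = d.hZ τ ⁻¹' Ioi 0 :=
  inter_eq_right.2 fun _ k => ⟨trivial, ψ_mem H T k⟩

theorem hX_ψ {z : d.Y × ℝ} (hz : z ∈ (d.ψ τ).source) : d.hX τ (d.ψ τ z) = d.hZ τ z := by
  have := abs_lt.1 (hZ_pos H T hz.2)
  rw [hX_eq H T, ψ_apply, (d.KX τ).tm_ψ _ (ψ_mem H T hz.2), tf_mid (by linarith [H.R1]) (by linarith [H.R1]),
    add_sub_cancel_right]
  rfl

theorem ψ_tgt : (d.ψ τ).target = d.hX τ ⁻¹' Ioi 0 := by
  rw [← (d.ψ τ).image_source_eq_target]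
  refine Subset.antisymm (forall_mem_image.2 fun w hw => ?_) fun z hz => ?_
  · rw [mem_preimage, hX_ψ H T hw]; exact hw.2
  · obtain ⟨k1, k2⟩ := hX_pos H T hz
    refine ⟨(((d.KX τ).ψ.symm z).1, (d.KX τ).tm z - nl τ / 2), by
      rw [ψ_src H T]; exact lt_of_lt_of_eq hz k2, ?_⟩
    rw [ψ_apply, sub_add_cancel, ← (d.KX τ).snd_symm k1]
    exact (d.KX τ).ψ.right_inv k1

omit T in
theorem ψ_rel : Pj41.FRel d.D.Z (d.Gh τ).F (d.ψ τ) (d.ψ τ).source :=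
  ((Pj41.fRel_of_iso (F := d.D.Z) (F' := d.D.Z) (iso_tau d.D.F.toPre (nl τ / 2))).mono
    (d.ψ τ).open_source (subset_univ _)).trans (KH H τ).rel fun _ k => k.1.2

omit T in
theorem ψ_a {z : d.Y × ℝ} (hz : z ∈ (d.ψ τ).source) (i : Option κ) :
    (d.Gh τ).a i (d.ψ τ z) = d.D.G.a i z := ((KH H τ).a i _ hz.1.2).trans (by cases i <;> rfl)

theorem ovl {z : (W.Z (J.cf a)).M} (hz : z ∈ (d.φ τ).source) {z' : d.Y × ℝ} (hz' : z' ∈ (d.ψ τ).source)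
    (e : d.φ τ z = d.ψ τ z') : ∃ b, z = (d.KS b).ψ (z'.1, z'.2 - pm b * (nl τ / 2)) ∧
      d.R0 < -pm b * (z'.2 - pm b * (nl τ / 2)) ∧ 1 ≤ pm b * z'.2 := by
  have h1 := hX_φ H T hz
  rw [e, hX_ψ H T hz'] at h1
  rw [φ_src H] at hz
  rw [φ_eq H] at e
  have h2 := hS_low H T hz
  obtain ⟨b, hb⟩ := ex_side (hc d z)
  have h3 : |hc d z| < 1 := h0_up H z ▸ (X_tgt H T).1 (e ▸ (d.KX τ).ψ.map_source hz'.1.2)
  have h4 := (S_tgt H b).2 ⟨h3, hb ▸ abs_pos.2 (hc_ne H z)⟩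
  have h5 := X_tm H T (z := W.up M.c0 (J.cf a) z) (h0_up H z ▸ h3)
  rw [h0_up H, e, ψ_apply, (d.KX τ).tm_ψ _ (ψ_mem H T hz'.2)] at h5
  have h6 := len_side T.half T.lt b (hb ▸ h2)
  dsimp only at h5
  have h7 : z'.2 - pm b * (nl τ / 2) = len 1 b (hc d z) := by linarith
  have h8 : hc d z ∈ Hs ((J.Θ d.y.s).2 d.x) b := by
    rwa [isNk_target (d.hb b) (H.ok.nk _ _ _ _ _)] at h4
  refine ⟨b, (W.up_oe (up0 H)).inj ?_, ?_, ?_⟩
  · have k1 := isNk_len (d.hb b) (H.ok.nk _ _ _ _ (d.hb b)) h8 z'.1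
    have k2 := isNk_len τ.2 (H.ok.nk _ _ _ _ τ.2) (s := hc d z) ⟨abs_lt.1 h3, .inl ((T.x 0).trans_lt T.lt)⟩ z'.1
    rw [px] at k1
    rw [show (J.Θ (d.s τ 0)).2 d.x = τ from T.x 0] at k2
    rw [h7, e, ψ_apply, h5]
    exact k2.trans ((W.up_φ (up0 H) (Mark.j_not_mem _ (.inl ⟨H.hd, hc_ne H z⟩))).symm.trans
      (congrArg _ k1.symm))
  · rw [h7, ← S_tm H b h4]
    exact gh_pos (by linarith [H.R1]) (hS_side H b (hb ▸ abs_nonneg _) ▸ h1 ▸ hz'.2)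
  · have k1 := dp_eq b (hc d z)
    have k2 := dp_anti (by linarith [T.lt]) h2
    have k3 := dp_le T.half T.lt
    rw [← h7, hb] at k1
    cases b <;> simp only [pm, if_true, Bool.false_eq_true, if_false] at k1 ⊢ <;> linarith

omit T in
/-- **LEAF GEO** -/
theorem geo : d.Geo where
  act := act H
  len := (ev_lg H).mono fun _ T => ⟨T.lt, T.x⟩
  la := tendsto_ka.comp (tendsto_atTop_add_const_right _ (-d.R0) (tendsto_dp.comp (tendsto_lg H)))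
  fam := geo_fam H
  φ := (ev_lg H).mono fun τ T => ⟨(φ_rel H T).iso (FS_ok H).G0.vol (Gh_ok H τ).vol, φ_src H τ,
    φ_tgt H T, fun _ k => ⟨hX_φ H T k, φ_a H T k⟩⟩
  ψ := (ev_lg H).mono fun τ T => ⟨(ψ_rel H).iso (Int54.isVol_cyl (H.ok.xs _).1.vol) (Gh_ok H τ).vol,
    ψ_src H T, ψ_tgt H T, fun _ k => ⟨hX_ψ H T k, ψ_a H k⟩⟩
  ovl := (ev_lg H).mono fun _ T _ k _ k' => ovl H T k k'

end Crest.Agent.X212.Gb50
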