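import Crest.Agent.X212.Gb50.Mx
import Crest.Agent.X212.Loc45.Defs

/-!
# Row 212, GL-LOCS (helper50): LEAF GEO-E
-/

set_option autoImplicit false
set_option linter.unusedSectionVars false
noncomputable section
open scoped Manifold ContDiff Topology
open Set Function Filter Metric

namespace Crest.Agent.X212.Gb50
open An An.Job M Prm93 Cht98 Nd18 Gj67
open Loc45 (brk cd_brk brk_eq brk_ne brk_x jb θE QE FE GeoE)

variable {Wi : Type} {X : Mf 4} {A κ lam : Type} [Fintype A] [Fintype κ] [Fintype lam]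
  [DecidableEq lam] {M : Mark X A κ} {W : World M} {L : ML M lam} {Λ : Lns W L}
  {A' h : Type} [Fintype A'] [DecidableEq A'] [Fintype h] {r n : ℕ}
  {J : Job Wi Λ A' h r n} {σ : Cel A'} {a : A'}
  {U Up R : Type} [NormedAddCommGroup U] [NormedSpace ℝ U] [NormedAddCommGroup Up]
  [NormedSpace ℝ Up] [NormedAddCommGroup R] [NormedSpace ℝ R] {d : Dat J σ a U Up R}
  {q₀ : Wi →₀ ℝ} {δ : ℝ}

theorem brk_par {x : A} {p : Prm A} (k : p.2 ∈ M.sys.Par) (e : 0 < p.2 x) :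
    (brk x p).2 ∈ M.sys.Par := by
  refine ⟨fun y => ?_, k.2.mono fun y i j => ?_⟩ <;> by_cases c : y = x
  · rw [c, brk_x]; exact ⟨zero_le_one, le_rfl⟩
  · rw [brk_ne _ c]; exact k.1 y
  · exact e.ne' (c ▸ j)
  · exact i ((brk_ne _ c).trans j)

variable (d) in
/-- the parameters of the family `FE` -/
abbrev thE (v : ℝ × Tc σ a) : Prm A := brk d.x (th d (1 - v.1 ^ 2, v.2))

variable (H : d.OK q₀ δ)
include H

theorem cd_thE : ContDiff ℝ ∞ (thE d) :=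
  (cd_brk _).comp ((cd_th H).comp (f := fun v : ℝ × Tc σ a => (1 - v.1 ^ 2, v.2)) (by fun_prop))

theorem thE_zero : thE d 0 = J.Θ d.y.s := by
  rw [← brk_eq (px d), ← s_one H]; simp [thE]

theorem brk_O {p : Prm A} (k : Gp M J.m d.x p) : brk d.x p ∈ M.O (J.cf a).1 := fun y hy =>
  have e : y ≠ d.x := fun e => hy.1 ((mem_cf H).2 e)
  (brk_ne p e).trans_lt (k.o y e)

theorem brk_Br {p : Prm A} (k : Gp M J.m d.x p) (k' : p.2 ∈ M.sys.Par) :
    brk d.x p ∈ M.Br (J.cf a).1 :=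
  ⟨brk_par k' (one_half_pos.trans_le k.half), fun _ hy => (mem_cf H).1 hy ▸ brk_x _ _⟩

theorem ev_thE : ∀ᶠ v in 𝓝 (0 : ℝ × Tc σ a), thE d v ∈ M.O (J.cf a).1 ∧ thE d v ∈ M.Br (J.cf a).1 :=
  (((show Continuous fun v : ℝ × Tc σ a => (1 - v.1 ^ 2, v.2) by fun_prop).tendsto' 0 (1, 0)
    (by simp)).eventually (ev_gp H)).mono fun _ k =>
      have k := k (sub_le_self _ (sq_nonneg _)); ⟨brk_O H k.1, brk_Br H k.1 k.2.1⟩

theorem FE_ok : (FE d).OK :=
  wFam_ok Λ (Θ := thE d) (d.hb true).2.2.1 (isOpen_pre (cd_thE H).continuous) (cd_thE H).contDiffOn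
    (fun _ k => k) isClopen_univ isClopen_univ subset_rfl

theorem E_ok : (Loc45.E d).OK :=
  have S := H.okS
  ⟨FE_ok H, ⟨rfl, rfl⟩, (ev_thE H).self_of_nhds.1, S.ok, S.conn, S.cp, S.cρ, S.cj, S.cA, S.cΦ, S.pos,
    S.cb, S.pb, S.cd, S.bp, S.mo, S.lo, S.h0, S.ch⟩

theorem fu_E : ∃ r > 0, EC (⊤ : Filter Unit) fun _ C => FU (FE d) r C := by
  obtain ⟨r, r0, k⟩ := Metric.nhds_basis_closedBall.mem_iff.1 (ev_thE H)
  have o := isOpen_pre (M := M) (c := J.cf a) (cd_thE H).continuous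
  exact ⟨r, r0, fu_fam (FE_ok H) (fun t ht => (k ht).1) ((tame_unif W (m := J.m)
    ((isCompact_closedBall 0 r).image (cd_thE H).continuous)
    (forall_mem_image.2 fun t ht => cylAt_of_O (k ht).1)).imp fun _ e t ht =>
      e _ ⟨t, ht, rfl⟩ (k ht).1 (k ht).2.1)
    (sb_lr (isCompact_thk W.toCaps _ _ one_pos (by norm_num)) o
      (jf_W o (cd_thE H).contDiffOn fun _ k => k) fun _ ht => agr_thk Λ (d.hb true).2.2.1 ht)⟩

theorem su_E : EC (⊤ : Filter Unit) fun _ C => SU (Loc45.E d) C :=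
  have S := H.okS
  ((((UC.of_cb S.cp).ec.and (EC.all fun i => (UC.of_cb (S.cρ i)).ec)).and
    ((UC.of_cb S.cj).ec.and (EC.all fun i => (UC.of_cb (S.cA i)).ec))).and
    (((UC.of_cb S.cΦ).ec.and (UC.of_cb S.cb).ec).and
    ((EC.all fun i => (UC.of_cb (S.cd i)).ec).and (EC.all fun i => (UC.of_cb (S.ch i)).ec)))).mono
    (.of_forall fun _ _ k => ⟨k.1.1.1, k.1.1.2, k.1.2.1, k.1.2.2, k.2.1.1, k.2.1.2, k.2.2.1, k.2.2.2⟩)

/-- **LEAF GEO-E** -/
theorem geoE : GeoE d :=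
  let ⟨r, r0, k⟩ := fu_E H
  let ⟨C, k⟩ := (k.and (su_E H)).ex
  ⟨E_ok H, r, r0, C, eventually_top.1 k ()⟩

end Crest.Agent.X212.Gb50
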