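import Crest.Agent.X212.Gb50.Mx

/-!
# Row 212, GL (helper50): LEAF BASE
-/

set_option autoImplicit false
set_option linter.unusedSectionVars false
noncomputable section
open scoped Manifold ContDiff Topology
open Set Function Filter Real

namespace Crest.Agent.X212.Gb50
open An An.Job M Prm93 Cht98 Nd18 Gj67 Sob92
open Pj41 (FRel GRel fRel_of_iso)
open Cay24 (At ev_at mix_lit mix_hi lit_ψ B_eq)
open Cyf70 (IC)

variable {Wi : Type} {X : Mf 4} {A κ lam : Type} [Fintype A] [Fintype κ] [Fintype lam]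
  [DecidableEq lam] {M : Mark X A κ} {W : World M} {L : ML M lam} {Λ : Lns W L}
  {A' h : Type} [Fintype A'] [DecidableEq A'] [Fintype h] {r n : ℕ}
  {J : Job Wi Λ A' h r n} {σ : Cel A'} {a : A'}
  {U Up R : Type} [NormedAddCommGroup U] [NormedSpace ℝ U] [NormedAddCommGroup Up]
  [NormedSpace ℝ Up] [NormedAddCommGroup R] [NormedSpace ℝ R] {d : Dat J σ a U Up R}
  {q₀ : Wi →₀ ℝ} {δ : ℝ} {V : Type} [NormedAddCommGroup V] [NormedSpace ℝ V]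
  {f : (W.Z (J.cf a)).M → V} {g : d.Y × ℝ → V}

theorem sm_χ (τ : d.Ta) : Sm (W.Z M.c0).I (d.χ τ) :=
  smoothTransition.contDiff.contMDiff.comp ((d.sm_hX τ).sub contMDiff_const)

section
variable {τ : d.Ta} (G : At d τ)
include G

theorem χ_one {z} (hz : z ∉ (d.φ τ).target) : z ∈ (d.ψ τ).target ∧ ∀ᶠ y in 𝓝 z, d.χ τ y = 1 := by
  rw [G.φ.2.2.1] at hz
  have k : d.la τ ≤ d.hX τ z := not_lt.1 hz
  refine ⟨G.ψ.2.2.1 ▸ show 0 < d.hX τ z by linarith [G.la], ?_⟩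
  filter_upwards [(d.sm_hX τ).continuous.continuousAt.eventually_const_lt
    (show d.la τ - 1 < d.hX τ z by linarith)] with y hy
  exact smoothTransition.one_of_one_le (by linarith)

theorem χ_zero {z} (hz : z ∉ (d.ψ τ).target) : ∀ᶠ y in 𝓝 z, d.χ τ y = 0 := by
  rw [G.ψ.2.2.1] at hz
  have k : d.hX τ z ≤ 0 := not_lt.1 hz
  filter_upwards [(d.sm_hX τ).continuous.continuousAt.eventually_lt_const
    (show d.hX τ z < d.la τ - 2 by linarith [G.la])] with y hy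
  exact smoothTransition.zero_of_nonpos (by linarith)

theorem sup_φ : Sup (d.φ τ) fun z => 1 - d.χ τ z :=
  .of fun _ hz => (χ_one G hz).2.mono fun _ e => by rw [e, sub_self]

theorem sup_ψ : Sup (d.ψ τ) (d.χ τ) := .of fun _ => χ_zero G

theorem sm_mix (hf : Sm (W.Z (J.cf a)).I f) (hg : Sm (IC (J.xs d.x).Y.I) g) :
    Sm (W.Z M.c0).I (d.mix τ f g) :=
  (sm_ps (fRel_of_iso G.φ.1) (sup_φ G) (contMDiff_const.sub (sm_χ τ)) hf).add
    (sm_ps (fRel_of_iso G.ψ.1) (sup_ψ G) (sm_χ τ) hg)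

theorem fix_mix {P : (W.Z M.c0).M → V →L[ℝ] V} (e : ∀ w ∈ (d.φ τ).source, P (d.φ τ w) (f w) = f w)
    (e' : ∀ w ∈ (d.ψ τ).source, P (d.ψ τ w) (g w) = g w) (z) :
    P z (d.mix τ f g z) = d.mix τ f g z := by
  rw [Dat.mix, map_add, (sup_φ G).fix e, (sup_ψ G).fix e']

variable (H : d.OK q₀ δ)
include H

theorem mix_ψ {g : d.Y → V} (l : d.Lit f fun z => g z.1) {z} (hz : z ∈ (d.ψ τ).source) :
    d.mix τ f (fun z => g z.1) (d.ψ τ z) = g z.1 := by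
  by_cases k : d.ψ τ z ∈ (d.φ τ).target
  · have e := (d.φ τ).right_inv k
    obtain ⟨b, h1, h2, -⟩ := G.ovl _ ((d.φ τ).map_target k) z hz e
    rw [← e, mix_lit H G l ((d.φ τ).map_target k), h1, lit_ψ l h2]
  · rw [G.φ.2.2.1] at k
    exact mix_hi _ _ hz (by linarith [(not_lt.1 k : d.la τ ≤ d.hX τ _)])

theorem ch_φ : Ch d.S (d.Xs τ) (d.φ τ) :=
  ⟨(fRel_of_iso G.φ.1).gRel (by rw [φ_eq H]; exact B_eq H) fun i w hw => ((G.φ.2.2.2 w hw).2 i).symm,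
    fun _ => mix_lit H G H.lp, fun i _ => mix_lit H G (H.lρ i), fun _ => mix_lit H G H.lj⟩

theorem ch_ψ : Ch (d.Z τ) (d.Xs τ) (d.ψ τ) :=
  ⟨⟨fRel_of_iso G.ψ.1, fun i j _ hw => .trans (by cases i <;> cases j <;> rfl)
    ((d.KX τ).P i j _ hw.1.2).symm,
    fun i j k l _ hw => ((d.KX τ).o i j k l _ hw.1.2).symm, fun _ hw => ((d.KX τ).l _ hw.1.2).symm,
    (d.KX τ).il.symm, fun i w hw => ((G.ψ.2.2.2 w hw).2 i).symm⟩,
    fun _ => mix_ψ G H H.lp, fun i _ => mix_ψ G H (H.lρ i), fun _ => mix_ψ G H H.lj⟩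

theorem md_ok : (d.Xs τ).md.OK (W.Z M.c0).I (J.B M.c0) :=
  Pj41.okOn_univ.1 (.of_local H.okS.ok.Jsq H.okS.ok.Jsk fun z _ => (em (z ∈ (d.φ τ).target)).elim
    (fun k => ⟨_, k, (ch_φ G H).okOn H.okS⟩) fun k => ⟨_, (χ_one G k).1, (ch_ψ G H).okOn (H.okZ τ)⟩)

theorem A0_conn : (d.Xs τ).md.IsConn (J.B M.c0) (d.Gh τ) (d.Xs τ).A0 :=
  ((Loc66.connOn_mix (sm_χ τ) (d.φ τ).open_target (d.ψ τ).open_target ((ch_φ G H).connOn H.okS)
    ((ch_ψ G H).connOn (H.okZ τ)) (fun _ _ => (em _).imp_right (χ_one G)) fun _ _ => (em _).imp_right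
      fun k => notMem_tsupport_iff_eventuallyEq.2 (χ_zero G k)).congr isOpen_univ
    fun i z _ => (Loc66.mix_eq _ _ _ i z).symm).isConn (md_ok G H)

theorem Xs_ok {C : ℕ → ℝ} (k : SU (d.Xs τ) C) : (d.Xs τ).OK where
  fam := FX_ok H τ
  om := ⟨rfl, rfl⟩
  q0 := (nk_τ τ).O
  ok := md_ok G H
  conn := A0_conn G H
  cp := ⟨C, k.p⟩
  cρ i := ⟨C, k.ρ i⟩
  cj := ⟨C, k.j⟩
  cA i := ⟨C, k.A i⟩
  cΦ := ⟨C, k.Φ⟩
  pos := fix_mix G (fun w hw => by rw [(ch_φ G H).pp hw]; exact H.okS.pos w)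
    fun w hw => by rw [(ch_ψ G H).pp hw]; exact (H.okZ τ).pos w
  cb := ⟨C, k.b⟩
  pb z u := fix_mix G (f := fun w => d.S.b w u) (g := fun w => (d.Z τ).b w u)
    (fun w hw => by rw [(ch_φ G H).p1 hw]; exact H.okS.pb w u)
    (fun w hw => by rw [(ch_ψ G H).p1 hw]; exact (H.okZ τ).pb w u) z
  cd i := ⟨C, k.dr i⟩
  bp := ⟨sm_mix G contMDiff_const (H.okZ τ).bp.1, .of_compactSpace _⟩
  mo := ⟨sm_mix G contMDiff_const (H.okZ τ).mo.1, .of_compactSpace _⟩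
  lo := ⟨sm_mix G H.okS.lo.1 contMDiff_const, .of_compactSpace _⟩
  h0 _ := Gl67.ka_nonneg _
  ch i := ⟨C, k.h i⟩

end

variable (H : d.OK q₀ δ)
include H

omit H in
theorem ub_st : UB fun (τ : d.Ta) u => smoothTransition (u - (d.la τ - 2)) := by
  simpa only [one_mul, ← sub_eq_add_neg] using
    UB.of Neck67.sm_step (s := 1) (by simp) fun τ : d.Ta => -(d.la τ - 2)

omit H in
theorem uc_hZ (i : Option κ) : UC d.lg (fun _ => d.D.Z.toPre) fun τ => d.D.Z.D i (d.hZ τ) :=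
  (UC.tent d.R0 (fun τ : d.Ta => τ) (fun _ => 0) (fun _ => d.D.nk.sm_τ)
    (fun j => (cbs_Dτ d.D).imp fun _ k => .of_forall fun _ => k d.D.nk j) i).congr
      (.of_forall fun τ => congrArg _ (funext fun z => by simp [Dat.hZ, Nk.τ, YD.nk, tf]))

theorem uc_mix (kf : d.FS.F0.Cb f) (kg : d.D.Z.Cb g) :
    UC d.lg (fun τ => (d.FX τ).F0.toPre) fun τ => d.mix τ f g :=
  (uc_ps (c' := fun (τ : d.Ta) w => 1 + (-1 : ℝ) • smoothTransition (d.hS w - (d.la τ - 2)))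
    (F := fun τ => (d.FX τ).F0) (F' := fun _ => d.FS.F0) (φ := fun τ => d.φ τ) (c := fun τ z => 1 - d.χ τ z)
    ((ev_at (geo H)).mono fun τ G => ⟨fRel_of_iso G.φ.1, sup_φ G, contMDiff_const.sub (sm_χ τ),
      fun w hw => by rw [Dat.χ, (G.φ.2.2.2 w hw).1, neg_one_smul, ← sub_eq_add_neg]⟩) (Cb.sm kf)
    (((UC.const 1).add ((UC.const _).smul (UC.comp ub_st (fun _ => d.sm_hS)
      fun i => .of_cb (H.okS.ch i)))).smul (.of_cb kf))).add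
  (uc_ps (c' := fun (τ : d.Ta) w => smoothTransition (d.hZ τ w - (d.la τ - 2)))
    (F := fun τ => (d.FX τ).F0) (F' := fun _ => d.D.Z) (φ := d.ψ) (c := d.χ)
    ((ev_at (geo H)).mono fun τ G => ⟨fRel_of_iso G.ψ.1, sup_ψ G, sm_χ τ,
      fun w hw => by rw [Dat.χ, (G.ψ.2.2.2 w hw).1]⟩) (Cb.sm kg)
    ((UC.comp ub_st (fun τ => d.sm_hZ τ) uc_hZ).smul (.of_cb kg)))

theorem su_Xs : ∃ C, ∀ᶠ τ in d.lg, SU (d.Xs τ) C :=
  have S := H.okS
  have Z := H.okZ 0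
  (((((uc_mix H S.cp Z.cp).ec.and (EC.all fun i => (uc_mix H (S.cρ i) (Z.cρ i)).ec)).and
    ((uc_mix H S.cj Z.cj).ec.and (EC.all fun i => (uc_mix H (S.cA i) (Z.cA i)).ec))).and
    (((uc_mix H S.cΦ Z.cΦ).ec.and (uc_mix H S.cb Z.cb).ec).and
      ((EC.all fun i => (uc_mix H (S.cd i) (Z.cd i)).ec).and (EC.all fun i => (uc_hX H i).ec)))).mono
    (.of_forall fun _ _ k => ⟨k.1.1.1, k.1.1.2, k.1.2.1, k.1.2.2, k.2.1.1, k.2.1.2, k.2.2.1,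
      k.2.2.2⟩)).ex

theorem φ_x0 (τ : ℝ) (i : h) : d.φ τ (J.cut (J.cf a) i).x0 = (J.cut M.c0 i).x0 := by
  rw [φ_eq H]
  exact W.up_φ (up0 H) (Set.disjoint_left.1 (show i ∈ J.unc (J.cf a) from H.unc ▸ trivial)
    ((H.ok.nb i).2.sub ⟨(0, 0), rfl⟩))

/-- **LEAF BASE** -/
theorem base : d.Base := (su_Xs H).imp fun C k => by
  filter_upwards [k, ev_at (geo H), eventually_all.2 fun i : h =>
    (geo H).la.eventually_gt_atTop (d.hS (J.cut (J.cf a) i).x0)] with τ k G e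
  refine ⟨Xs_ok G H k, k, fun z hz => (ch_φ G H).pC hz ⟨rfl, rfl⟩ ⟨rfl, rfl⟩,
    fun z hz => (ch_ψ G H).pC hz ⟨rfl, rfl⟩ ⟨rfl, rfl⟩, fun i => ?_⟩
  rw [← φ_x0 H τ i]
  exact ((ch_φ G H).pp (by rw [G.φ.2.1]; exact e i)).symm ▸ (d.y.ψ i).2

end Crest.Agent.X212.Gb50
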