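import Crest.Agent.X212.Gb50.Pfn
import Crest.Agent.X212.Lcz33.Nk
import Crest.Agent.X212.Mon62.NkI
import Crest.Agent.X212.Iz83.Noz

/-! # Row 212, GL-LOCS (helper50): the necks of the pair -/

set_option autoImplicit false
set_option linter.unusedSectionVars false
noncomputable section
open scoped Manifold ContDiff Topology NNReal
open MeasureTheory Set Function Filter TopologicalSpace

namespace Crest.Agent.X212.Gb50
open An An.Job M Nd18 Gj67 Sob92 Loc45
open Rsp69 (Cx Tw Ub)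
open Gl67 (ka)

theorem gh_ka {R : ℝ} (hR : 1 ≤ R) (s : ℝ) : gh R s = ka (s - R) := by
  rcases le_total 1 s with k | k
  · exact gh_one k
  · rw [Gl67.ka_zero (by linarith : s - R ≤ 0)]
    exact (Gl67.ka_nonneg _).eq_or_lt'.resolve_right fun e => by
      linarith [gh_pos (by linarith) e]

theorem ka_abs (s t : ℝ) : |ka s - ka t| ≤ |s - t| := by
  wlog k : t ≤ s generalizing s t
  · rw [abs_sub_comm, abs_sub_comm s]; exact this t s (le_of_not_ge k)
  rw [abs_of_nonneg (sub_nonneg.2 (Gl67.ka_mono k)), abs_of_nonneg (sub_nonneg.2 k)]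
  exact Gl67.ka_lip k

section gen
variable {E3 : Type} [NormedAddCommGroup E3] [NormedSpace ℝ E3] [FiniteDimensional ℝ E3]
  [MeasurableSpace E3] [BorelSpace E3]
  {H3 : Type} [TopologicalSpace H3] {I3 : ModelWithCorners ℝ E3 H3} [I3.Boundaryless]
  {Y : Type} [TopologicalSpace Y] [ChartedSpace H3 Y] [IsManifold I3 ∞ Y] [T2Space Y]
  [MeasurableSpace Y] [BorelSpace Y] [SecondCountableTopology Y] [CompactSpace Y]
  {κ : Type} [Fintype κ] {lam : Type} [Fintype lam]
  {E : Type} [NormedAddCommGroup E] [NormedSpace ℝ E] [FiniteDimensional ℝ E]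
  [MeasurableSpace E] [BorelSpace E]
  {HM : Type} [TopologicalSpace HM] {I : ModelWithCorners ℝ E HM} [I.Boundaryless]
  {M : Type} [TopologicalSpace M] [ChartedSpace HM M] [IsManifold I ∞ M]
  [MeasurableSpace M] [BorelSpace M] [T2Space M] [SecondCountableTopology M]
  {D : YD I3 Y κ lam} {B : Base M (Option κ) lam} {G G' : Geo I M (Option κ) lam}
  {r n : ℕ} {K : Nk D B G} {K' : Nk D B G'} {x : M}

theorem same (e : K.p = K'.p ∧ K.q = K'.q ∧ ∀ z ∈ K'.ψ.source, K.ψ z = K'.ψ z) :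
    K.ψ.source = K'.ψ.source ∧ K.ψ.target = K'.ψ.target := by
  have s : K.ψ.source = K'.ψ.source := by rw [K.src, K'.src, e.1, e.2.1]
  refine ⟨s, ?_⟩
  rw [← K.ψ.image_source_eq_target, ← K'.ψ.image_source_eq_target, s]
  exact image_congr e.2.2

theorem pt_off (N : ND Y lam) (q : YW I3 Y →₀ ℝ) (c : Cfg M (Option κ) lam r)
    (hx : x ∉ K.ψ.target) :
    (N.pt K q : Pt _ _ _ r n).D c x = 0 ∧ (N.pt K q : Pt _ _ _ r n).C c x = 0 := by
  have h1 := Eqv71.D_τ_off K hx
  have h2 : ∀ T, N.oc K T c x = 0 := fun T => mul_eq_zero_of_left (Nka63.cut_τ_zero K (by norm_num)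
    fun e => hx (Nka63.O_sub K (by norm_num) e)) _
  simp only [ND.pt, Pt.add, fsum, ND.q2, ND.q1, Dgr80.DG.q1, h2, show (N.dg (r := r) K).τ = K.τ from rfl,
    h1, zero_smul, smul_zero, Finsupp.sum_fun_zero, Finset.sum_const_zero, neg_zero, add_zero, true_and]
  exact (congrArg _ ((congrArg _ rfl).trans (map_zero _))).trans (smul_zero _)

theorem pt_offs (N : ND Y lam) (q : YW I3 Y →₀ ℝ) (s : ℝ) (c : Cfg M (Option κ) lam r)
    (hx : x ∉ K.ψ.target) : ((N.pt K q : Pt _ _ _ r n).smul s).D c x = 0 ∧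
      ((N.pt K q : Pt _ _ _ r n).smul s).C c x = 0 :=
  ⟨(congrArg (s • ·) (pt_off N q c hx).1).trans (smul_zero s),
    (congrArg (s • ·) (pt_off N q c hx).2).trans (smul_zero s)⟩

theorem pt_el {𝒟 : Type*} {X : Cx I M (Option κ) 𝒟} {T : Tw X lam} {P : NQ D T} {n₀ j : ℕ}
    {c : T.CF n₀} {N : ND Y lam} (h : NQ.NH P c N j) (q : YW I3 Y →₀ ℝ) {s : 𝒟 → ℝ}
    (hs : Ub X.l fun d => ‖s d‖) :
    (T.EL (N := c.SV) j fun d i => ((N.pt (n := 0) (P.K d i) q).smul (s d)).D (c.c d i)) ∧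
    T.EL (N := c.S2) j fun d i => ((N.pt (n := 0) (P.K d i) q).smul (s d)).C (c.c d i) :=
  have a := (Tw.EC.const (T := T) (k := j) (N := fun _ => ℝ) hs).el
  have b := fun t : ℝ => (Tw.EC.const (T := T) (k := j) (N := fun _ => ℝ) (.const ‖t‖)).el
  ⟨a.smul h.h7 le_rfl (h.q1D.add (.sum q.support fun T _ => (b (q T)).smul h.h7 le_rfl (h.q2D T.2))),
    a.smul h.h7 le_rfl (h.q1C.add (.sum q.support fun T _ => (b (q T)).smul h.h7 le_rfl (h.q2C T.2)))⟩

theorem sm_noz (N : ND Y lam) (K : Nk D B G) (q : YW I3 Y →₀ ℝ) (s : ℝ) (c : Cfg M (Option κ) lam r) :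
    ((N.pt (n := 0) K q).smul s).D (noz c) = ((N.pt (n := n) K q).smul s).D c ∧
    ((N.pt (n := 0) K q).smul s).C (noz c) = ((N.pt (n := n) K q).smul s).C c :=
  ⟨funext fun x => congrArg (s • ·) (congrFun (Iz83.pt_noz N K c q).1.symm x),
    funext fun x => congrArg (s • ·) (congrFun (Iz83.pt_noz N K c q).2.symm x)⟩

end gen

variable {Wi : Type} {X : Mf 4} {A κ lam : Type} [Fintype A] [Fintype κ] [Fintype lam]
  [DecidableEq lam] {M : Mark X A κ} {W : World M} {L : ML M lam} {Λ : Lns W L}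
  {A' h : Type} [Fintype A'] [DecidableEq A'] [Fintype h] {r n : ℕ}
  {J : Job Wi Λ A' h r n} {σ : Cel A'} {a : A'}
  {U Up R : Type} [NormedAddCommGroup U] [NormedSpace ℝ U] [NormedAddCommGroup Up]
  [NormedSpace ℝ Up] [NormedAddCommGroup R] [NormedSpace ℝ R]
  {d : Dat J σ a U Up R} {q₀ : Wi →₀ ℝ} {δ : ℝ} {k : ℕ} (I : Ix d q₀ δ k)

theorem bd_src {O : Clopens (W.Z (J.cf a)).M} {e : I.𝒟} {y} (hy : y ∈ (I.cx O).bd 0 e) :
    y ∈ O ∧ d.hS y < d.la (I.τ e) ∧ y ∈ (I.φ e).source := by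
  have k : I.tm O e y ≤ I.Q e := (hy.2 _ rfl).trans (sub_zero _).le
  have k' : d.hS y < d.la (I.τ e) := (Ix.tm_ge y).trans_lt (k.trans_lt (sub_lt_self _ two_pos))
  exact ⟨Ix.tm_le k, k', by rw [φ_src I.ok]; exact k'⟩

/-- the other necks -/
def nqO {x : A} (hx : x ≠ d.x) (hk : ∀ e, J.Ac M.c0 (I.s e) (x, none)) : NQ (J.xs x).D (I.T ⊤) where
  K e i := Bool.rec (J.K _ x none _ (((I.lit e).ac_none I.ok hx).2 (hk e))) (J.K _ x none _ (hk e)) i
  cor _ := ⟨0, le_rfl, .of_forall fun e y hy => by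
    obtain ⟨e1, e2, e3, e4⟩ := Lit.nk_none I.ok hx (((I.lit e).ac_none I.ok hx).2 (hk e)) (hk e)
    have s := (J.K _ x none _ (hk e)).src
    rw [e1, e2, ← Nk.src] at s
    by_cases c : y ∈ (J.K _ x none _ (((I.lit e).ac_none I.ok hx).2 (hk e))).ψ.target
    · obtain ⟨z, hz, rfl⟩ := (OpenPartialHomeomorph.image_source_eq_target _).ge c
      exact .inr ⟨z, fun i => by cases i; exacts [⟨hz, rfl⟩, ⟨s.ge hz, (e3 z hz).symm⟩],
        .inl e1, .inl e2⟩
    · refine .inl fun i => ?_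
      cases i
      · exact c
      · intro c'
        obtain ⟨z, hz, e5⟩ := (OpenPartialHomeomorph.image_source_eq_target _).ge c'
        have m := OpenPartialHomeomorph.map_source _ (s.le hz)
        refine c ((I.φ e).injOn ?_ (bd_src I hy).2.2 ((e3 z (s.le hz)).symm.trans e5) ▸ m)
        rw [φ_src I.ok]
        exact (e4 _ m).trans_lt (two_pos.trans (I.lit e).ta.la)⟩
  sub := .of_forall fun e => by
    obtain ⟨e1, e2, -⟩ := Lit.nk_none I.ok hx (((I.lit e).ac_none I.ok hx).2 (hk e)) (hk e)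
    exact (congrArg₂ (Dp · · 1) e1 e2).le
  lip := .of_forall fun e y z hz z' hz' k => by
    obtain ⟨-, -, -, e4⟩ := Lit.nk_none I.ok hx (((I.lit e).ac_none I.ok hx).2 (hk e)) (hk e)
    refine ⟨_, rfl, le_of_eq_of_le ?_ (abs_nonneg _)⟩
    exact abs_eq_zero.2 (sub_eq_zero.2 ((tm_top I e _).trans ((e4 _ (OpenPartialHomeomorph.map_source _
      hz')).trans ((tm_top I e _).trans (e4 _ (mem_of_eq_of_mem k
        (OpenPartialHomeomorph.map_source _ hz)))).symm)))

/-- the moving ends -/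
abbrev kS (e : I.𝒟) (b : Bool) := J.K _ d.x (some b) _ (((I.lit e).acS_some I.ok).2 rfl)

/-- the moving long neck -/
abbrev kX (e : I.𝒟) := J.K _ d.x none _ (I.lit e).acX_x

theorem ev_nl (c : ℝ) : ∀ᶠ e in I.l, c ≤ nl (I.τ e) / 2 :=
  (I.tτ.eventually ((geo I.ok).la.eventually_ge_atTop c)).mono fun e k => by
    have T := (I.lit e).lg
    have h1 := dp_le T.half T.lt
    have h2 := Gl67.ka_lip (show 0 ≤ dp ((1 - I.τ e) / 2) - d.R0 by linarith [T.dp])
    rw [Gl67.ka_zero le_rfl] at h2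
    exact k.trans (show ka (dp ((1 - I.τ e) / 2) - d.R0) ≤ _ by linarith [I.ok.R1])

/-- the shifted long neck -/
abbrev kL (e : I.𝒟) (b : Bool) := Lcz33.shift (kX I e) (bif b then nl (I.τ e) else 0)
  (I.ok.okZ 0).fam.G0.vol (I.ubX e).vol

theorem kS_pq (e : I.𝒟) (b : Bool) :
    (kS I e b).p = (bif b then none else some 0) ∧ (kS I e b).q = bif b then some 0 else none := by
  have c := I.ok.ok.nk _ _ _ _ (((I.lit e).acS_some (b := b) I.ok).2 rfl)
  rw [c.lo, c.hi]
  cases b <;> simp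

theorem kL_pq (e : I.𝒟) (b : Bool) : (kL I e b).p = some (bif b then -nl (I.τ e) else 0) ∧
    (kL I e b).q = some (bif b then 0 else nl (I.τ e)) := by
  obtain ⟨e1, e2, -⟩ := (I.lit e).nk_X I.ok (I.lit e).acX_x
  constructor
  · refine (congrArg (Option.map _) e1).trans ?_
    cases b <;> simp
  · refine (congrArg (Option.map _) e2).trans ?_
    cases b <;> simp

theorem hS_kS (e : I.𝒟) (b : Bool) {z} (hz : z ∈ (kS I e b).ψ.source) :
    (kS I e b).ψ z = (d.KS b).ψ z ∧ z ∈ (d.KS b).ψ.source ∧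
      d.hS ((kS I e b).ψ z) = ka (-pm b * z.2 - d.R0) := by
  have e1 := Lit.nk_S I.ok (((I.lit e).acS_some (b := b) I.ok).2 rfl)
  have k := (same e1).1.le hz
  exact ⟨e1.2.2 z k, k, by rw [e1.2.2 z k, hS_ψ I.ok b k, gh_ka I.ok.R1]⟩

/-- the long neck seen from the end `b` -/
def nqL (b : Bool) (O : Clopens (W.Z (J.cf a)).M) (h1 : (d.KS b).ψ.target ⊆ O)
    (h2 : ∀ x ∈ O, 0 ≤ pm b * hc d x) : NQ d.D (I.T O) where
  K e i := Bool.rec (kS I e b) (kL I e b) i
  cor L := ⟨0, le_rfl, (ev_nl I L).mono fun e hL y hy => by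
    have T := (I.lit e).lg
    have eX := (I.lit e).nk_X I.ok (I.lit e).acX_x
    replace eX := And.intro (eX.1.trans (X_p I.ok T).symm) (And.intro (eX.2.1.trans
      (X_q I.ok T).symm) eX.2.2)
    obtain ⟨y1, y2, y3⟩ := bd_src I hy
    by_cases c : y ∈ (kS I e b).ψ.target
    · obtain ⟨z, hz, rfl⟩ := (OpenPartialHomeomorph.image_source_eq_target _).ge c
      obtain ⟨z1, z2, z3⟩ := hS_kS I e b hz
      obtain ⟨x1, x2⟩ := X_S I.ok T b z2 (z1 ▸ y3)
      have x3 : -pm b * z.2 < nl (I.τ e) / 2 := lt_of_not_ge fun k => (z3 ▸ y2).not_ge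
        (Gl67.ka_mono (sub_le_sub_right (by linarith [dp_le T.half T.lt] :
          dp ((1 - I.τ e) / 2) ≤ _) _))
      refine .inr ⟨z, fun i => ?_, ?_⟩
      · cases i
        exacts [⟨hz, rfl⟩, ⟨⟨trivial, (same eX).1.ge x1⟩,
          (congrArg _ z1).trans (x2.symm.trans (eX.2.2 _ x1).symm)⟩]
      · show Loc45.Ag (kL I e b).p (kL I e b).q (kS I e b).p (kS I e b).q L z.2
        rw [(kL_pq I e b).1, (kL_pq I e b).2, (kS_pq I e b).1, (kS_pq I e b).2]
        cases b <;> simp [Loc45.Ag, Dp, pm] at x3 ⊢ <;> linarith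
    · refine .inl fun i => ?_
      cases i
      · exact c
      · intro c'
        have k := (X_tgt I.ok T).1 ((same eX).2.le c'.1)
        rw [show (I.T O).ψ e true y = W.up M.c0 (J.cf a) y from congrFun (φ_eq I.ok _) y,
          h0_up I.ok] at k
        refine c ((same (Lit.nk_S I.ok _)).2.ge ((S_tgt I.ok b).2 ⟨k, (h2 y y1).lt_of_ne' ?_⟩))
        exact mul_ne_zero (by cases b <;> simp [pm]) (hc_ne I.ok y)⟩
  sub := .of_forall fun e => by
    show Dp (kL I e b).p (kL I e b).q 1 ⊆ Dp (kS I e b).p (kS I e b).q 1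
    rw [(kL_pq I e b).1, (kL_pq I e b).2, (kS_pq I e b).1, (kS_pq I e b).2]
    cases b <;> simp +contextual [Dp, subset_def]
  lip := .of_forall fun e y z hz z' hz' k => by
    have t : ∀ z ∈ (kS I e b).ψ.source, I.tm O e ((kS I e b).ψ z) = ka (-pm b * z.2 - d.R0) :=
      fun z hz => let ⟨z1, z2, z3⟩ := hS_kS I e b hz
        (Ix.tm_of (h1 (z1 ▸ (d.KS b).ψ.map_source z2))).trans z3
    refine ⟨_, rfl, (congrArg abs (congrArg₂ (· - ·) (t z' hz') ((congrArg _ k).trans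
      (t z hz)))).trans_le ((ka_abs _ _).trans_eq ?_)⟩
    cases b <;> simp [pm, abs_sub_comm, neg_add_eq_sub]

/-! ### the sum over the necks -/

open Classical in
theorem asm {V : Type} [NormedAddCommGroup V] [NormedSpace ℝ V]
    (u : ∀ e x, Nk (J.xs x).D (J.B (J.cf a)) (I.GS e) → (W.Z (J.cf a)).M → V)
    (v : ∀ e x, Nk (J.xs x).D (J.B M.c0) (I.GX e) → (W.Z M.c0).M → V)
    (nq : ∀ O x (P : NQ (J.xs x).D (I.T O)), (I.T O).EL (N := fun _ => V) k
      (I.sc O (fun e => u e x (P.K e false)) fun e => v e x (P.K e true)))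
    (off : ∀ e x K, ∀ z ∉ K.ψ.target, u e x K z = 0) (sh : ∀ e b, v e _ (kL I e b) = v e _ (kX I e)) :
    (I.T ⊤).EL (N := fun _ => V) k (I.sc ⊤
      (fun e z => ∑ i, if h : (jb J d.x).Ac (J.cf a) (I.s e) i then u e i.1 (J.K _ _ _ _ h) z else 0)
      fun e z => ∑ i, if h : J.Ac M.c0 (I.s e) i then v e i.1 (J.K _ _ _ _ h) z else 0) := by
  refine (Tw.EL.sum (N := fun _ => V) Finset.univ (u := fun x => I.sc ⊤ (fun e z => ∑ b,
    if h : (jb J d.x).Ac (J.cf a) (I.s e) (x, b) then u e x (J.K _ _ _ _ h) z else 0) fun e z => ∑ b,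
      if h : J.Ac M.c0 (I.s e) (x, b) then v e x (J.K _ _ _ _ h) z else 0) fun x _ => ?_).congr'
        fun e i z => by
          cases i <;> dsimp only [Ix.sc] <;> rw [Fintype.sum_prod_type]
  have nX := fun e => Lit.acX_some (d := d) (τ := I.τ e) (t := (I.p e).1)
  by_cases hx : x = d.x
  · subst hx
    obtain ⟨c, c1, c2⟩ := clopen_side I.ok
    have key : ∀ b (O : Clopens (W.Z (J.cf a)).M), (d.KS b).ψ.target ⊆ O →
        (∀ x ∈ O, 0 ≤ pm b * hc d x) → (I.T O).EL (N := fun _ => V) k (I.sc O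
          (fun e z => ∑ b, u e _ (kS I e b) z) fun e => v e _ (kX I e)) := fun b O h1 h2 =>
      Rsp69.Cx.Pr.congr (nq O _ (nqL I b O h1 h2)) ⟨0, le_rfl, .of_forall fun e y hy i => by
        cases i
        · refine (Fintype.sum_eq_single (f := fun b => u e _ (kS I e b) y) b fun b' hb =>
            off e _ _ _ fun k => ?_).symm
          have k1 := ((S_tgt I.ok b').1 ((same (Lit.nk_S I.ok _)).2.le k)).2
          have k2 := h2 y (bd_src I hy).1
          cases b <;> cases b' <;> simp [pm] at hb k1 k2 <;> exact k1.not_ge k2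
        · exact congrFun (sh e b) _⟩
    have h1 := key false ⟨_, c⟩ c1 fun x (hx : _ < _) => by simpa [pm] using hx.le
    have h2 := key true ⟨_, c⟩ᶜ c2 fun x hx => by simpa [pm] using show ¬hc d x < 0 from hx
    refine Tw.EL.congr' ⟨fun i => hk_glue I _ (h1.b i) (h2.b i), hk_glue I _ h1.d h2.d⟩
      fun e i z => ?_
    cases i
    · exact ((Fintype.sum_option _).trans ((congrArg (· + _) (dif_neg (Lit.acS_x I.ok))).trans
        ((zero_add _).trans (Finset.sum_congr rfl fun b _ => dif_pos _)))).symm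
    · exact ((Fintype.sum_option _).trans ((congrArg₂ (· + ·) (dif_pos (I.lit e).acX_x)
        (Finset.sum_eq_zero fun b _ => dif_neg (nX e _ b))).trans (add_zero _))).symm
  · have nS := fun e b => mt ((I.lit e).acS_some (x := x) (b := b) I.ok).1 hx
    rcases I.act x with hk | hk
    · refine (nq ⊤ x (nqO I hx hk)).congr' fun e i z => ?_
      cases i
      · exact ((Fintype.sum_option _).trans ((congrArg₂ (· + ·) (dif_pos _)
          (Finset.sum_eq_zero fun b _ => dif_neg (nS e b))).trans (add_zero _))).symm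
      · exact ((Fintype.sum_option _).trans ((congrArg₂ (· + ·) (dif_pos _)
          (Finset.sum_eq_zero fun b _ => dif_neg (nX e _ b))).trans (add_zero _))).symm
    · refine Tw.EL.zero.congr' fun e i z => ?_
      cases i
      · refine (Finset.sum_eq_zero fun b _ => dif_neg ?_).symm
        cases b
        exacts [mt ((I.lit e).ac_none I.ok hx).1 (hk e), nS e _]
      · refine (Finset.sum_eq_zero fun b _ => dif_neg ?_).symm
        cases b
        exacts [hk e, nX e _ _]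

variable (J) in
/-- the neck terms with given coefficients -/
abbrev npt (q : ∀ x, YW (J.xs x).Y.I (J.xs x).Y.M →₀ ℝ) (c : M.Cl) (s : A' → ℝ) :
    Pt (W.Z c).M (Option κ) (lam ⊕ lam) r n :=
  Pt.dsum (J.Ac c s) fun i hi => ((J.xs i.1).N.pt (J.K c i.1 i.2 _ hi) (q i.1)).smul (J.ν i.1 s)

open Classical in
variable (J) in
theorem τ0_eq (hJ : ∀ x, ContDiff ℝ ∞ (J.xs x).N.φ) {c : M.Cl} {s : A' → ℝ} {x : Cfg (W.Z c).M (Option κ) (lam ⊕ lam) r}
    {C : ℕ → ℝ} (h1 : (J.G c s).F.Tame C) (h2 : x.m.IsConn (J.B c) (J.G c s) x.W) (z) :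
    (npt J 0 c s).D x z = (J.τ0 c s).D x z ∧ (npt J 0 c s).C x z = (J.τ0 c s).C x z := by
  have k := fun i hi => Mon62.q1_smul (n := n) (J.K c i.1 i.2 _ hi) (Mp86.bumps_of_tame _ h1) h2
    (hJ i.1) (J.ν (i : A × Option Bool).1 s) z
  constructor <;> refine Finset.sum_congr rfl fun i _ => dite_congr rfl (fun hi => ?_) fun _ => rfl
  exacts [(congrArg _ (add_zero _)).trans (k i hi).1.symm,
    (congrArg _ (add_zero _)).trans (k i hi).2.symm]

variable (J) in
theorem nkw_eq (c : M.Cl) (s : A' → ℝ) (w : Wi) (x : Cfg (W.Z c).M (Option κ) (lam ⊕ lam) r) (z) :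
    (npt J (fun y => (J.xs y).ty w) c s).D x z - (npt J 0 c s).D x z = (nkw J c s w).D x z ∧
    (npt J (fun y => (J.xs y).ty w) c s).C x z - (npt J 0 c s).C x z = (nkw J c s w).C x z := by
  constructor <;> refine Finset.sum_sub_distrib .. |>.symm.trans (Finset.sum_congr rfl fun i _ => ?_) <;>
    split_ifs <;> simp [Pt.smul, ND.pt, Pt.add, fsum, Finsupp.sum_smul_index', Finsupp.smul_sum,
      mul_smul]

variable {I} (hC : I.CgS)
include hC

theorem cl_npt (q : ∀ x, YW (J.xs x).Y.I (J.xs x).Y.M →₀ ℝ) :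
    I.Cl ⊤ (fun e => npt (jb J d.x) q _ (I.s e)) fun e => npt J q _ (I.s e) := by
  have H := fun O x (P : NQ (J.xs x).D (I.T O)) => pt_el (P := P) (c := I.c O)
    ⟨(hC O).1, (I.ok.ok.xs x).2, I.γN x⟩ (q x) (ub_co I (I.ok.ok.ν x))
  have sh := fun e b => Lcz33.pt_sh (n := n) (J.xs d.x).N (kX I e) (I.cX e)
    (bif b then nl (I.τ e) else 0) (I.ok.okZ 0).fam.G0.vol (I.ubX e).vol (FX_ok I.ok (I.τ e)).B
    (I.lit e).okX (I.ubX e).tame (I.ok.ok.xs _).2 (have a := (I.ubX e).gd.adm;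
      ⟨a.ok, a.conn, a.sm, a.pos⟩) (q _)
  have z1 := fun e x (K : Nk (J.xs x).D (J.B (J.cf a)) (I.GS e)) => sm_noz (n := n) (J.xs x).N K (q x) (J.ν x (I.s e)) (I.cS e)
  have z2 := fun e x (K : Nk (J.xs x).D (J.B M.c0) (I.GX e)) => sm_noz (n := n) (J.xs x).N K (q x) (J.ν x (I.s e)) (I.cX e)
  constructor
  · refine asm (V := Eu (Fin d.N)) I
      (fun e x K => (((J.xs x).N.pt (n := n) K (q x)).smul (J.ν x (I.s e))).D (I.cS e))
      (fun e x K => (((J.xs x).N.pt (n := n) K (q x)).smul (J.ν x (I.s e))).D (I.cX e))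
      (fun O x P => ((H O x P).1.of_le k.le_succ).congr (.of_forall fun e i => ?_))
      (fun e x K z hz => (pt_offs (n := n) _ _ _ (I.cS e) hz).1)
      fun e b => funext fun z => congrArg (J.ν _ (I.s e) • ·) (sh e b z).1
    cases i
    exacts [(z1 e x _).1, (z2 e x _).1]
  · refine asm (V := Fm (Option κ × Option κ) (HS (Fin d.N))) I
      (fun e x K => (((J.xs x).N.pt (n := n) K (q x)).smul (J.ν x (I.s e))).C (I.cS e))
      (fun e x K => (((J.xs x).N.pt (n := n) K (q x)).smul (J.ν x (I.s e))).C (I.cX e))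
      (fun O x P => ((H O x P).2.of_le k.le_succ).congr (.of_forall fun e i => ?_))
      (fun e x K z hz => (pt_offs (n := n) _ _ _ (I.cS e) hz).2)
      fun e b => funext fun z => congrArg (J.ν _ (I.s e) • ·) (sh e b z).2
    cases i
    exacts [(z1 e x _).2, (z2 e x _).2]

/-- **LEAF NK** -/
theorem nkS : I.NkS := by
  have h0 := cl_npt hC 0
  have sm := fun x => (I.ok.ok.xs x).2.sm
  have e1 := fun e => τ0_eq (jb J d.x) (c := J.cf a) (s := I.s e) (x := I.cS e) sm (I.ubS e).tame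
    (I.ubS e).gd.adm.conn
  have e2 := fun e => τ0_eq J (c := M.c0) (s := I.s e) (x := I.cX e) sm (I.ubX e).tame
    (I.ubX e).gd.adm.conn
  refine ⟨⟨h0.D.congr' fun e i z => ?_, h0.C.congr' fun e i z => ?_⟩, fun w =>
    have h1 := cl_npt hC fun y => (J.xs y).ty w
    ⟨(h1.D.sub h0.D).congr' fun e i z => ?_, (h1.C.sub h0.C).congr' fun e i z => ?_⟩⟩ <;> cases i
  exacts [(e1 e z).1, (e2 e z).1, (e1 e z).2, (e2 e z).2, (nkw_eq (jb J d.x) _ _ w _ z).1,
    (nkw_eq J _ _ w _ z).1, (nkw_eq (jb J d.x) _ _ w _ z).2, (nkw_eq J _ _ w _ z).2]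

/-- only the configurations remain -/
theorem fin_cg (fw : Fw I) : I.Fin := fin_of fw hC (nkS hC)

end Crest.Agent.X212.Gb50
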