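import Crest.Agent.X212.Gb50.Lb

/-!
# Row 212, GL-LOCS (helper94, helper50): `LocS` from `LipE` and `LocB`
-/

set_option autoImplicit false
set_option linter.unusedSectionVars false
noncomputable section
open scoped Manifold ContDiff Topology InnerProductSpace ENNReal NNReal
open MeasureTheory Set Function Filter

namespace Crest.Agent.X212.Gb50.Tri
open An An.Job M Nd18 Mod61 Prm93 Gj67 Loc45
open Gl67 (Sid Sd Cm Eqn PP WW GG g0 q2 SmO smO)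

section gen
variable {E : Type} [NormedAddCommGroup E] [NormedSpace ℝ E] [FiniteDimensional ℝ E]
  [MeasurableSpace E] [BorelSpace E]
  {HM : Type} [TopologicalSpace HM] {I : ModelWithCorners ℝ E HM}
  {M : Type} [TopologicalSpace M] [ChartedSpace HM M] [IsManifold I ∞ M]
  [MeasurableSpace M] [T2Space M] [BorelSpace M] {ι : Type} [Fintype ι]
  {V Γ : Type} [NormedAddCommGroup V] [NormedSpace ℝ V] [NormedAddCommGroup Γ]

theorem tri3 {F : Pre I M ι} {g : M → ℝ} {O A B : Set M} {k : ℕ} {u v x : M → V} {a b c : Γ}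
    {η : ℝ≥0} (hO : IsOpen O) (hA : MeasurableSet A) (h : A ⊆ O) (hB : A ⊆ B) (hg : Continuous g)
    (hu : Sm I u) (hv : Sm I v) (hx : SmO I O x)
    (h1 : Gl67.N F g B k (u - v) + q2 (a - b) ≤ (η / 4 : ℝ≥0))
    (h2 : Gl67.N F g A k (v - x) + q2 (b - c) ≤ (η / 4 : ℝ≥0)) :
    Gl67.N F g A k (u - x) + q2 (a - c) ≤ η := by
  have k1 := Gl67.N_add (F := F) (k := k) hO hA h hg ((smO hu).sub (smO hv)) ((smO hv).sub hx)
  have k2 := Gl67.q2_tri (a - c) (b - c)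
  rw [sub_add_sub_cancel] at k1
  rw [sub_sub_sub_cancel_right] at k2
  refine (add_le_add k1 k2).trans ?_
  rw [add_add_add_comm, ← mul_add, ← mul_add, ← mul_add]
  refine (mul_le_mul_right (add_le_add ((add_le_add (Gl67.N_mono hB) le_rfl).trans h1) h2)
    2).trans_eq ?_
  norm_cast
  ring

variable [I.Boundaryless] [SecondCountableTopology M] {lam h T T' U Up R : Type} [Fintype lam] [Fintype h]
  [NormedAddCommGroup T] [NormedSpace ℝ T] [NormedAddCommGroup T'] [NormedSpace ℝ T']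
  [NormedAddCommGroup U] [NormedSpace ℝ U] [NormedAddCommGroup Up] [NormedSpace ℝ Up]
  [NormedAddCommGroup R] [NormedSpace ℝ R] {N r n m : ℕ} {Jc : En (Fin N)} {B : Base M ι lam}
  {F0 : Fr I M ι} {G0 : Geo I M ι lam} {G : T → Geo I M ι lam} {G' : T' → Geo I M ι lam} {Q : Set T}
  {Q' : Set T'} (s : Sid (Met55.fam B F0 G0 G Q univ univ) N Jc U Up R)

/-- the same side over another family -/
@[reducible] def ov (G' : T' → Geo I M ι lam) (Q' : Set T') :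
    Sid (Met55.fam B F0 G0 G' Q' univ univ) N Jc U Up R :=
  ⟨s.p, s.ρ, s.j, s.A0, s.Φ0, s.b, s.dr, s.bp, s.mo, s.lo, s.ht, s.sh⟩

variable {t : T} {t' : T'} (e : G' t' = G t)
include e

theorem eF_fam {ε : T → PtX M ι lam r n m} {ε' : T' → PtX M ι lam r n m} (e' : ε' t' = ε t)
    (c : Cm N r h R) (w) (q) : (ov s G' Q').eF c ε' w (t', q) = s.eF c ε w (t, q) :=
  congrArg₂ (fun g u => (ov s (fun _ : ℝ => g) univ).eF c (fun _ => u) w (0, q)) e e'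

theorem eR_fam {ct : h → Cut M lam} {ε : Eqn (Met55.fam B F0 G0 G Q univ univ) r n m ct}
    {ε' : Eqn (Met55.fam B F0 G0 G' Q' univ univ) r n m ct} (e' : ε'.e t' = ε.e t)
    (e'' : ε'.σ t' = ε.σ t) (c : Cm N r h R) (w) (q) :
    (ov s G' Q').eR c ε' w (t', q) = s.eR c ε w (t, q) :=
  congrArg₂ (fun g (u : _ × ∀ i, Pc r B (ct i)) => (ov s (fun _ : ℝ => g) univ).eR c
    ⟨fun _ => u.1, fun _ => u.2⟩ w (0, q)) e (Prod.ext e' e'' : (ε'.e t', ε'.σ t') = (ε.e t, ε.σ t))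

end gen

variable {Wi : Type} {X : Mf 4} {A κ lam : Type} [Fintype A] [Fintype κ] [Fintype lam]
  [DecidableEq lam] {M : Mark X A κ} {W : World M} {L : ML M lam} {Λ : Lns W L}
  {A' h : Type} [Fintype A'] [DecidableEq A'] [Fintype h] {r n : ℕ}
  {J : Job Wi Λ A' h r n} {σ : Cel A'} {a : A'}
  {U Up R : Type} [NormedAddCommGroup U] [NormedSpace ℝ U] [NormedAddCommGroup Up]
  [NormedSpace ℝ Up] [NormedAddCommGroup R] [NormedSpace ℝ R]

variable (J) in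
/-- the job with a constant background -/
@[reducible] def jp (p : Prm A) : Job Wi Λ A' h r n :=
  { J with 𝒦 := ∅, hd := fun _ => none, Θ := fun _ => p }

theorem eqX_jb {x : A} {s : A' → ℝ} (e : brk x (J.Θ s) = J.Θ s) (c : M.Cl) (q : Wi →₀ ℝ) :
    eqX (jb J x) c q s = eqX J c q s ∧ (jb J x).σc c q s = J.σc c q s := by
  have h1 : (jb J x).τ c q s = J.τ c q s := congrArg (fun p => (jp J p).τ c q s) e
  have h2 : (jb J x).G c s = J.G c s := congrArg (Λ.G J.m c) e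
  exact ⟨by simp only [eqX, h1, h2], funext₂ fun i y => by simp only [Job.σc, h2]; rfl⟩

variable {d : Dat J σ a U Up R} {q₀ : Wi →₀ ℝ} {δ : ℝ} {k : ℕ}

theorem θE_zero (t : Tc σ a) : θE d (0, t) = d.s 1 t := by simp [θE]

theorem par_eq (H : d.OK q₀ δ) (t : Tc σ a) : brk d.x (J.Θ (d.s 1 t)) = J.Θ (d.s 1 t) := by
  obtain ⟨s₀, h0, h1⟩ := H.ok.lin
  have e : d.s 1 t a = 1 := by simp [ee]
  exact brk_eq ((h1 a _ H.hd _ (h0.le.trans_eq e.symm)).1.trans e)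

theorem G_eq (H : d.OK q₀ δ) (t : Tc σ a) : (jb J d.x).G (J.cf a) (θE d (0, t)) = J.G _ (d.s 1 t) := by
  rw [θE_zero]; exact congrArg (Λ.G J.m _) (par_eq H t)

theorem E_eq (H : d.OK q₀ δ) (q : Wi →₀ ℝ) (w) (p : PP (Tc σ a) U r h d.N) :
    (sE d q).E w ((0, p.1), p.2) = (d.sS q).E w p :=
  eF_fam d.S (G' := (FE d).G) (Q' := QE d) (t' := (0, p.1)) (G_eq H p.1) (ε' := (εE d q).e) (show eqX _ _ q (θE d (0, p.1)) = _ by
    rw [θE_zero]; exact (eqX_jb (par_eq H p.1) _ q).1) d.cm w p.2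

theorem e_eq (H : d.OK q₀ δ) (q : Wi →₀ ℝ) (w) (p : PP (Tc σ a) U r h d.N) :
    (sE d q).e w ((0, p.1), p.2) = (d.sS q).e w p :=
  eR_fam d.S (G' := (FE d).G) (Q' := QE d) (t' := (0, p.1)) (G_eq H p.1) (ε' := εE d q) (ε := d.εS q) (show eqX _ _ q (θE d (0, p.1)) = _ by
    rw [θE_zero]; exact (eqX_jb (par_eq H p.1) _ q).1)
    (show (jb J d.x).σc _ q (θE d (0, p.1)) = _ by rw [θE_zero]; exact (eqX_jb (par_eq H p.1) _ q).2)
    d.cm w p.2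

theorem norm_up {P Q : Type} [SeminormedAddCommGroup P] [SeminormedAddCommGroup Q] {s ρ : ℝ}
    {p : P × Q} (hs : |s| ≤ ρ) (hp : ‖p‖ ≤ ρ) : ‖((s, p.1), p.2)‖ ≤ ρ :=
  max_le (max_le hs ((norm_fst_le p).trans hp)) ((norm_snd_le p).trans hp)

/-- **LOCS-TRI** -/
theorem locS_of (H : d.OK q₀ δ) (geo : d.Geo) (base : d.Base) (oke : d.Oke q₀)
    (hE : LipE d q₀ δ k) (hB : LocB d q₀ δ k) : d.LocS q₀ δ k := fun α l τ q hτ hq => by
  obtain ⟨ρ₁, C, p1, oE, lE⟩ := hE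
  obtain ⟨ρ₂, p2, b2⟩ := hB α l τ q hτ hq
  obtain ⟨ρ₃, p3, -, -, o3⟩ := oke
  obtain ⟨_, hb⟩ := base
  lift ρ₃ to ℝ≥0 using p3.le
  obtain ⟨ρ, p0, e1, e2, e3⟩ : ∃ ρ : ℝ≥0, 0 < ρ ∧ ρ ≤ ρ₁ ∧ ρ ≤ ρ₂ ∧ ρ ≤ ρ₃ :=
    ⟨ρ₁ ⊓ (ρ₂ ⊓ ρ₃), by simp_all, by simp⟩
  refine ⟨ρ, p0, fun t η hη => ?_⟩
  have η4 : 0 < η / 4 := by positivity
  have t0 : Tendsto (fun i => |√(1 - (τ i : ℝ))|) l (𝓝 0) := by
    simpa using ((tendsto_const_nhds (x := (1 : ℝ))).sub (tendsto_comap_iff.1 hτ)).sqrt.abs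
  have t1 : Tendsto (fun i => (C : ℝ≥0∞) * ENNReal.ofReal (|√(1 - (τ i : ℝ))| ^ 2)) l (𝓝 0) := by
    simpa using ENNReal.Tendsto.const_mul (a := C) (ENNReal.tendsto_ofReal (t0.pow 2))
      (.inr ENNReal.coe_ne_top)
  filter_upwards [b2 t _ η4, hτ.eventually (geo.φ.and (hb.and (o3.and
    (geo.la.eventually_gt_atTop t)))), t0.eventually_le_const (NNReal.coe_pos.2 p1),
    t1.eventually_le_const (ENNReal.coe_pos.2 η4)] with i a1 ⟨a2, a3, a4, a5⟩ a6 a7 w hw sw p hp hQ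
  have mt : (d.sS q₀).Mt (d.sX (τ i) (q i)) (d.φ (τ i)) :=
    ⟨a2.1, fun z hz => (a2.2.2.2 z hz).1, a3.2.2.1⟩
  have cv : (d.sS q₀).Cov (d.sX (τ i) (q i)) (d.φ (τ i)) (Iic t) :=
    ⟨(preimage_mono (Iic_subset_Iio.2 a5)).trans a2.2.1.ge,
      (preimage_mono (Iic_subset_Iio.2 a5)).trans a2.2.2.1.ge⟩
  have cg : Continuous (g0 δ) := Gl67.cd_pr.continuous
  have s1 := (Sd.pull_sec mt cv hw sw).1
  have s2 := (Sd.Q_pull (k := k + 1) d.sm_hS (d.sm_hX _) mt cv measurableSet_Iic cg hw sw).trans_le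
    (hQ.trans (ENNReal.coe_le_coe.2 e1))
  have n1 := norm_up (s := 0) (abs_zero.trans_le ρ₁.2) (hp.trans e1)
  have n2 : ‖up d (τ i) p‖ ≤ ρ₁ := norm_up a6 (hp.trans e1)
  have L := lE 0 0 0 le_rfl le_rfl le_rfl _ s1 _ s1 _ _ n1 n2 s2 s2
  have u1 := oE.smE _ s1 _ n1
  rw [sub_self, Sd.Q_zero, zero_add, E_eq H, e_eq H] at L
  rw [E_eq H] at u1
  refine tri3 (d.φ (τ i)).open_source (d.sm_hS.continuous.measurable measurableSet_Iic) cv.1
    (preimage_mono (subset_univ _)) (cg.comp d.sm_hS.continuous) u1 (oE.smE _ s1 _ n2)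
    (SmO.comp a2.1 ((a4.1 _).smE w hw p (hp.trans e3))) (L.trans (le_of_eq_of_le ?_ a7))
    (a1 w hw sw p (hp.trans e2) (hQ.trans (ENNReal.coe_le_coe.2 e2)))
  simp [q2, Loc45.up, Prod.norm_def]

/-- **LEAF LOC-S** from `LipE` and `PertS` -/
theorem locS (H : d.OK q₀ δ) (hS : Gb50.Sd Λ) (oke : d.Oke q₀) (hE : LipE d q₀ δ k)
    (hP : PertS d q₀ δ k) : d.LocS q₀ δ k :=
  locS_of H (geo H) (base H) oke hE (locB_of H hS hP)

end Crest.Agent.X212.Gb50.Tri
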