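import Crest.Agent.X212.Gb50.Base
import Crest.Agent.X212.Bki64.Frz

/-!
# Row 212, GL (helper50): LEAF ZERO
-/

set_option autoImplicit false
set_option linter.unusedSectionVars false
noncomputable section
open scoped Manifold ContDiff Topology
open Set Function Filter

namespace Crest.Agent.X212.Gb50
open An An.Job M Prm93 Cht98 Nd18 Gj67 Sob92 Dgr80 Cyc79
open Gl67 (Sid Cm PP crow)
open Cyf70 (IC)

section gen
variable {E : Type} [NormedAddCommGroup E] [NormedSpace ℝ E] [FiniteDimensional ℝ E]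
  [MeasurableSpace E] [BorelSpace E]
  {HM : Type} [TopologicalSpace HM] {I : ModelWithCorners ℝ E HM} [I.Boundaryless]
  {M : Type} [TopologicalSpace M] [ChartedSpace HM M] [IsManifold I ∞ M]
  [MeasurableSpace M] [T2Space M] [BorelSpace M] [SecondCountableTopology M]
  {ι lam : Type} [Fintype ι] [Fintype lam] {r n : ℕ}

/-! ### the neck terms do not see `z` -/

section noz
variable (F : Fr I M ι) (c : Cfg M ι lam r)

theorem la_noz : (noz c).la F = c.la F := funext fun t => by cases t <;> rfl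
theorem lt_noz : (noz c).lt F = c.lt F := funext fun t => by cases t <;> rfl
theorem laS_noz : laS (noz c) = laS c := funext fun t => by cases t <;> rfl
theorem ltS_noz : ltS F (noz c) = ltS F c := funext fun t => by cases t <;> rfl
theorem pk_noz : Dgr80.pk (noz c) = Dgr80.pk c := funext fun t => by cases t <;> rfl
theorem nw_noz : nw F (noz c) = nw F c := by funext u; unfold nw; rw [lt_noz]; rfl
theorem swA_noz : swA F (noz c) = swA F c := by funext u l; unfold swA; rw [ltS_noz]; rfl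
theorem swP_noz : swP F (noz c) = swP F c := by funext u l; unfold swP; rw [ltS_noz]; rfl
theorem bf_noz : bf F (noz c) = bf F c := by funext f f'; unfold bf; rw [la_noz]; rfl
theorem gh_noz : Cyc79.gh F (Nd18.noz c) = Cyc79.gh F c := by
  funext f f' w w' l x; unfold Cyc79.gh; rw [bf_noz]; rfl

/-- seeds which do not see `z` -/
def SZ (S₀ : Sed M ι lam 0) (S : Sed M ι lam r) : Prop :=
  S₀.s (noz c) = S.s c ∧ S₀.sA (noz c) = S.sA c ∧ S₀.sP (noz c) = S.sP c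

/-- densities which do not see `z` -/
def DZ (d₀ : Den M ι lam 0) (d : Den M ι lam r) : Prop :=
  d₀.h (noz c) = d.h c ∧ d₀.gA (noz c) = d.gA c ∧ d₀.gP (noz c) = d.gP c

theorem sz_cy (d : Cy M) (w : List (La M)) : SZ c ((d.sed F).wd F w) ((d.sed F).wd F w) := by
  have h1 : (d.sed F).s (noz c) = (d.sed F).s c := by
    funext x; simp only [Cy.sed, Cy.al, Cy.be, bf_noz]; rfl
  have h2 : (d.sed F).sA (noz c) = (d.sed F).sA c := by
    funext l x; simp only [Cy.sed, gh_noz]; rfl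
  exact ⟨by simp only [Sed.wd, la_noz, h1]; rfl, by funext l x; simp only [Sed.wd, laS_noz, h1, h2]; rfl,
    rfl⟩

theorem dz_sw (χ : M → ℝ) (T : Pk M lam) (u v : SW M) :
    DZ c (dcut χ (Den.sw F T u v)) (dcut χ (Den.sw F T u v)) := by
  refine ⟨?_, ?_, ?_⟩ <;> simp only [dcut, Den.sw, pk_noz, nw_noz, swA_noz, swP_noz] <;> rfl

end noz

variable {E3 : Type} [NormedAddCommGroup E3] [NormedSpace ℝ E3] [FiniteDimensional ℝ E3]
  [MeasurableSpace E3] [BorelSpace E3]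
  {H3 : Type} [TopologicalSpace H3] {I3 : ModelWithCorners ℝ E3 H3} [I3.Boundaryless]
  {Y : Type} [TopologicalSpace Y] [ChartedSpace H3 Y] [IsManifold I3 ∞ Y] [T2Space Y]
  [MeasurableSpace Y] [BorelSpace Y] [SecondCountableTopology Y] [CompactSpace Y]
  {κ : Type} [Fintype κ] {D : YD I3 Y κ lam} (N : ND Y lam)

section nk
variable {B : Base M (Option κ) lam} {G : Geo I M (Option κ) lam} (K : Nk D B G)
  (c : Cfg M (Option κ) lam r)

theorem dz_dg (j : N.J) : DZ c ((N.dg K).d j) ((N.dg K).d j) := by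
  rcases j with j | j | j
  · show DZ c (K.den (N.d0 j)) (K.den (N.d0 j))
    cases N.d0 j with
    | sw u v => exact dz_sw _ _ _ _ _ _
    | cy d w d' w' =>
      have a := sz_cy G.F c (K.cyc d) (w.map K.la)
      have b := sz_cy G.F c (K.cyc d') (w'.map K.la)
      refine ⟨?_, ?_, ?_⟩ <;>
        simp only [Nk.den, dcut, Den.sed, a.1, b.1, a.2.1, b.2.1, a.2.2, b.2.2] <;> rfl
  · exact dz_sw _ _ _ _ _ _
  · exact dz_sw _ _ _ _ _ _

theorem q1_noz (x : M) :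
    (N.q1 K : Pt _ _ _ 0 0).D (noz c) x = (N.q1 K : Pt _ _ _ r n).D c x ∧
    (N.q1 K : Pt _ _ _ 0 0).C (noz c) x = (N.q1 K : Pt _ _ _ r n).C c x := by
  have e : (N.dg K).Iv G.F (noz c) = (N.dg K).Iv G.F c :=
    funext fun t => funext fun j => congrArg (wn _ _ _ · t) (dz_dg N K c j).1
  have b : ∀ j, (N.dg K).β G.F (noz c) j = (N.dg K).β G.F c j := fun j => by
    unfold DG.β DG.co; rw [e]; rfl
  have g : (N.dg K).gA G.F (noz c) x = (N.dg K).gA G.F c x := by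
    simp only [DG.gA, b, (dz_dg N K c _).2.1]; rfl
  have g' : (N.dg K).gP G.F (noz c) x = (N.dg K).gP G.F c x := by
    simp only [DG.gP, b, (dz_dg N K c _).2.2]; rfl
  simp only [ND.q1, DG.q1, g, g']
  exact ⟨rfl, rfl⟩

theorem oc_noz (T : YT Y) (x : M) : N.oc K T c x = N.oc K T (noz c) x := rfl

end nk

variable {N} in
/-- **critical points solve the neck equations for every `z`** -/
theorem crit_z {β : YC Y κ lam} (k : N.Crit D β) (q : YW I3 Y →₀ ℝ)
    {c : Cfg (Y × ℝ) (Option κ) lam r} (e : noz c = cy β) (x : Y × ℝ) :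
    c.eD D.G (N.pt D.nk q : Pt _ _ _ r n) x = 0 ∧ c.eC D.B D.G (N.pt D.nk q : Pt _ _ _ r n) x = 0 := by
  have h0 : ∀ T, N.oc D.nk T c x = 0 := fun T => by
    rw [oc_noz, e]; exact Bki64.oc_cy ⟨k.sol.toAdm, k.tmp⟩ T x
  have h1 := k.sol.D x
  have h2 := k.sol.C x
  rw [← e] at h1 h2
  simp only [Cfg.eD, Cfg.eC, (q1_noz (n := n) N D.nk c x).1, (q1_noz (n := n) N D.nk c x).2] at h1 h2
  simp only [Cfg.eD, Cfg.eC, ND.pt, Pt.add, fsum, ND.q2, h0, Finsupp.sum, zero_smul, smul_zero,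
    Finset.sum_const_zero, add_zero]
  exact ⟨h1, h2⟩

/-! ### sides at `w = 0` -/

variable {h T U Up R : Type} [Fintype h] [NormedAddCommGroup T] [NormedSpace ℝ T]
  [NormedAddCommGroup U] [NormedSpace ℝ U] [NormedAddCommGroup Up] [NormedSpace ℝ Up]
  [NormedAddCommGroup R] [NormedSpace ℝ R] {N₀ m : ℕ} {Jc : En (Fin N₀)}
  {𝔉 : Mod61.Fam I M ι lam T} {s : Sid 𝔉 N₀ Jc U Up R} (c : Cm N₀ r h R) {q : PP T U r h N₀}

theorem cfg_zero (H : s.OK) (hS : ∀ x a b, 𝔉.S q.1 x a b = 𝔉.B.P a b x) (hc : ∀ x, 𝔉.cf q.1 x = 0)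
    (hl : ∀ x, 𝔉.la q.1 x = 0) :
    s.cfg c 0 q = ⟨s.md, fun a x => s.A0 a x + opL (s.b x q.2.1 a), s.Φ0, c.z0 + q.2.2.1⟩ := by
  refine Pj41.cfg_ext rfl rfl rfl (funext₂ fun a x => ?_) (funext fun x => by simp)
  have e : idx (𝔉.S q.1 x) (.id ℝ _) (s.b x q.2.1) = s.b x q.2.1 := by
    rw [← H.pb x q.2.1, Md.p1, Map77.idx_idx]
    simp only [hS, (H.fam.B.pr x).idem, ContinuousLinearMap.id_comp]
  simp [Md.addC, Mod61.Fam.W0, e, hS, hc, hl, H.conn.cc.proj]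

theorem eF_zero (e : T → Mod61.PtX M ι lam r n m) (x : M) (hD : (e q.1).D (s.cfg c 0 q) x = 0)
    (hC : (e q.1).C (s.cfg c 0 q) x = 0) : s.eF c e 0 q x = 0 :=
  Prod.ext (show s.row q.1 0 x = 0 by simp [Sid.row, Op.app, Pre.op, Pre.D_def, dv_const])
    (Prod.ext hD (Prod.ext hC (show s.bp x • s.pk 0 = 0 by simp [Sid.pk])))

theorem crow_zero {k : Cut M lam} {B : Base M ι lam} {F : Fr I M ι} {σ : Pc r B k}
    {c c' : Cfg M ι lam r} {ψ : k.H B c.m} (e : k.Sol B F σ c ψ) (e' : c' = c)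
    {ψ' : L2c (Fin c'.m.N)} (e'' : ψ' ≍ ψ.1) : crow k B F σ c' ψ' = 0 := by
  subst e'; obtain rfl := eq_of_heq e''; simp [crow, e.2]

end gen

variable {Wi : Type} {X : Mf 4} {A κ lam : Type} [Fintype A] [Fintype κ] [Fintype lam]
  [DecidableEq lam] {M : Mark X A κ} {W : World M} {L : ML M lam} {Λ : Lns W L}
  {A' h : Type} [Fintype A'] [DecidableEq A'] [Fintype h] {r n : ℕ}
  {J : Job Wi Λ A' h r n} {σ : Cel A'} {a : A'}
  {U Up R : Type} [NormedAddCommGroup U] [NormedSpace ℝ U] [NormedAddCommGroup Up]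
  [NormedSpace ℝ Up] [NormedAddCommGroup R] [NormedSpace ℝ R] {d : Dat J σ a U Up R}
  {q₀ : Wi →₀ ℝ} {δ : ℝ} (H : d.OK q₀ δ)
include H

theorem cfg_S : d.S.cfg d.cm 0 0 = d.y.x := by
  have ag : Agr (J.G (J.cf a) d.y.s) (J.G (J.cf a) (d.s 1 0)) univ := by
    rw [s_one H]; exact agr_refl _ isOpen_univ
  have g : (J.G (J.cf a) d.y.s).OK (J.B (J.cf a)) := H.okS.fam.G0
  have h1 : ∀ x i j, d.FS.S 0 x i j = d.FS.B.P i j x := fun x i j =>
    (ag.S (mem_univ x) i j).1.trans (congrFun (congrFun (congrFun g.P i) j) x)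
  have h2 : ∀ x, d.FS.cf 0 x = 0 := fun x => ag.cf (mem_univ x)
  have h3 : ∀ x, d.FS.la 0 x = 0 := fun x => ag.la g (mem_univ x)
  refine (cfg_zero (q := 0) d.cm H.okS h1 h2 h3).trans ?_
  simp only [Prod.snd_zero, Prod.fst_zero, map_zero, PiLp.zero_apply, add_zero]
  rfl

theorem mem_H (i : h) : i ∈ d.y.H := by
  have k := H.sol.drop
  rw [H.tight.1, Nat.le_zero, ncard_eq_zero, H.unc, sdiff_eq_empty] at k
  exact k trivial

theorem zer_S : (d.sS q₀).E 0 0 = 0 := funext fun x =>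
  eF_zero d.cm _ x (by
    show (d.S.cfg d.cm 0 0).eD (J.G _ (d.s 1 0)) (J.τ _ q₀ (d.s 1 0)) x = 0
    rw [cfg_S H, s_one H]; exact H.sol.sol.D x) (by
    show (d.S.cfg d.cm 0 0).eC _ (J.G _ (d.s 1 0)) (J.τ _ q₀ (d.s 1 0)) x = 0
    rw [cfg_S H, s_one H]; exact H.sol.sol.C x)

theorem zer_s : (d.sS q₀).e 0 0 = 0 := by
  have c := fun i => H.sol.cut i (mem_H H i)
  refine Prod.ext (Prod.ext (funext fun i => ?_) (funext fun i => ?_)) (Prod.ext (funext fun i => ?_)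
    (Prod.ext (funext fun i => ?_) (Prod.ext (funext fun i => ?_) ?_)))
  · show (J.τ _ q₀ (d.s 1 0)).S (d.S.cfg d.cm 0 0) i = 0
    rw [cfg_S H, s_one H]; exact H.sol.sol.S i
  · show ‖(d.S.cfg d.cm 0 0).z‖ ^ 2 - 1 = 0
    rw [cfg_S H, H.sol.sol.z.resolve_left fun e => by subst e; exact i.elim0]; norm_num
  · have k := c i
    rw [← s_one H] at k
    exact crow_zero k (cfg_S H) (heq_of_eq (add_zero (d.y.ψ i).1))
  · show ‖(d.y.ψ i).1 + 0‖ ^ 2 - 1 = 0
    rw [add_zero, show ‖(d.y.ψ i).1‖ = 1 from (c i).1]; norm_num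
  · exact inner_zero_right _
  · show ∫ x, d.lo x 0 ∂_ + d.lz 0 = 0
    simp

theorem zer_Z : ∃ ρ > 0, ∀ τ q p, ‖p‖ ≤ ρ → (d.sZ τ q).E 0 p = 0 := by
  obtain ⟨ρ, h0, k⟩ := Metric.nhds_basis_closedBall.eventually_iff.1 H.crit
  refine ⟨ρ, h0, fun τ q p hp => funext fun x => ?_⟩
  have e := crit_z (n := n) (k (mem_closedBall_zero_iff.2
    ((norm_fst_le p.2).trans ((norm_snd_le p).trans hp)))) ((J.xs d.x).q q)
      (c := (d.Z τ).cfg d.cm 0 p) (by
        rw [cfg_zero d.cm (H.okZ τ) (fun _ _ _ => rfl) (fun _ => rfl) fun _ => rfl]; rfl) x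
  exact eF_zero d.cm _ x e.1 e.2

/-- **LEAF ZERO** -/
theorem zer : d.Zer q₀ := ⟨⟨zer_S H, zer_s H⟩, zer_Z H⟩

end Crest.Agent.X212.Gb50
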