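import Crest.Agent.X212.Gb50.Pg

/-!
# Row 212, GL (helper50): parameters and heights of a gluing problem
-/

set_option autoImplicit false
set_option linter.unusedSectionVars false
noncomputable section
open scoped Manifold ContDiff Topology
open Set Function Filter

namespace Crest.Agent.X212.Gb50
open An An.Job M Prm93 Cht98 Nd18 Gj67
open Gl67 (ka ka_zero ka_mono ka_lip ka_lin ka_nonneg)

/-! ### real functions -/

section real
variable {s t u n R τ : ℝ}

theorem rho_neg (u : ℝ) : rho (-u) = rho u := by rw [rho, rho, neg_neg, add_comm (ka u)]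

theorem rho_spec (u : ℝ) : |u| ≤ rho u ∧ rho u ≤ max |u| 1 ∧ (1 ≤ |u| → rho u = |u|) := by
  wlog h : 0 ≤ u generalizing u
  · simpa only [rho_neg, abs_neg] using this (-u) (by linarith)
  rw [rho, ka_zero (neg_nonpos.2 h), abs_of_nonneg h]
  rcases le_total u 1 with k | k
  · exact ⟨by linarith [ka_lip k], le_max_of_le_right (by linarith [ka_mono k]),
      fun k' => by rw [le_antisymm k k']; ring⟩
  · have := ka_lin le_rfl k
    exact ⟨by linarith, le_max_of_le_left (by linarith), fun _ => by linarith⟩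

theorem ka_pos (h : 0 < ka s) : 0 < s := lt_of_not_ge fun k => h.ne' (ka_zero k)

theorem tendsto_ka : Tendsto ka atTop atTop :=
  (tendsto_atTop_add_const_right _ (ka 1 - 1) tendsto_id).congr' ((eventually_ge_atTop 1).mono
    fun s hs => by simp only [id]; linarith [ka_lin le_rfl hs])

/-- the height at the depth `s` -/
def gh (R s : ℝ) : ℝ := ka (s - fl s - R)

theorem fl_mem (h : 0 ≤ s) : 0 ≤ fl s ∧ fl s ≤ s :=
  ⟨mul_nonneg h (sub_nonneg.2 (Real.smoothTransition.le_one _)),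
    mul_le_of_le_one_right h (sub_le_self _ (Real.smoothTransition.nonneg _))⟩

theorem gh_zero (hR : 0 ≤ R) (h : s ≤ 0) : gh R s = 0 :=
  ka_zero (by rw [fl_le (by linarith)]; linarith)

theorem gh_one (h : 1 ≤ s) : gh R s = ka (s - R) := by rw [gh, fl_ge h, sub_zero]

theorem gh_pos (hR : 0 ≤ R) (h : 0 < gh R s) : R < s := by
  have h0 : 0 < s := lt_of_not_ge fun k => h.ne' (gh_zero hR k)
  linarith [ka_pos h, (fl_mem h0.le).1]

theorem f0_le (h : s ≤ t) (h0 : 0 ≤ t) : s - fl s ≤ t := by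
  rcases le_total s 0 with k | k
  · rw [fl_le (by linarith)]; linarith
  · linarith [(fl_mem k).1]

theorem tent_lo (hn : 2 ≤ nl τ) (h : s ≤ nl τ / 2 - 1) :
    tent R τ (tf (some 0) (some (nl τ)) s - nl τ / 2) = gh R s := by
  have := f0_le h (by linarith)
  simp only [tent, gh, tf, Option.elim, sub_zero, fl_ge (show 1 ≤ nl τ - s by linarith), add_zero]
  rw [(rho_spec _).2.2 (le_abs.2 (.inr (by linarith))), abs_of_nonpos (by linarith)]
  congr 1; ring

theorem tent_hi (hn : 2 ≤ nl τ) (h : nl τ / 2 + 1 ≤ s) :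
    tent R τ (tf (some 0) (some (nl τ)) s - nl τ / 2) = gh R (nl τ - s) := by
  have := f0_le (show nl τ - s ≤ nl τ / 2 - 1 by linarith) (by linarith)
  simp only [tent, gh, tf, Option.elim, sub_zero, fl_ge (show 1 ≤ s by linarith)]
  rw [(rho_spec _).2.2 (le_abs.2 (.inl (by linarith))), abs_of_nonneg (by linarith)]
  congr 1; ring

theorem tf_mid (h : 1 ≤ s) (h' : s ≤ n - 1) : tf (some 0) (some n) s = s := by
  simp [tf, fl_ge h, fl_ge (show 1 ≤ n - s by linarith)]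

/-- the depth at the height `v` -/
def dp (v : ℝ) : ℝ := -len 1 true v

theorem dp_eq (b : Bool) (s : ℝ) : -pm b * len 1 b s = dp (pm b * s) := by
  cases b
  · have := len_neg 1 false s
    simp only [pm, dp, Bool.not_false] at this ⊢
    simp [this]
  · simp [pm, dp]

theorem dp_anti (h0 : 0 < s) (h : s ≤ t) : dp t ≤ dp s := neg_le_neg
  ((strictMonoOn_len 1 true).monotoneOn (.inr h0) (.inr (h0.trans_le h)) h)

theorem tendsto_dp : Tendsto (fun τ : ℝ => dp ((1 - τ) / 2)) (𝓝[<] 1) atTop := by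
  refine tendsto_neg_atBot_atTop.comp (tendsto_len_one_true.comp (tendsto_nhdsWithin_iff.2 ⟨?_,
    eventually_mem_nhdsWithin.mono fun t (ht : t < 1) => by show 0 < (1 - t) / 2; linarith⟩))
  have : Continuous fun t : ℝ => (1 - t) / 2 := by fun_prop
  simpa using (this.tendsto 1).mono_left (nhdsWithin_le_nhds (s := Iio 1))

variable (h : 1 / 2 ≤ τ) (h1 : τ < 1)
include h h1

theorem len_side (b : Bool) (k : (1 - τ) / 2 ≤ pm b * s) :
    len τ false s - nl τ / 2 = len 1 b s + pm b * (nl τ / 2) := by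
  rw [← len_eq_len_one h k]
  cases b
  · simp only [pm, Bool.false_eq_true, if_false]; ring
  · simp only [len_false h1, pm, if_true]; ring

theorem dp_le : dp ((1 - τ) / 2) + 1 ≤ nl τ / 2 := by
  have e : 0 < (1 - τ) / 2 := by linarith
  have h2 := len_false h1 0
  have h3 := len_neg τ true 0
  have h4 := len_sub (t := τ) (b := true) (r := 0) (s := (1 - τ) / 2) (.inl h1) (.inl h1)
  have h5 := intervalIntegral.integral_mono_on e.le
    (intervalIntegrable_const (c := ((1 - τ) / 2)⁻¹) (μ := MeasureTheory.volume))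
    (integrable_inv_sig (t := τ) (b := true) (.inl h1) (.inl h1)) fun y hy =>
      inv_anti₀ (sig_pos (.inl h1)) (by
        have := ab_le ((1 - τ) / 2) y
        rw [max_eq_left (by rw [abs_of_nonneg hy.1]; exact hy.2)] at this
        rw [sig, tau_eq_one h, chi_two_one (by rw [abs_of_nonneg hy.1]; linarith [hy.2])]
        linarith)
  rw [intervalIntegral.integral_const, sub_zero, smul_eq_mul, mul_inv_cancel₀ e.ne'] at h5
  rw [len_eq_len_one h (b := true) (by simp [pm])] at h4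
  simp only [Bool.not_true, neg_zero] at h3
  rw [dp]; linarith

theorem len_mid (k : |s| ≤ (1 - τ) / 2) :
    |len τ false s - nl τ / 2| ≤ nl τ / 2 - dp ((1 - τ) / 2) := by
  have m := fun {r s : ℝ} (e : r ≤ s) => (strictMonoOn_len τ false).monotoneOn (.inl h1) (.inl h1) e
  have h2 := len_side h h1 true (s := (1 - τ) / 2) (by simp [pm])
  have h3 := len_side h h1 false (s := -((1 - τ) / 2)) (by simp [pm])
  have h4 := dp_eq false (-((1 - τ) / 2))
  simp only [pm, if_true, Bool.false_eq_true, if_false, neg_neg, one_mul, neg_mul] at h2 h3 h4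
  rw [abs_le, dp] at *
  constructor <;> linarith [m k.1, m k.2]

end real

/-! ### parameters -/

variable {Wi : Type} {X : Mf 4} {A κ lam : Type} [Fintype A] [Fintype κ] [Fintype lam]
  [DecidableEq lam] {M : Mark X A κ} {W : World M} {L : ML M lam} {Λ : Lns W L}
  {A' h : Type} [Fintype A'] [DecidableEq A'] [Fintype h] {r n : ℕ}
  {J : Job Wi Λ A' h r n} {σ : Cel A'} {a : A'}
  {U Up R : Type} [NormedAddCommGroup U] [NormedSpace ℝ U] [NormedAddCommGroup Up]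
  [NormedSpace ℝ Up] [NormedAddCommGroup R] [NormedSpace ℝ R] {d : Dat J σ a U Up R}
  {q₀ : Wi →₀ ℝ} {δ : ℝ}

theorem ee_a (s : A' → ℝ) (τ : ℝ) (t : Tc σ a) : ee s τ t a = τ := by simp [ee]

theorem cd_ee (s : A' → ℝ) : ContDiff ℝ ∞ fun q : ℝ × Tc σ a => ee s q.1 q.2 :=
  contDiff_pi.2 fun a' => by unfold ee; split_ifs <;> fun_prop

variable (d) in
/-- the parameters -/
abbrev th (q : ℝ × Tc σ a) : Prm A := J.Θ (d.s q.1 q.2)

theorem px (d : Dat J σ a U Up R) : (J.Θ d.y.s).2 d.x = 1 := (d.hb true).2.1.2 (d.hb true).2.2.2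

variable (H : d.OK q₀ δ)
include H

theorem cd_th : ContDiff ℝ ∞ (th d) := H.ok.sm.comp (cd_ee _)

theorem mem_cf {x : A} : x ∈ (J.cf a).1 ↔ x = d.x :=
  ⟨fun k => Option.some.inj ((show J.hd a = some x from k).symm.trans H.hd), fun k => k ▸ H.hd⟩

theorem s_one : d.s 1 0 = d.y.s := funext fun a' => by
  obtain ⟨b, k1, k2⟩ := H.ok.inf σ H.mem _ ⟨H.sol.cell.1, fun b _ => (H.sol.cell.2 b).2⟩ _ (px d)
  obtain rfl := H.ok.inj _ _ _ k1 H.hd
  simp only [Dat.s, ee]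
  split_ifs with k k'
  exacts [add_zero _, k' ▸ k2.symm, rfl]

theorem up0 : M.Up M.c0 (J.cf a) :=
  ⟨empty_subset _, fun _ hx k => (d.hb true).1 ((mem_cf H).1 hx ▸ k)⟩

theorem sub_m : (J.cf a).1 \ M.c0.1 ⊆ J.m.1 := fun _ k =>
  (mem_cf H).1 k.1 ▸ H.ok.mem a _ H.hd (d.hb true).1

theorem ev_x : ∀ᶠ τ in 𝓝 (1 : ℝ), 1 / 2 ≤ τ ∧ ∀ t, (th d (τ, t)).2 d.x = τ := by
  obtain ⟨s₀, k1, k2⟩ := H.ok.lin
  filter_upwards [Ici_mem_nhds k1, Ici_mem_nhds (show (1 / 2 : ℝ) < 1 by norm_num)] with τ h1 h2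
  exact ⟨h2, fun t => (k2 a _ H.hd _ (le_of_le_of_eq h1 (ee_a _ τ t).symm)).1.trans (ee_a _ τ t)⟩

theorem ev_gp : ∀ᶠ q : ℝ × Tc σ a in 𝓝 (1, 0), q.1 ≤ 1 →
    Gp M J.m d.x (th d q) ∧ (th d q).2 ∈ M.sys.Par ∧ (th d q).2 d.x = q.1 := by
  have h1 : ∀ᶠ q : ℝ × Tc σ a in 𝓝 (1, 0), ∀ x, x ≠ d.x → (th d q).2 x < 1 :=
    eventually_all.2 fun x => by
      by_cases k : x = d.x
      · exact .of_forall fun _ e => (e k).elim
      · refine (((continuous_apply x).comp (continuous_snd.comp (cd_th H).continuous)).tendsto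
          _).eventually (Iio_mem_nhds ?_) |>.mono fun _ e _ => e
        show (J.Θ (d.s 1 0)).2 x < 1
        rw [s_one H]
        exact ((d.hb true).2.1.1.1 x).2.lt_of_ne fun e => k ((mem_cf H).1 (H.sol.inf ▸ e))
  have h2 : ∀ᶠ q : ℝ × Tc σ a in 𝓝 (1, 0), ∀ a', σ a' = none → a' ≠ a → d.s q.1 q.2 a' < 1 :=
    eventually_all.2 fun a' => by
      by_cases k : σ a' = none ∧ a' ≠ a
      · refine (((continuous_apply a').comp (cd_ee _).continuous).tendsto
          _).eventually (Iio_mem_nhds ?_) |>.mono fun _ e _ _ => e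
        show d.s 1 0 a' < 1
        rw [s_one H]; exact (H.int a' k.1 k.2).2
      · exact .of_forall fun _ e e' => (k ⟨e, e'⟩).elim
  filter_upwards [h1, h2, continuous_fst.continuousAt.eventually (ev_x H)] with q k1 k2 k3 k4
  have k5 : (th d q).2 ∈ M.sys.Par := H.ok.par σ H.mem _ ⟨fun a' b e => by
      have : a' ≠ a := fun k => by simp [k, H.fr] at e
      simp [Dat.s, ee, e, this, H.sol.cell.1 a' b e], fun a' _ => by
      by_cases k : σ a' = none ∧ a' ≠ a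
      · exact (k2 a' k.1 k.2).le
      · simp only [Dat.s, ee, dif_neg k]
        split_ifs
        exacts [k4, (H.sol.cell.2 a').2]⟩
  exact ⟨⟨(d.hb true).1, sub_m H ⟨H.hd, id⟩, Mark.lt_of_br k5 (fr0 _) ((k3.2 q.2).symm ▸ k3.1), k1⟩,
    k5, k3.2 q.2⟩

theorem gp0 : Gp M J.m d.x (J.Θ d.y.s) := s_one H ▸ ((ev_gp H).self_of_nhds le_rfl).1

theorem act : ∀ᶠ τ in 𝓝[<] (1 : ℝ), Act J.m M.c0 d.x none (J.Θ (d.s τ 0)) := by
  filter_upwards [nhdsWithin_le_nhds ((Continuous.prodMk_left (0 : Tc σ a)).continuousAt.eventually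
    (ev_gp H)), self_mem_nhdsWithin] with τ k (h1 : τ < 1)
  obtain ⟨k1, k2, k3⟩ := k h1.le
  exact ⟨k1.cyl, Mark.mem_Br_c0 k2, (k1.nk (k3.trans_lt h1)).O, k1.mem, fr0 _, k1.half⟩

variable (d) in
/-- a long neck -/
structure Lg (τ : d.Ta) : Prop where
  half : 1 / 2 ≤ (τ : ℝ)
  lt : (τ : ℝ) < 1
  x : ∀ t, (th d (τ, t)).2 d.x = τ
  dp : d.R0 + 4 ≤ dp ((1 - τ) / 2)

theorem tendsto_lg : Tendsto (fun τ : d.Ta => (τ : ℝ)) d.lg (𝓝[<] 1) :=
  tendsto_nhdsWithin_iff.2 ⟨tendsto_comap, (tendsto_comap.eventually (ev_x H)).mono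
    fun τ k => (k.2 0).symm.trans_lt (τ.2.2.2.1 _ (fr0 _))⟩

theorem ev_lg : ∀ᶠ τ in d.lg, Lg d τ := by
  filter_upwards [tendsto_comap.eventually (ev_x H), (tendsto_lg H).eventually self_mem_nhdsWithin,
    (tendsto_dp.comp (tendsto_lg H)).eventually (eventually_ge_atTop (d.R0 + 4))] with τ k1 k2 k3
  exact ⟨k1.1, k2, k1.2, k3⟩

/-! ### heights -/

variable (d) in
/-- the height on the face -/
abbrev hc : (W.Z (J.cf a)).M → ℝ := hZ W.toCaps (J.cf a) d.x

theorem ex_φ (w : (W.Z (J.cf a)).M) : ∃ x ∉ M.sys.cores (J.cf a).1, W.φ (J.cf a) x = w :=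
  (Cyl58.caps_surj W.toCaps w).resolve_right fun ⟨_, k1, k2, _⟩ => (up0 H).2 _ k1 k2

theorem h0_up (w : (W.Z (J.cf a)).M) : h0 W d.x (W.up M.c0 (J.cf a) w) = hc d w := by
  obtain ⟨x, hx, rfl⟩ := ex_φ H w
  rw [W.up_φ (up0 H) hx]
  exact (hZ_φ _ (.inr (fr0 _)) (Mark.cores_mono (empty_subset _) hx)).trans
    (hZ_φ _ (.inl ⟨H.hd, (d.hb true).1⟩) hx).symm

theorem ex_up {z : (W.Z M.c0).M} (hz : h0 W d.x z ≠ 0) : ∃ w, W.up M.c0 (J.cf a) w = z :=
  (W.mem_range_up (up0 H)).2 fun x hx e k => by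
    obtain ⟨b, k1, y, rfl⟩ := Mark.mem_cores.1 k
    obtain rfl := (mem_cf H).1 k1
    exact hz (e ▸ hZ_nj (q := (y, 0)) _ (.inr (fr0 _)) hx (by norm_num))

theorem hc_ne (w : (W.Z (J.cf a)).M) : hc d w ≠ 0 := hZ_ne _ H.hd (d.hb true).1 w

theorem S_tgt (b : Bool) {w : (W.Z (J.cf a)).M} :
    w ∈ (d.KS b).ψ.target ↔ |hc d w| < 1 ∧ 0 < pm b * hc d w := by
  rw [isNk_target (d.hb b) (H.ok.nk _ _ _ _ _), px]
  cases b <;> simp [Hs, X212.M.dom, pm, abs_lt]

theorem S_tm (b : Bool) {w : (W.Z (J.cf a)).M} (k : w ∈ (d.KS b).ψ.target) :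
    (d.KS b).tm w = len 1 b (hc d w) := by
  rw [isNk_tm (d.hb b) (H.ok.nk _ _ _ _ _) k, px]; rfl

theorem S_J (b : Bool) {s : ℝ} : s ∈ (d.KS b).J ↔ 0 < -pm b * s := by
  have := H.ok.nk _ _ _ _ (d.hb b)
  rw [Nk.J, this.lo, this.hi]; cases b <;> simp [Jv, pm]

theorem hS_eq (w : (W.Z (J.cf a)).M) :
    d.hS w = gh d.R0 ((d.KS false).tm w) + gh d.R0 (-(d.KS true).tm w) := by
  have h1 := H.ok.nk _ _ _ _ (d.hb false)
  have h2 := H.ok.nk _ _ _ _ (d.hb true)
  simp only [Dat.hS, Nk.τ, h1.lo, h1.hi, h2.lo, h2.hi, gh]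
  simp [tf]; ring_nf

theorem gh_off (b : Bool) {w : (W.Z (J.cf a)).M} (k : w ∉ (d.KS b).ψ.target) :
    gh d.R0 (-pm b * (d.KS b).tm w) = 0 :=
  gh_zero (by linarith [H.R1]) (not_lt.1 fun e => k ((d.KS b).tgt ▸ (S_J H b).2 e))

theorem hS_side (b : Bool) {w : (W.Z (J.cf a)).M} (k : 0 ≤ pm b * hc d w) :
    d.hS w = gh d.R0 (-pm b * (d.KS b).tm w) := by
  have := gh_off H (!b) (w := w) fun e => by
    have := ((S_tgt H _).1 e).2
    cases b <;> simp [pm] at k this <;> linarith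
  rw [hS_eq H]
  cases b <;> simp [pm] at this ⊢ <;> exact this

omit H in
theorem ex_side (s : ℝ) : ∃ b, pm b * s = |s| :=
  (le_total 0 s).elim (fun k => ⟨true, by simp [pm, abs_of_nonneg k]⟩)
    fun k => ⟨false, by simp [pm, abs_of_nonpos k]⟩

variable {τ : d.Ta} (T : Lg d τ)
include T

theorem X_p : (d.KX τ).p = some 0 := (H.ok.nk _ _ _ _ τ.2).lo

theorem X_q : (d.KX τ).q = some (nl τ) := (H.ok.nk _ _ _ _ τ.2).hi.trans (congrArg (some ∘ nl) (T.x 0))

theorem X_tgt {z : (W.Z M.c0).M} : z ∈ (d.KX τ).ψ.target ↔ |h0 W d.x z| < 1 := by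
  rw [isNk_target τ.2 (H.ok.nk _ _ _ _ _), show (J.Θ (d.s τ 0)).2 d.x = τ from T.x 0]
  simp [Hs, X212.M.dom, abs_lt, T.lt]

theorem X_tm {z : (W.Z M.c0).M} (k : |h0 W d.x z| < 1) :
    (d.KX τ).tm z = len τ false (h0 W d.x z) := by
  rw [isNk_tm τ.2 (H.ok.nk _ _ _ _ _) ((X_tgt H T).2 k), show (J.Θ (d.s τ 0)).2 d.x = τ from T.x 0]
  rfl

theorem X_J {s : ℝ} : s ∈ (d.KX τ).J ↔ 0 < s ∧ s < nl τ := by
  rw [Nk.J, X_p H T, X_q H T]; simp [Jv]

theorem hX_eq (z : (W.Z M.c0).M) :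
    d.hX τ z = tent d.R0 τ (tf (some 0) (some (nl τ)) ((d.KX τ).tm z) - nl τ / 2) := by
  rw [Dat.hX, Nk.τ, X_p H T, X_q H T]

theorem nl_ge' : d.R0 + 5 ≤ nl τ / 2 := by linarith [dp_le T.half T.lt, T.dp]

theorem hX_off {z : (W.Z M.c0).M} (k : z ∉ (d.KX τ).ψ.target) : d.hX τ z = 0 := by
  have h1 := nl_ge' H T
  have h2 := H.R1
  rw [(d.KX τ).tgt, mem_preimage, show Jv _ _ = (d.KX τ).J from rfl, X_J H T, not_and_or] at k
  rw [hX_eq H T]
  rcases k with k | k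
  · rw [tent_lo (by linarith) (by linarith), gh_zero (by linarith) (by linarith)]
  · rw [tent_hi (by linarith) (by linarith), gh_zero (by linarith) (by linarith)]

/-- off the middle part the heights agree -/
theorem hX_up {w : (W.Z (J.cf a)).M} (k : (1 - τ) / 2 ≤ |hc d w|) :
    d.hX τ (W.up M.c0 (J.cf a) w) = d.hS w := by
  obtain ⟨b, hb⟩ := ex_side (hc d w)
  rw [hS_side H b (hb ▸ abs_nonneg _)]
  by_cases k1 : |hc d w| < 1
  · have h1 := nl_ge' H T
    have h2 := H.R1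
    have h3 := len_side T.half T.lt b (hb ▸ k)
    have h4 := dp_anti (by linarith [T.lt]) k
    have h5 := dp_le T.half T.lt
    have h6 := dp_eq b (hc d w)
    rw [hX_eq H T, X_tm H T (by rwa [h0_up H]), h0_up H,
      S_tm H b ((S_tgt H b).2 ⟨k1, hb ▸ abs_pos.2 (hc_ne H w)⟩)]
    rw [hb] at h6
    cases b <;> simp only [pm, if_true, Bool.false_eq_true, if_false] at h3 h6 ⊢
    · rw [tent_lo (by linarith) (by linarith)]; congr 1; linarith
    · rw [tent_hi (by linarith) (by linarith)]; congr 1; linarith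
  · rw [hX_off H T fun e => k1 (h0_up H w ▸ (X_tgt H T).1 e),
      gh_off H b fun e => k1 ((S_tgt H b).1 e).1]

theorem hS_low {w : (W.Z (J.cf a)).M} (k : d.hS w < d.la τ) : (1 - τ) / 2 ≤ |hc d w| := by
  by_contra! k1
  obtain ⟨b, hb⟩ := ex_side (hc d w)
  have h1 := abs_pos.2 (hc_ne H w)
  have h2 := dp_anti h1 k1.le
  rw [hS_side H b (hb ▸ h1.le), S_tm H b ((S_tgt H b).2 ⟨by linarith [T.half], hb ▸ h1⟩), dp_eq, hb,
    gh_one (by linarith [T.dp, H.R1])] at k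
  exact k.not_ge (ka_mono (sub_le_sub_right h2 _))

theorem hX_low {z : (W.Z M.c0).M} (k : d.hX τ z < d.la τ) : (1 - τ) / 2 ≤ |h0 W d.x z| := by
  by_contra! k1
  have h1 := len_mid T.half T.lt k1.le
  have h2 := dp_le T.half T.lt
  have h3 := abs_le.1 h1
  have h4 := T.dp
  have h5 := H.R1
  rw [hX_eq H T, X_tm H T (by linarith [T.half]), tf_mid (by linarith) (by linarith)] at k
  refine k.not_ge (ka_mono ?_)
  have := (rho_spec (len τ false (h0 W d.x z) - nl τ / 2)).2.1.trans (max_le h1 (by linarith))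
  rw [dp] at this; linarith

theorem hZ_pos {z : d.Y × ℝ} (k : 0 < d.hZ τ z) : |z.2| < nl τ / 2 - d.R0 := by
  linarith [ka_pos k, (rho_spec z.2).1]

theorem hX_pos {z : (W.Z M.c0).M} (k : 0 < d.hX τ z) : z ∈ (d.KX τ).ψ.target ∧
    d.hX τ z = tent d.R0 τ ((d.KX τ).tm z - nl τ / 2) := by
  refine ⟨by_contra fun e => k.ne' (hX_off H T e), ?_⟩
  have h1 := nl_ge' H T
  have h2 := H.R1
  rw [hX_eq H T] at k ⊢
  rw [tf_mid]
  · by_contra! e
    rw [tent_lo (by linarith) (by linarith)] at k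
    linarith [gh_pos (by linarith) k]
  · by_contra! e
    rw [tent_hi (by linarith) (by linarith)] at k
    linarith [gh_pos (by linarith) k]

end Crest.Agent.X212.Gb50
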