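import Crest.Agent.X212.Gb50.Mx
import Crest.Agent.X212.Cnt93.Pt
import Crest.Agent.X212.An.Syn

/-!
# Row 212, GL (helper50): literally related sides have the same local equations
-/

set_option autoImplicit false
set_option linter.unusedSectionVars false
noncomputable section
open scoped Manifold ContDiff Topology
open Set Function Filter

namespace Crest.Agent.X212.Gb50
open An Prm93 Sob92
open Gl67 (Sid Cm PP crow)
open Pj41 (GRel FRel)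
open Met55 (trS cfS laS)
open Map77 (Cf fa fp)

variable {E : Type} [NormedAddCommGroup E] [NormedSpace ℝ E] [FiniteDimensional ℝ E]
  [MeasurableSpace E] [BorelSpace E]
  {HM : Type} [TopologicalSpace HM] {I : ModelWithCorners ℝ E HM} [I.Boundaryless]
  {M : Type} [TopologicalSpace M] [ChartedSpace HM M] [IsManifold I ∞ M]
  [MeasurableSpace M] [T2Space M] [BorelSpace M] [SecondCountableTopology M]
  {E' : Type} [NormedAddCommGroup E'] [NormedSpace ℝ E'] [FiniteDimensional ℝ E']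
  [MeasurableSpace E'] [BorelSpace E']
  {HM' : Type} [TopologicalSpace HM'] {I' : ModelWithCorners ℝ E' HM'} [I'.Boundaryless]
  {M' : Type} [TopologicalSpace M'] [ChartedSpace HM' M'] [IsManifold I' ∞ M']
  [MeasurableSpace M'] [T2Space M'] [BorelSpace M'] [SecondCountableTopology M']
  {ι lam : Type} [Fintype ι] [Fintype lam] {ψ : M → M'} {O : Set M} {x : M}
  {B : Base M ι lam} {B' : Base M' ι lam} {G G₀ : Geo I M ι lam} {G' G₀' : Geo I' M' ι lam}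
  {F F₀ : Fr I M ι} {F' F₀' : Fr I' M' ι}

/-! ### norms -/

section nrm
variable {V V' : Type} [NormedAddCommGroup V] [NormedSpace ℝ V] [NormedAddCommGroup V']
  [NormedSpace ℝ V'] {P : Pre I M ι} {g : M → ℝ} {A : Set M} {k : ℕ}

theorem D_emb (L : V →L[ℝ] V') (π : V' →L[ℝ] V) (e : ∀ v, π (L v) = v) (a : ι) (u : M → V) :
    P.D a (fun y => L (u y)) = fun y => L (P.D a u y) := funext fun y => by
  by_cases hu : MDifferentiableAt I 𝓘(ℝ, V) u y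
  · exact congrArg (· (P.e a y)) (L.hasFDerivAt.hasMFDerivAt.comp y hu.hasMFDerivAt).mfderiv
  · have h2 : ¬MDifferentiableAt I 𝓘(ℝ, V') (fun y => L (u y)) y := fun h1 => hu <| by
      simpa only [comp_def, e] using π.differentiableAt.mdifferentiableAt.comp y h1
    simp only [Pre.D_def, dv, mfderiv_zero_of_not_mdifferentiableAt hu,
      mfderiv_zero_of_not_mdifferentiableAt h2]
    exact (map_zero L).symm

theorem N_emb (L : V →L[ℝ] V') (π : V' →L[ℝ] V) (e : ∀ v, π (L v) = v) (e' : ∀ v, ‖L v‖ = ‖v‖)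
    (u : M → V) : Gl67.N P g A k (fun y => L (u y)) = Gl67.N P g A k u := by
  have : ∀ (k : ℕ) (u : M → V) x, Gl67.J P k (fun y => L (u y)) x = Gl67.J P k u x := fun k => by
    induction k with
    | zero => exact fun u x => by simp only [Gl67.J, e']
    | succ k ih => exact fun u x => by simp only [Gl67.J, e', D_emb L π e, ih]
  simp only [Gl67.N, this]

theorem N_pair (hO : IsOpen O) (hA : MeasurableSet A) (h : A ⊆ O) (hg : Continuous g) {u : M → V}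
    {v : M → V'} (hu : Gl67.SmO I O u) (hv : Gl67.SmO I O v) :
    Gl67.N P g A k (fun y => (u y, v y)) ≤ 2 * Gl67.N P g A k u + 2 * Gl67.N P g A k v := by
  rw [← N_emb (.inl ℝ V V') (.fst ℝ V V') (fun _ => rfl) (by simp) u,
    ← N_emb (.inr ℝ V V') (.snd ℝ V V') (fun _ => rfl) (by simp) v]
  refine le_of_eq_of_le (congrArg _ (funext fun y => ?_)) (Gl67.N_add (k := k) (F := P) hO hA h hg
    (fun x hx => (ContinuousLinearMap.inl ℝ V V').contMDiff.contMDiffAt.comp x (hu x hx))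
    fun x hx => (ContinuousLinearMap.inr ℝ V V').contMDiff.contMDiffAt.comp x (hv x hx))
  simp

end nrm

/-! ### families and operators -/

theorem trS_rel (h0 : FRel F₀ F₀' ψ O) (h : FRel F F' ψ O) (hx : x ∈ O) :
    trS F₀ F x = trS F₀' F' (ψ x) := funext₂ fun a b =>
  congrFun (Met55.fT_rel (h0.ld x hx) (Met55.pre_sp _ x) (fun a => h0.e a x hx) (h.e a x hx)) b

theorem cfS_rel (h0 : FRel F₀ F₀' ψ O) (h : FRel F F' ψ O) (hx : x ∈ O) :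
    cfS F₀ F x = cfS F₀' F' (ψ x) := funext₃ fun a b k => by
  simp only [cfS, Spn45.dG, trS_rel h0 h hx, h0.Gam hx, h.Gam hx]

theorem laS_rel (h0 : GRel B G₀ B' G₀' ψ O) (h : GRel B G B' G' ψ O) (hx : x ∈ O) :
    laS B G₀ G x = laS B' G₀' G' (ψ x) := funext fun a => by
  simp only [laS, Met55.dA, trS_rel h0.fr h.fr hx, h0.a _ x hx, h.a _ x hx, h.il, h.l x hx]

section op
variable {V W : Type} [NormedAddCommGroup V] [InnerProductSpace ℝ V] [FiniteDimensional ℝ V]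
  [NormedAddCommGroup W] [InnerProductSpace ℝ W] [FiniteDimensional ℝ W]

theorem D_on {N : Type} [NormedAddCommGroup N] [NormedSpace ℝ N] (h : FRel F F' ψ O) (hx : x ∈ O)
    (a : ι) {u : M → N} {u' : M' → N} (e : ∀ y ∈ O, u y = u' (ψ y)) : F.D a u x = F'.D a u' (ψ x) :=
  h.D hx a ((h.op.eventually_mem hx).mono e)

variable (ψ O) in
/-- literally related operators -/
structure OR (A : Op M ι V W) (A' : Op M' ι V W) : Prop where
  p : ∀ x ∈ O, A.p x = A'.p (ψ x)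
  σ : ∀ a, ∀ x ∈ O, A.σ a x = A'.σ a (ψ x)
  B : ∀ x ∈ O, A.B x = A'.B (ψ x)

theorem adj_app (h : FRel F F' ψ O) (v : F.IsVol) (v' : F'.IsVol) {A : Op M ι V W} {A' : Op M' ι V W}
    (k : OR ψ O A A') {u : M → W} {u' : M' → W} (e : ∀ y ∈ O, u y = u' (ψ y)) (hx : x ∈ O) :
    (A.adj F).app F u x = (A'.adj F').app F' u' (ψ x) := by
  have h1 := fun a => D_on h hx a (u := fun y => Op.tr (A.σ a y)) (u' := fun y => Op.tr (A'.σ a y))
    fun y hy => by rw [k.σ a y hy]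
  simp only [Op.app, Pre.op, Op.adj, h1, k.σ _ x hx, k.B x hx, k.p x hx, D_on h hx _ e, e x hx,
    h.dv hx v v']

end op

/-! ### configurations -/

variable {N r : ℕ} {Jc : En (Fin N)} {p : M → En (Fin N)} {ρ W : ι → M → En (Fin N)}
  {j : M → CL (Eu lam) (En (Fin N))} {Φ : M → Eu (Fin N)} {p' : M' → En (Fin N)}
  {ρ' W' : ι → M' → En (Fin N)} {j' : M' → CL (Eu lam) (En (Fin N))} {Φ' : M' → Eu (Fin N)}

variable (ψ O p ρ j p' ρ' j') in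
/-- literally related modules -/
structure MR : Prop where
  p : ∀ x ∈ O, p x = p' (ψ x)
  ρ : ∀ a, ∀ x ∈ O, ρ a x = ρ' a (ψ x)
  j : ∀ x ∈ O, j x = j' (ψ x)

theorem sd_rel (g : GRel B G B' G' ψ O) (hx : x ∈ O) : B.sd x = B'.sd (ψ x) := funext₂ fun s t => by
  simp only [Base.sd, Base.a2, Base.st, g.P _ _ x hx, g.o _ _ _ _ x hx]

theorem dd_rel (g : GRel B G B' G' ψ O) (hx : x ∈ O) {u v : M → ℝ} {u' v' : M' → ℝ}
    (e : ∀ y ∈ O, u y = u' (ψ y)) (e' : ∀ y ∈ O, v y = v' (ψ y)) :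
    B.dd G.F u v x = B'.dd G'.F u' v' (ψ x) := by
  simp only [Base.dd, sd_rel g hx, D_on g.fr hx _ e, D_on g.fr hx _ e']

/-- the row of a cut without perturbation -/
def tq (J p : En (Fin N)) (g : UnitAddCircle → En (Fin N)) (u : L2c (Fin N)) : L2c (Fin N) :=
  (tpz J p g ((Hd J p).orthogonalProjectionOnto u)).1 + (u - ((Hd J p).orthogonalProjectionOnto u).1)

theorem crow_eq (k : Cut M lam) (σ : Pc r B k) (c : Cfg M ι lam r) (u : L2c (Fin c.m.N)) :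
    crow k B F σ c u = tq c.m.J (c.m.pp B k.x0) (k.sym B F c.m c.W) u -
      (σ c ((Hd c.m.J (c.m.pp B k.x0)).orthogonalProjectionOnto u)).1 := by
  rw [crow, tq, sub_apply, Submodule.coe_sub, Cut.T]; abel

theorem vel_rel (h : FRel F F' ψ O) {γ : ℝ → M} (s : ℝ) (hγ : MDifferentiableAt 𝓘(ℝ, ℝ) I γ s)
    (hx : γ s ∈ O) (a : ι) : Num57.tl F (γ s) a (mfderiv 𝓘(ℝ, ℝ) I γ s (1 : ℝ)) =
      Num57.tl F' (ψ (γ s)) a (mfderiv 𝓘(ℝ, ℝ) I' (ψ ∘ γ) s (1 : ℝ)) := by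
  obtain ⟨ξ, e⟩ := Num57.exists_comb F (γ s) (mfderiv 𝓘(ℝ, ℝ) I γ s (1 : ℝ))
  have e' : mfderiv 𝓘(ℝ, ℝ) I' (ψ ∘ γ) s (1 : ℝ) = ∑ b, ξ b • Num57.ee F' (ψ (γ s)) b := by
    rw [mfderiv_comp s ((h.ld _ hx).contMDiffAt.mdifferentiableAt (by simp)) hγ]
    refine (congrArg (mfderiv I I' ψ (γ s)) e).trans ((map_sum _ _ _).trans
      (Finset.sum_congr rfl fun b _ => (map_smul _ _ _).trans (congrArg _ (h.e b _ hx))))
  rw [e, e', Num57.tl_comb, Num57.tl_comb]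
  simp only [h.P hx]

namespace MR
variable (m : MR ψ O p ρ j p' ρ' j') (g : GRel B G B' G' ψ O)
include m

theorem pg (hx : x ∈ O) : (Md.mk N Jc p ρ j).pg x = (Md.mk N Jc p' ρ' j').pg (ψ x) :=
  Cay24.pg_congr (m.p x hx) (fun a => m.ρ a x hx) (m.j x hx)

include g

theorem pp (hx : x ∈ O) : (Md.mk N Jc p ρ j).pp B x = (Md.mk N Jc p' ρ' j').pp B' (ψ x) := by
  simp only [Md.pp, Md.om, m.p x hx, m.ρ _ x hx, g.o _ _ _ _ x hx]

theorem dir (hW : ∀ a, ∀ x ∈ O, W a x = W' a (ψ x)) (hΦ : ∀ x ∈ O, Φ x = Φ' (ψ x)) (hx : x ∈ O) :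
    Wz78.dir I G.F.e ρ W Φ x = Wz78.dir I' G'.F.e ρ' W' Φ' (ψ x) :=
  g.fr.dir hx (fun a => m.ρ a x hx) (fun a => hW a x hx) ((g.fr.op.eventually_mem hx).mono hΦ)

theorem cur (hW : ∀ a, ∀ x ∈ O, W a x = W' a (ψ x)) (hx : x ∈ O) (u : Eu (Fin N)) :
    (Md.mk N Jc p ρ j).p2 B x ((Md.mk N Jc p ρ j).Fg G.F W x) - (Md.mk N Jc p ρ j).mu B x u u =
    (Md.mk N Jc p' ρ' j').p2 B' (ψ x) ((Md.mk N Jc p' ρ' j').Fg G'.F W' (ψ x)) -
      (Md.mk N Jc p' ρ' j').mu B' (ψ x) u u := by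
  simp only [Md.mu, Md.q, Md.p2, Md.Fg, m.pg hx, sd_rel g hx, m.ρ _ x hx,
    g.fr.curv hx (A := W) (A' := W') fun a => (g.fr.op.eventually_mem hx).mono (hW a)]

variable {Z lam₀ : Type} [Fintype lam₀] {t : Tp Z M lam₀ lam} {t' : Tp Z M' lam₀ lam} {k : Cut Z lam₀}
  (hf : ∀ u, ∀ y ∈ O, t.f u y = t'.f u (ψ y)) (hs : ∀ u, ∀ y ∈ O, t.s u y = t'.s u (ψ y))
include hf

theorem pi (hx : x ∈ O) : (t.cut k).pi B G.F (Md.mk N Jc p ρ j) x =
    (t'.cut k).pi B' G'.F (Md.mk N Jc p' ρ' j') (ψ x) := by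
  simp only [Cut.pi, Cut.om, Tp.cut, List.map_map, comp_def, Md.c2, m.pp g hx, m.ρ _ x hx, hf _ x hx,
    dd_rel g hx (hf _) (hf _)]

include hs

theorem qu (hx : x ∈ O) : (t.cut k).qu B G.F (Md.mk N Jc p ρ j) x =
    (t'.cut k).qu B' G'.F (Md.mk N Jc p' ρ' j') (ψ x) := by
  simp only [Cut.qu, Cut.q0, m.pi g hf hx]
  simp only [Tp.cut, List.map_map, comp_def, Md.c2, m.ρ _ x hx, m.j x hx, hs _ x hx,
    dd_rel g hx (hf _) (hf _)]

theorem sym (hW : ∀ a, ∀ x ∈ O, W a x = W' a (ψ x)) (hk : (t.cut k).supp ⊆ O)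
    (sm : ∀ θ, ContMDiff 𝓘(ℝ, ℝ) I ∞ ((t.cut k).γ θ))
    (hγ : ∀ θ s, ψ ((t.cut k).γ θ s) = (t'.cut k).γ θ s) :
    (t.cut k).sym B G.F (Md.mk N Jc p ρ j) W = (t'.cut k).sym B' G'.F (Md.mk N Jc p' ρ' j') W' := by
  have o : ∀ θ s, (t.cut k).γ θ s ∈ O := fun θ s => hk ⟨(θ, s), rfl⟩
  have e : ∀ θ, (t'.cut k).γ θ = ψ ∘ (t.cut k).γ θ := fun θ => funext fun s => (hγ θ s).symm
  have a0 : ∀ θ, (t.cut k).A0 G.F (Md.mk N Jc p ρ j) W θ =
      (t'.cut k).A0 G'.F (Md.mk N Jc p' ρ' j') W' θ := fun θ => funext fun s => by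
    simp only [Cut.A0, Cut.vel, hW _ _ (o θ s),
      vel_rel g.fr s ((sm θ s).mdifferentiableAt (by simp)) (o θ s)]
    rw [e]; rfl
  have a1 : ∀ θ, (t.cut k).A1 B G.F (Md.mk N Jc p ρ j) W θ =
      (t'.cut k).A1 B' G'.F (Md.mk N Jc p' ρ' j') W' θ := fun θ => funext fun s => by
    simp only [Cut.A1, a0, ← hγ, m.pi g hf (o θ _)]
  have a2 : ∀ θ, (t.cut k).A2 B G.F (Md.mk N Jc p ρ j) W θ =
      (t'.cut k).A2 B' G'.F (Md.mk N Jc p' ρ' j') W' θ := fun θ => funext fun s => by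
    simp only [Cut.A2, a1, ← hγ, m.qu g hf hs (o θ _)]
  funext θ
  simp only [Cut.sym, a2, Cut.x0, ← hγ, m.pi g hf (o 0 0), m.pp g (o 0 0)]

end MR

/-! ### sides -/

variable {h T T' U Up R : Type} [Fintype h] [NormedAddCommGroup T] [NormedSpace ℝ T]
  [NormedAddCommGroup T'] [NormedSpace ℝ T'] [NormedAddCommGroup U] [NormedSpace ℝ U]
  [NormedAddCommGroup Up] [NormedSpace ℝ Up] [NormedAddCommGroup R] [NormedSpace ℝ R]
  {𝔉 : Mod61.Fam I M ι lam T} {𝔉' : Mod61.Fam I' M' ι lam T'}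

variable (ψ O) in
/-- the side `s` at `t` is literally the side `s'` at `t'` -/
structure SR (s : Sid 𝔉 N Jc U Up R) (t : T) (s' : Sid 𝔉' N Jc U Up R) (t' : T') : Prop
    extends MR ψ O s.p s.ρ s.j s'.p s'.ρ s'.j where
  g : GRel 𝔉.B (𝔉.G t) 𝔉'.B (𝔉'.G t') ψ O
  v : (𝔉.G t).F.IsVol
  v' : (𝔉'.G t').F.IsVol
  o : 𝔉.Om = univ ∧ 𝔉.Om' = univ
  o' : 𝔉'.Om = univ ∧ 𝔉'.Om' = univ
  S : ∀ x ∈ O, 𝔉.S t x = 𝔉'.S t' (ψ x)
  cf : ∀ x ∈ O, 𝔉.cf t x = 𝔉'.cf t' (ψ x)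
  la : ∀ x ∈ O, 𝔉.la t x = 𝔉'.la t' (ψ x)
  A : ∀ a, ∀ x ∈ O, s.A0 a x = s'.A0 a (ψ x)
  Φ : ∀ x ∈ O, s.Φ0 x = s'.Φ0 (ψ x)
  b : ∀ x ∈ O, s.b x = s'.b (ψ x)
  dr : ∀ a, ∀ x ∈ O, s.dr a x = s'.dr a (ψ x)

namespace SR
variable {s : Sid 𝔉 N Jc U Up R} {s' : Sid 𝔉' N Jc U Up R} {t : T} {t' : T'}
  (k : SR ψ O s t s' t') (c : Cm N r h R) {w : M → Cf ι (Fin N)} {w' : M' → Cf ι (Fin N)}
  (e : ∀ y ∈ O, w y = w' (ψ y)) (q : U × EuclideanSpace ℂ (Fin r) × (h → L2c (Fin N)))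
include k

theorem W0 (a : ι) (hx : x ∈ O) : 𝔉.W0 s.md s.A0 t a x = 𝔉'.W0 s'.md s'.A0 t' a (ψ x) := by
  simp only [Mod61.Fam.W0, k.S x hx, k.cf x hx, k.la x hx, k.A _ x hx, k.ρ _ x hx, k.p x hx]

theorem Pg (hx : x ∈ O) : s.Pg x = s'.Pg (ψ x) := by
  simp only [Sid.Pg, k.o.1, k.o'.1, indicator_univ, k.toMR.pg hx]

theorem pC (hx : x ∈ O) : s.bd.pC x = s'.bd.pC (ψ x) := by
  simp only [Map77.ps, Sid.P1, Sid.Pp, k.o.2, k.o'.2, indicator_univ, k.Pg hx, k.toMR.pp k.g hx,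
    k.g.P _ _ x hx]

theorem Px (hx : x ∈ O) : s.bd.Px x = s'.bd.Px (ψ x) := funext₂ fun a b => k.g.P a b x hx

include e

theorem Wc (a : ι) (x : M) (hx : x ∈ O) :
    ((s.cfg c w (t, q)).W a x : En (Fin N)) = (s'.cfg c w' (t', q)).W a (ψ x) := by
  simp only [Sid.cfg, Md.addC, k.W0 a hx, k.S x hx, e x hx, k.b x hx]

theorem Ph (x : M) (hx : x ∈ O) :
    ((s.cfg c w (t, q)).Φ x : Eu (Fin N)) = (s'.cfg c w' (t', q)).Φ (ψ x) := by
  simp only [Sid.cfg, Pi.add_apply, e x hx, k.Φ x hx]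

theorem row (hx : x ∈ O) : s.row t w x = s'.row t' w' (ψ x) := by
  rw [Sid.row, Sid.row, adj_app k.g.fr k.v k.v' (hx := hx)
    (A' := s'.bd.d0 (𝔉'.G t').F (Map77.base (𝔉'.W0 s'.md s'.A0 t') s'.Φ0)) (u' := fun x =>
    Map77.sm2 (idx (𝔉'.S t' x) (.id ℝ _)) (.id ℝ _) (w' x)) (e := fun y hy => by rw [k.S y hy, e y hy])
    ⟨fun _ => k.Pg, fun a y hy => ?_, fun y hy => ?_⟩]
  · simp only [k.dr _ x hx, k.Pg hx, e x hx]
  · simp only [Map77.Bd.d0, Map77.cut, k.pC hy, k.Pg hy, k.Px hy]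
  · simp only [Map77.Bd.d0, Map77.cut, k.pC hy, k.Px hy, Map77.base, k.W0 _ hy,
      k.Φ y hy, D_on k.g.fr hy _ fun _ => k.Pg]

variable {n : ℕ} (τ : Pt M ι lam r n) (τ' : Pt M' ι lam r n) (hx : x ∈ O)
include hx

theorem eD : ((s.cfg c w (t, q)).eD (𝔉.G t) τ x + τ.D (s.cfg c w (t, q)) x : Eu (Fin N)) =
    (s'.cfg c w' (t', q)).eD (𝔉'.G t') τ' (ψ x) + τ'.D (s'.cfg c w' (t', q)) (ψ x) :=
  (sub_add_cancel _ _).trans ((k.toMR.dir k.g (k.Wc c e q) (k.Ph c e q) hx).trans (sub_add_cancel _ _).symm)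

theorem eC : ((s.cfg c w (t, q)).eC 𝔉.B (𝔉.G t) τ x + τ.C (s.cfg c w (t, q)) x :
    Fm (ι × ι) (HS (Fin N))) =
    (s'.cfg c w' (t', q)).eC 𝔉'.B (𝔉'.G t') τ' (ψ x) + τ'.C (s'.cfg c w' (t', q)) (ψ x) := by
  refine (sub_add_cancel _ _).trans (.trans ?_ (sub_add_cancel _ _).symm)
  rw [← k.Ph c e q x hx]
  exact k.toMR.cur k.g (k.Wc c e q) hx _

end SR

end Crest.Agent.X212.Gb50
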