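import Crest.Agent.X212.Gb50.Lit
import Crest.Agent.X212.Gb50.Lr

/-!
# Row 212, GL-LOCS (helper50): `LocB` from the estimate of the perturbation terms
-/

set_option autoImplicit false
set_option linter.unusedSectionVars false
noncomputable section
open scoped Manifold ContDiff Topology NNReal
open MeasureTheory Set Function Filter Metric

namespace Crest.Agent.X212.Gb50
open An An.Job M Prm93 Cht98 Nd18 Gj67
open Loc45 (jb θE up sE LocB)
open Gl67 (PP WW GG g0 q2 crow)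
open Map77 (Cf)

theorem q2_GG {n m N : ℕ} {h R : Type} [Fintype h] [NormedAddCommGroup R] (u : Fin n → ℂ)
    (v : h → L2c (Fin N)) : q2 (((u, 0), -v, 0, 0, 0) : GG n m h N R) ≤ q2 u + q2 v := by
  simp only [q2, Prod.norm_def, norm_zero, norm_neg, max_self, max_eq_left (norm_nonneg _)]
  rw [← ENNReal.ofReal_add (sq_nonneg _) (sq_nonneg _)]
  refine ENNReal.ofReal_le_ofReal ?_
  rcases max_choice ‖u‖ ‖v‖ with e | e <;> rw [e] <;> nlinarith [sq_nonneg ‖u‖, sq_nonneg ‖v‖]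

theorem sub_of_add {V : Type} [AddCommGroup V] {a b c e : V} (k : a + c = b + e) : a - b = -(c - e) := by
  rw [neg_sub, sub_eq_sub_iff_add_eq_add, k, add_comm]

variable {Wi : Type} {X : Mf 4} {A κ lam : Type} [Fintype A] [Fintype κ] [Fintype lam]
  [DecidableEq lam] {M : Mark X A κ} {W : World M} {L : ML M lam} {Λ : Lns W L}
  {A' h : Type} [Fintype A'] [DecidableEq A'] [Fintype h] {r n : ℕ}
  {J : Job Wi Λ A' h r n} {σ : Cel A'} {a : A'}
  {U Up R : Type} [NormedAddCommGroup U] [NormedSpace ℝ U] [NormedAddCommGroup Up]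
  [NormedSpace ℝ Up] [NormedAddCommGroup R] [NormedSpace ℝ R]
  {d : Dat J σ a U Up R} {q₀ : Wi →₀ ℝ} {δ : ℝ} {τ : d.Ta} (H : d.OK q₀ δ)
include H

namespace Lit

/-- **the sides are literally related on `O2`** -/
theorem sr {t : Tc σ a} (T : Lit d τ t) :
    SR (d.φ τ) (O2 d τ) (Loc45.E d) (√(1 - τ), t) (d.Xs τ) t := by
  have g0 := (ch_φ T.ta H).g.mono isOpen_O2 (O2_sub T.ta)
  have g := T.g.mono isOpen_O2 (O2_sub T.ta)
  have v := (T.okS H).vol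
  simp only [GS, ← θE_up T.lg t] at g v
  exact ⟨⟨fun _ k => (mix_O2 T.ta _ _ k).symm, fun _ _ k => (mix_O2 T.ta _ _ k).symm,
    fun _ k => (mix_O2 T.ta _ _ k).symm⟩, g, v, T.okX.vol, ⟨rfl, rfl⟩, ⟨rfl, rfl⟩,
    fun _ => trS_rel g0.fr g.fr, fun _ => cfS_rel g0.fr g.fr, fun _ => laS_rel g0 g,
    fun _ _ k => (mix_O2 T.ta _ _ k).symm, fun _ k => (mix_O2 T.ta _ _ k).symm,
    fun _ k => (mix_O2 T.ta _ _ k).symm, fun _ _ k => (mix_O2 T.ta _ _ k).symm⟩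

variable {p : PP (Tc σ a) U r h d.N} (T : Lit d τ p.1)
  (w : (W.Z M.c0).M → Cf (Option κ) (Fin d.N)) (q q' : Wi →₀ ℝ)
include T

omit H in
theorem pull_O2 (z) (hz : z ∈ O2 d τ) : pull (d.φ τ) w z = w (d.φ τ z) :=
  indicator_of_mem (O2_sub T.ta hz) _

/-- the module -/
theorem mr : MR (d.φ τ) (O2 d τ) (cS d τ w p).m.p (cS d τ w p).m.ρ (cS d τ w p).m.j
    (cX d τ w p).m.p (cX d τ w p).m.ρ (cX d τ w p).m.j := (T.sr H).toMR

/-- the connection -/
theorem W_eq (i : Option κ) (z) (hz : z ∈ O2 d τ) :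
    ((cS d τ w p).W i z : En (Fin d.N)) = (cX d τ w p).W i (d.φ τ z) :=
  (T.sr H).Wc d.cm (T.pull_O2 w) p.2 i z hz

/-- the spinor -/
theorem Φ_eq (z) (hz : z ∈ O2 d τ) :
    ((cS d τ w p).Φ z : Eu (Fin d.N)) = (cX d τ w p).Φ (d.φ τ z) :=
  (T.sr H).Ph d.cm (T.pull_O2 w) p.2 z hz

omit H T in
theorem z_eq : (cS d τ w p).z = (cX d τ w p).z := rfl

theorem x0_mem (i : h) : (J.cut (J.cf a) i).x0 ∈ O2 d τ := T.cut i ⟨(0, 0), rfl⟩

/-- the Hardy spaces agree -/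
theorem pp_x0 (i : h) : ((cS d τ w p).m.pp (J.B _) (J.cut (J.cf a) i).x0 : En (Fin d.N)) =
    (cX d τ w p).m.pp (J.B _) (J.cut M.c0 i).x0 :=
  φ_x0 H τ i ▸ (T.sr H).toMR.pp (T.sr H).g (T.x0_mem H i)

theorem sym_eq (i : h) :
    ((J.cut (J.cf a) i).sym (J.B _) (GS d τ p.1).F (cS d τ w p).m (cS d τ w p).W :
      UnitAddCircle → En (Fin d.N)) =
    (J.cut M.c0 i).sym (J.B _) (GX d τ p.1).F (cX d τ w p).m (cX d τ w p).W :=
  (T.sr H).toMR.sym (T.g.mono isOpen_O2 (O2_sub T.ta)) (fun u y _ => (tp_f H u τ y).symm)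
    (fun u y _ => (tp_s H u τ y).symm) (T.W_eq H w) (T.cut i) (Cnt93.sm_γ (cut_ok H i)) (cut_γ H τ i)

theorem E_eq {z} (hz : z ∈ O2 d τ) :
    (sE d q).E (pull (d.φ τ) w) (up d τ p) z - (d.sX τ q').E w p (d.φ τ z) =
      -(0, DS d τ q w p z - DX d τ q' w p (d.φ τ z), CS d τ q w p z - CX d τ q' w p (d.φ τ z), 0) := by
  have k := T.sr H
  have h1 := k.eD d.cm (T.pull_O2 w) p.2 (τS d τ q p) (τX d τ q' p) hz
  have h2 := k.eC d.cm (T.pull_O2 w) p.2 (τS d τ q p) (τX d τ q' p) hz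
  have e : τS d τ q p = (jb J d.x).τ _ q (θE d (√(1 - τ), p.1)) := by rw [θE_up T.lg]
  refine Prod.ext ((sub_eq_zero.2 (k.row (T.pull_O2 w) hz)).trans neg_zero.symm)
    (Prod.ext ?_ (Prod.ext ?_ ?_))
  · rw [e] at h1; unfold DS; rw [e]; exact sub_of_add (V := Eu (Fin d.N)) h1
  · rw [e] at h2; unfold CS; rw [e]; exact sub_of_add (V := Fm _ (HS (Fin d.N))) h2
  · show (0 : ℝ) • _ - d.mix τ 0 d.bp (d.φ τ z) • _ = -(0 : Up)
    rw [mix_O2 T.ta _ _ hz]; simp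

theorem lo_eq {t : ℝ} (ht : t < d.la τ - 2) (hw : tsupport w ⊆ d.hX τ ⁻¹' Iic t) :
    ∫ z, d.lo z (pull (d.φ τ) w z) ∂d.FS.F0.μ = ∫ z, (d.Xs τ).lo z (w z) ∂(d.FX τ).F0.μ := by
  have w0 : ∀ y, t < d.hX τ y → w y = 0 := fun y k =>
    image_eq_zero_of_notMem_tsupport fun e => k.not_ge (hw e)
  have k := Geo48.int_tr (ψ := d.φ τ) (φ_rel H T.lg) (φ_eq H τ ▸ W.up_oe (up0 H)) (FS_ok H).G0.vol
    (Gh_ok H τ).vol subset_rfl fun z => (d.Xs τ).lo z (w z)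
  rw [(d.φ τ).image_source_eq_target, setIntegral_eq_integral_of_forall_compl_eq_zero
    (s := (d.φ τ).target) fun y hy => by
      rw [T.ta.φ.2.2.1] at hy
      rw [w0 y (by linarith [(not_lt.1 hy : d.la τ ≤ d.hX τ y)]), map_zero]] at k
  rw [← setIntegral_eq_integral_of_forall_compl_eq_zero (s := (d.φ τ).source) fun y hy => by
    rw [pull, indicator_of_notMem hy, map_zero]]
  refine (setIntegral_congr_fun (d.φ τ).open_source.measurableSet fun z hz => ?_).trans k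
  simp only [pull, indicator_of_mem hz, comp_apply]
  by_cases c : z ∈ O2 d τ
  · exact DFunLike.congr_fun (mix_O2 T.ta d.lo 0 c).symm _
  · rw [w0 _ (by rw [(T.ta.φ.2.2.2 z hz).1]; exact ht.trans_le (not_lt.1 c)), map_zero, map_zero]

theorem e_eq {t : ℝ} (ht : t < d.la τ - 2) (hw : tsupport w ⊆ d.hX τ ⁻¹' Iic t) :
    (sE d q).e (pull (d.φ τ) w) (up d τ p) - (d.sX τ q').e w p =
      (((τS d τ q p).S (cS d τ w p) - (τX d τ q' p).S (cX d τ w p), 0),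
        -(σS d τ q w p - σX d τ q' w p), 0, 0, 0) := by
  have e := θE_up T.lg p.1
  refine Prod.ext (Prod.ext ?_ (sub_self _)) (Prod.ext (funext fun i => ?_) (Prod.ext (sub_self _)
    (Prod.ext (sub_self _) (sub_eq_zero.2 (congrArg (· + _) (T.lo_eq H w ht hw))))))
  · exact congrArg (fun s => ((jb J d.x).τ _ q s).S (cS d τ w p) - _) e
  · have h1 : (crow (J.cut (J.cf a) i) (J.B _) ((jb J d.x).G _ (θE d (√(1 - τ), p.1))).F
        ((jb J d.x).σc _ q (θE d (√(1 - τ), p.1)) i) (cS d τ w p) (d.cm.ψ0 i + p.2.2.2 i) :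
          L2c (Fin d.N)) = tq d.Jc ((cS d τ w p).m.pp (J.B _) (J.cut (J.cf a) i).x0)
          ((J.cut (J.cf a) i).sym (J.B _) (GS d τ p.1).F (cS d τ w p).m (cS d τ w p).W)
          (d.cm.ψ0 i + p.2.2.2 i) - σS d τ q w p i := by
      rw [e]; exact crow_eq _ _ _ _
    have h2 : (crow (J.cut M.c0 i) (J.B _) (GX d τ p.1).F (J.σc _ q' (d.s τ p.1) i) (cX d τ w p)
        (d.cm.ψ0 i + p.2.2.2 i) : L2c (Fin d.N)) =
        tq d.Jc _ _ (d.cm.ψ0 i + p.2.2.2 i) - σX d τ q' w p i := crow_eq _ _ _ _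
    rw [T.pp_x0 H w i, T.sym_eq H w i] at h1
    exact (congrArg₂ (fun u v : L2c (Fin d.N) => u - v) h1 h2).trans ((sub_sub_sub_cancel_left _ _ _).trans (neg_sub _ _).symm)

end Lit

/-- **LEAF LOC-B** from LEAF PERT-S -/
theorem locB_of (hS : Sd Λ) {k : ℕ} (hP : PertS d q₀ δ k) : LocB d q₀ δ k := fun α l τ q h1 h2 => by
  obtain ⟨ρ, ρ0, hP⟩ := hP α l τ q h1 h2
  obtain ⟨ρ', ρ0', hL⟩ := ev_lit H hS
  refine ⟨min ρ ⟨ρ', ρ0'.le⟩, lt_min ρ0 ρ0', fun t η η0 => ?_⟩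
  filter_upwards [hP t η η0, h1.eventually hL,
    h1.eventually ((geo H).la.eventually_gt_atTop (t + 2))] with i k1 k2 k3 w hw hs p hp hq
  have T := k2 p.1 ((norm_fst_le p).trans (hp.trans (NNReal.coe_le_coe.2 (min_le_right _ _))))
  have ht : t < d.la (τ i) - 2 := lt_sub_iff_add_lt.2 k3
  refine le_trans (add_le_add (le_of_eq ?_) ?_) (k1 w hw hs p
    (hp.trans (NNReal.coe_le_coe.2 (min_le_left _ _))) (hq.trans (ENNReal.coe_le_coe.2 (min_le_left _ _))))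
  · refine .trans (Gl67.N_congr (measurableSet_le d.sm_hS.continuous.measurable measurable_const)
      fun z hz => (isOpen_O2.eventually_mem (lt_of_le_of_lt hz ht)).mono fun y => T.E_eq H w q₀ (q i))
      (Gl67.N_neg.trans (N_emb (u := fun z => (DS d (τ i) q₀ w p z - DX d (τ i) (q i) w p (d.φ (τ i) z),
        CS d (τ i) q₀ w p z - CX d (τ i) (q i) w p (d.φ (τ i) z))) (V' := WW (Option κ) d.N Up) ((ContinuousLinearMap.inr ℝ _ _).comp
        ((ContinuousLinearMap.fst ℝ _ _).prod ((ContinuousLinearMap.snd ℝ _ _).prod 0)))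
        (((ContinuousLinearMap.fst ℝ _ _).prod ((ContinuousLinearMap.fst ℝ _ _).comp
          (ContinuousLinearMap.snd ℝ _ _))).comp (ContinuousLinearMap.snd ℝ _ _)) (fun _ => rfl)
        fun v => by simp [Prod.norm_def]))
  · rw [T.e_eq H w q₀ (q i) ht hs]; exact q2_GG _ _

end Crest.Agent.X212.Gb50
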