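import Crest.Agent.X212.Gb50.Ge
import Crest.Agent.X212.Gb50.Base
import Crest.Agent.X212.Geo48.Up
import Crest.Agent.X212.Cut54.Glue

/-!
# Row 212, GL-LOCS (helper50): the long neck is literally the face with the data of the long neck
-/

set_option autoImplicit false
set_option linter.unusedSectionVars false
noncomputable section
open scoped Manifold ContDiff Topology NNReal
open Set Function Filter Metric

namespace Crest.Agent.X212.Gb50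
open An An.Job M Prm93 Cht98 Nd18 Gj67
open Loc45 (brk brk_ne brk_x jb θE up sE)
open Gl67 (PP g0 q2)
open Pj41 (GRel FRel)
open Map77 (Cf)

/-- the perturbation part of the row of a cut -/
def sg {M ι lam : Type} [Fintype ι] [Fintype lam] {r : ℕ} (k : Cut M lam) (B : Base M ι lam)
    (σ : Pc r B k) (c : Cfg M ι lam r) (ψ : L2c (Fin c.m.N)) : L2c (Fin c.m.N) :=
  (σ c ((Hd c.m.J (c.m.pp B k.x0)).orthogonalProjectionOnto ψ)).1

variable {Wi : Type} {X : Mf 4} {A κ lam : Type} [Fintype A] [Fintype κ] [Fintype lam]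
  [DecidableEq lam] {M : Mark X A κ} {W : World M} {L : ML M lam} {Λ : Lns W L}
  {A' h : Type} [Fintype A'] [DecidableEq A'] [Fintype h] {r n : ℕ}
  {J : Job Wi Λ A' h r n} {σ : Cel A'} {a : A'}
  {U Up R : Type} [NormedAddCommGroup U] [NormedSpace ℝ U] [NormedAddCommGroup Up]
  [NormedSpace ℝ Up] [NormedAddCommGroup R] [NormedSpace ℝ R]

variable (Λ) in
/-- standard worlds (`G75.Dat.std`, `G75.Dat.lstd`) -/
def Sd : Prop := (∃ B, Std W B) ∧ ∃ b, LStd Λ b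

section defs
variable (d : Dat J σ a U Up R) (q₀ : Wi →₀ ℝ) (δ : ℝ) (k : ℕ) (τ : d.Ta)

/-- the background of the face with the data of the long neck -/
abbrev GS (t : Tc σ a) := (jb J d.x).G (J.cf a) (d.s τ t)

/-- the background of the long neck -/
abbrev GX (t : Tc σ a) := J.G M.c0 (d.s τ t)

/-- the part where the data are literal -/
abbrev O2 : Set (W.Z (J.cf a)).M := d.hS ⁻¹' Iio (d.la τ - 2)

variable (q : Wi →₀ ℝ) (w : (W.Z M.c0).M → Cf (Option κ) (Fin d.N)) (p : PP (Tc σ a) U r h d.N)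

/-- the configurations -/
abbrev cS := (Loc45.E d).cfg d.cm (pull (d.φ τ) w) (up d τ p)
abbrev cX := (d.Xs τ).cfg d.cm w p

/-- the perturbations -/
abbrev τS := (jb J d.x).τ (J.cf a) q (d.s τ p.1)
abbrev τX := J.τ M.c0 q (d.s τ p.1)

/-- their values -/
def DS (z : (W.Z (J.cf a)).M) : Eu (Fin d.N) := (τS d τ q p).D (cS d τ w p) z
def DX (z : (W.Z M.c0).M) : Eu (Fin d.N) := (τX d τ q p).D (cX d τ w p) z
def CS (z : (W.Z (J.cf a)).M) : Fm (Option κ × Option κ) (HS (Fin d.N)) :=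
  (τS d τ q p).C (cS d τ w p) z
def CX (z : (W.Z M.c0).M) : Fm (Option κ × Option κ) (HS (Fin d.N)) := (τX d τ q p).C (cX d τ w p) z
def σS (i : h) : L2c (Fin d.N) :=
  sg (J.cut (J.cf a) i) (J.B _) ((jb J d.x).σc (J.cf a) q (d.s τ p.1) i) (cS d τ w p)
    (d.cm.ψ0 i + p.2.2.2 i)
def σX (i : h) : L2c (Fin d.N) :=
  sg (J.cut M.c0 i) (J.B _) (J.σc M.c0 q (d.s τ p.1) i) (cX d τ w p) (d.cm.ψ0 i + p.2.2.2 i)

/-- LEAF PERT-S (helper45): the perturbation terms -/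
def PertS : Prop := d.Seq q₀ fun l τ q => ∃ ρ : ℝ≥0, 0 < ρ ∧ ∀ t, ∀ η : ℝ≥0, 0 < η → ∀ᶠ i in l,
  ∀ w ∈ Sec (W.Z M.c0).I (d.Xs (τ i)).bd.pC, tsupport w ⊆ d.hX (τ i) ⁻¹' Iic t → ∀ p, ‖p‖ ≤ ρ →
    (d.sX (τ i) (q i)).Q (g0 δ) univ (k + 1) w ≤ ρ →
    (d.sS q₀).Q (g0 δ) (Iic t) k (fun z =>
        (DS d (τ i) q₀ w p z - DX d (τ i) (q i) w p (d.φ (τ i) z),
          CS d (τ i) q₀ w p z - CX d (τ i) (q i) w p (d.φ (τ i) z))) +
      (q2 ((τS d (τ i) q₀ p).S (cS d (τ i) w p) - (τX d (τ i) (q i) p).S (cX d (τ i) w p)) +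
        q2 (σS d (τ i) q₀ w p - σX d (τ i) (q i) w p)) ≤ η

/-- the literal facts at `(τ, t)` -/
structure Lit (t : Tc σ a) : Prop where
  lg : Lg d τ
  ta : Cay24.At d τ
  gp : Gp M J.m d.x (J.Θ (d.s τ t))
  par : (J.Θ (d.s τ t)).2 ∈ M.sys.Par
  g : GRel (J.B (J.cf a)) (GS d τ t) (J.B M.c0) (GX d τ t) (d.φ τ) (d.φ τ).source
  cut : ∀ i, (J.cut (J.cf a) i).supp ⊆ O2 d τ

end defs

variable {d : Dat J σ a U Up R} {q₀ : Wi →₀ ℝ} {δ : ℝ} {τ : d.Ta} {t : Tc σ a}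
  {V : Type} [NormedAddCommGroup V] [NormedSpace ℝ V]

theorem θE_up (T : Lg d τ) (t : Tc σ a) : θE d (√(1 - τ), t) = d.s τ t := by
  simp only [θE, Real.sq_sqrt (sub_nonneg.2 T.lt.le), sub_sub_cancel]

theorem isOpen_O2 : IsOpen (O2 d τ) := isOpen_lt d.sm_hS.continuous continuous_const

theorem O2_sub (G : Cay24.At d τ) : O2 d τ ⊆ (d.φ τ).source := fun z hz => by
  rw [G.φ.2.1]; exact lt_trans (b := d.la τ - 2) hz (by linarith)

/-- all pre-glued data are literal on `O2` -/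
theorem mix_O2 (G : Cay24.At d τ) (f : (W.Z (J.cf a)).M → V) (g : d.Y × ℝ → V) {z}
    (hz : z ∈ O2 d τ) : d.mix τ f g (d.φ τ z) = f z := by
  have k := O2_sub G hz
  rw [Dat.mix, Dat.χ, (G.φ.2.2.2 z k).1, Real.smoothTransition.zero_of_nonpos (sub_nonpos.2 (le_of_lt hz)),
    (d.φ τ).left_inv k]
  simp

variable (H : d.OK q₀ δ)
include H

theorem hS_lt (T : Lg d τ) {w : (W.Z (J.cf a)).M} (k : d.hS w < d.la τ) : (1 - τ) / 2 < |hc d w| := by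
  by_contra! k1
  obtain ⟨b, hb⟩ := ex_side (hc d w)
  have h1 := abs_pos.2 (hc_ne H w)
  have h2 := dp_anti h1 k1
  rw [hS_side H b (hb ▸ h1.le), S_tm H b ((S_tgt H b).2 ⟨by linarith [T.half], hb ▸ h1⟩), dp_eq, hb,
    gh_one (by linarith [T.dp, H.R1])] at k
  exact k.not_ge (Gl67.ka_mono (sub_le_sub_right h2 _))

theorem grel (hS : Sd Λ) (T : Lg d τ) {p : Prm A} (k : Gp M J.m d.x p) (k' : p.2 ∈ M.sys.Par)
    (e : p.2 d.x = τ) : GRel (J.B (J.cf a)) (Λ.G J.m (J.cf a) (brk d.x p)) (J.B M.c0) (Λ.G J.m M.c0 p)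
      (d.φ τ) (d.φ τ).source := by
  obtain ⟨⟨B, h1⟩, b, h2⟩ := hS
  have F : Geo48.Fl J.m (J.cf a) M.c0 (brk d.x p).2 τ :=
    ⟨up0 H, sub_m H, (brk_Br H k k').1, Subset.antisymm (fun y (hy : _ = _) => (mem_cf H).2
      (by_contra fun c => ((brk_ne p c).trans_lt (k.o y c)).ne hy)) (brk_Br H k k').2, T.half, T.lt⟩
  have g := F.grel h1 H.nW h2 H.nΛ p.1
  rw [show Geo48.fil (J.cf a) M.c0 τ (brk d.x p).2 = p.2 from funext fun y => by
    by_cases c : y = d.x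
    · rw [c, Geo48.fil_mem ⟨(mem_cf H).2 rfl, id⟩, e]
    · rw [Geo48.fil_out fun i => c ((mem_cf H).1 i.1), brk_ne p c]] at g
  rw [φ_eq H]
  exact g.mono (d.φ τ).open_source fun z hz y hy => by
    rw [(mem_cf H).1 hy.1]; exact hS_lt H T (by rwa [φ_src H] at hz)

theorem cut_ok (i : h) : (J.cut (J.cf a) i).OK (J.B _) (J.G _ d.y.s).F :=
  H.ok.ct σ H.mem _ ⟨H.sol.cell.1, fun b _ => (H.sol.cell.2 b).2⟩ _ H.sol.inf i (H.unc ▸ trivial)

/-- **the literal facts hold uniformly** -/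
theorem ev_lit (hS : Sd Λ) : ∃ ρ > 0, ∀ᶠ τ in d.lg, ∀ t, ‖t‖ ≤ ρ → Lit d τ t := by
  obtain ⟨ρ, ρ0, k⟩ := Metric.nhds_basis_closedBall.eventually_iff.1 (ev_gp H)
  have c : ∀ i, ∃ C, ∀ z ∈ (J.cut (J.cf a) i).supp, d.hS z ≤ C := fun i =>
    let ⟨C, e⟩ := ((Cut54.isCompact_supp (cut_ok H i).sm (cut_ok H i).h0 (cut_ok H i).h1).image
      d.sm_hS.continuous).bddAbove
    ⟨C, fun _ hz => e (mem_image_of_mem _ hz)⟩
  choose C hC using c
  refine ⟨ρ, ρ0, ?_⟩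
  filter_upwards [ev_lg H, Cay24.ev_at (geo H), (tendsto_comap (f := Subtype.val)).eventually
    (closedBall_mem_nhds (1 : ℝ) ρ0), eventually_all.2 fun i =>
      (geo H).la.eventually_gt_atTop (C i + 2)] with τ T G e e' t ht
  obtain ⟨k1, k2, k3⟩ := k (x := (τ, t)) (by
    rw [← closedBall_prod_same]; exact ⟨e, mem_closedBall_zero_iff.2 ht⟩) T.lt.le
  exact ⟨T, G, k1, k2, grel H hS T k1 k2 k3, fun i z hz => (hC i z hz).trans_lt (lt_sub_iff_add_lt.2 (e' i))⟩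

/-! ### the ends and the transport of data -/

/-- the side of the end `false` -/
theorem clopen_side : IsClopen {z | hc d z < 0} ∧ (d.KS false).ψ.target ⊆ {z | hc d z < 0} ∧
    (d.KS true).ψ.target ⊆ {z | hc d z < 0}ᶜ := by
  have c : Continuous (hc d) := (sm_hZ _ (.inl ⟨H.hd, (d.hb true).1⟩)).continuous
  refine ⟨⟨?_, isOpen_lt c continuous_const⟩, fun z hz => ?_, fun z hz => ?_⟩
  · rw [show {z | hc d z < 0} = {z | hc d z ≤ 0} from Set.ext fun z =>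
      ⟨fun (k : hc d z < 0) => k.le, fun (k : hc d z ≤ 0) => k.lt_of_ne (hc_ne H z)⟩]
    exact isClosed_le c continuous_const
  · simpa [pm] using ((S_tgt H _).1 hz).2
  · have := ((S_tgt H _).1 hz).2
    simp only [pm, if_true, one_mul] at this
    exact not_lt.2 this.le

theorem tp_gen (g : X.M → V) (τ : ℝ) (z : (W.Z (J.cf a)).M) :
    (W.φ M.c0).target.indicator (g ∘ (W.φ M.c0).toPartialEquiv.symm) (d.φ τ z) =
      (W.φ (J.cf a)).target.indicator (g ∘ (W.φ (J.cf a)).toPartialEquiv.symm) z := by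
  obtain ⟨x, hx, rfl⟩ := ex_φ H z
  have h1 := (W.mem_src _).2 hx
  have h2 := (W.mem_src M.c0).2 (Mark.cores_mono (empty_subset _) hx)
  rw [φ_eq H, W.up_φ (up0 H) hx, indicator_of_mem ((W.φ _).map_source h1),
    indicator_of_mem ((W.φ _).map_source h2)]
  exact congrArg g (((W.φ _).left_inv h2).trans ((W.φ _).left_inv h1).symm)

theorem tp_f (g : X.M → ℝ) (τ : ℝ) (z) : (J.tp M.c0).f g (d.φ τ z) = (J.tp (J.cf a)).f g z :=
  tp_gen H g τ z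

theorem tp_s (g : X.M → Eu (lam ⊕ lam)) (τ : ℝ) (z) :
    (J.tp M.c0).s g (d.φ τ z) = (J.tp (J.cf a)).s g z := by
  rw [Job.tp, Job.tp, H.nΛ.v _ _ _ (up0 H) (sub_m H)]
  exact tp_gen H (fun x => Line51.rl (Λ.v J.m M.c0 x) (g x)) τ z

theorem tp_p {x : X.M} (hx : x ∉ M.sys.cores (J.cf a).1) (τ : ℝ) :
    d.φ τ ((J.tp (J.cf a)).p x) = (J.tp M.c0).p x := by
  rw [φ_eq H]; exact W.up_φ (up0 H) hx

theorem cut_γ (τ : ℝ) (i : h) (θ : UnitAddCircle) (s : ℝ) :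
    d.φ τ ((J.cut (J.cf a) i).γ θ s) = (J.cut M.c0 i).γ θ s :=
  tp_p H (Set.disjoint_left.1 (show i ∈ J.unc (J.cf a) from H.unc ▸ trivial)
    ((H.ok.nb i).2.sub ⟨(θ, s), rfl⟩)) τ

namespace Lit
variable (T : Lit d τ t)
include T

omit H in
theorem px : (J.Θ (d.s τ t)).2 d.x = τ := T.lg.x t

omit H in
theorem nk : NkOK M J.m M.c0 (J.Θ (d.s τ t)) d.x := T.gp.nk (T.px.trans_lt T.lg.lt)

omit H in
theorem okX : (GX d τ t).OK (J.B M.c0) := Λ.G_ok _ T.nk.O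

theorem O : (jb J d.x).Θ (d.s τ t) ∈ M.O (J.cf a).1 := brk_O H T.gp

theorem br : (jb J d.x).Θ (d.s τ t) ∈ M.Br (J.cf a).1 := brk_Br H T.gp T.par

theorem okS : (GS d τ t).OK (J.B (J.cf a)) := Λ.G_ok _ (T.O H)

theorem iso : An.Iso (GS d τ t).F.toPre (GX d τ t).F.toPre (d.φ τ) :=
  T.g.fr.iso (T.okS H).vol T.okX.vol

/-! ### necks -/

omit H T in
theorem acX_some (x : A) (b : Bool) : ¬J.Ac M.c0 (d.s τ t) (x, some b) := fun k => k.2.2.2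

omit H in
theorem acX_x : J.Ac M.c0 (d.s τ t) (d.x, none) :=
  ⟨T.gp.cyl, Mark.mem_Br_c0 T.par, T.nk.O, T.gp.mem, fr0 _, T.gp.half⟩

theorem acS_some {x : A} {b : Bool} : (jb J d.x).Ac (J.cf a) (d.s τ t) (x, some b) ↔ x = d.x :=
  ⟨fun k => (mem_cf H).1 k.2.2.2, fun k => by subst k; exact ⟨T.gp.cyl, T.br H, T.O H, H.hd⟩⟩

omit T in
theorem acS_x : ¬(jb J d.x).Ac (J.cf a) (d.s τ t) (d.x, none) := fun k => k.2.2.2.2.1.1 H.hd

theorem ac_none {x : A} (e : x ≠ d.x) :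
    (jb J d.x).Ac (J.cf a) (d.s τ t) (x, none) ↔ J.Ac M.c0 (d.s τ t) (x, none) :=
  ⟨fun k => ⟨k.1, Mark.mem_Br_c0 T.par, T.nk.O, k.2.2.2.1, fr0 _, (brk_ne _ e) ▸ k.2.2.2.2.2⟩,
    fun k => ⟨k.1, T.br H, T.O H, k.2.2.2.1, ⟨fun i => e ((mem_cf H).1 i), fun y hy => by
      rw [(mem_cf H).1 hy]
      exact T.par.2 (one_half_pos.trans_le k.2.2.2.2.2).ne' (one_half_pos.trans_le T.gp.half).ne' e⟩,
      k.2.2.2.2.2.trans_eq (brk_ne _ e).symm⟩⟩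

omit T in
/-- the other necks -/
theorem nk_none {x : A} (e : x ≠ d.x) (k : (jb J d.x).Ac (J.cf a) (d.s τ t) (x, none))
    (k' : J.Ac M.c0 (d.s τ t) (x, none)) :
    (J.K _ x _ _ k').p = (J.K _ x _ _ k).p ∧ (J.K _ x _ _ k').q = (J.K _ x _ _ k).q ∧
    (∀ z ∈ (J.K _ x _ _ k).ψ.source, (J.K _ x _ _ k').ψ z = d.φ τ ((J.K _ x _ _ k).ψ z)) ∧
    ∀ z ∈ (J.K _ x _ _ k).ψ.target, d.hS z = 0 := by
  have b := H.ok.nk _ _ _ _ k
  have b' := H.ok.nk _ _ _ _ k'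
  have e' : ((jb J d.x).Θ (d.s τ t)).2 x = (J.Θ (d.s τ t)).2 x := brk_ne _ e
  refine ⟨by rw [b.lo, b'.lo], by rw [b.hi, b'.hi, e'], fun z hz => ?_, fun z hz => ?_⟩
  · have h1 := (J.K _ x _ _ k).mem_src.1 hz
    rw [isNk_ψ k b h1, isNk_ψ k' b' (by rwa [isNk_J k' b', ← e', ← isNk_J k b]), e', φ_eq H]
    exact (W.up_φ (up0 H) (Mark.fr_not_mem k.2.2.2.2.1 ⟨_, rfl⟩)).symm
  · have h1 : ∀ b, z ∉ (d.KS b).ψ.target := fun c i => Set.disjoint_left.1 (disjoint_hZ W.toCaps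
      (.inr k.2.2.2.2.1) (.inl ⟨H.hd, (d.hb true).1⟩) (k.2.2.2.2.1.2 _ H.hd))
      (lt_trans (b := (1 : ℝ)) (isNk_sub k b hz) (show (1 : ℝ) < 3 by norm_num))
      (((S_tgt H c).1 i).1.trans (show (1 : ℝ) < 3 by norm_num))
    have h2 := gh_off H false (h1 _)
    have h3 := gh_off H true (h1 _)
    simp only [pm, if_true, Bool.false_eq_true, if_false, neg_neg, one_mul, neg_mul] at h2 h3
    rw [hS_eq H, h2, h3, add_zero]

omit T in
/-- the ends do not move -/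
theorem nk_S {b : Bool} (k : (jb J d.x).Ac (J.cf a) (d.s τ t) (d.x, some b)) :
    (J.K _ _ _ _ k).p = (d.KS b).p ∧ (J.K _ _ _ _ k).q = (d.KS b).q ∧
    ∀ z ∈ (d.KS b).ψ.source, (J.K _ _ _ _ k).ψ z = (d.KS b).ψ z := by
  have c := H.ok.nk _ _ _ _ k
  have c' := H.ok.nk _ _ _ _ (d.hb b)
  have e : ((jb J d.x).Θ (d.s τ t)).2 d.x = (J.Θ d.y.s).2 d.x := (brk_x _ _).trans (Gb50.px d).symm
  refine ⟨by rw [c.lo, c'.lo], by rw [c.hi, c'.hi]; rfl, fun z hz => ?_⟩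
  have h1 := (d.KS b).mem_src.1 hz
  rw [isNk_ψ (d.hb b) c' h1, isNk_ψ k c (by rwa [isNk_J k c, e, ← isNk_J (d.hb b) c']), e]

/-- the long neck does not move -/
theorem nk_X (k : J.Ac M.c0 (d.s τ t) (d.x, none)) :
    (J.K _ _ _ _ k).p = some 0 ∧ (J.K _ _ _ _ k).q = some (nl τ) ∧
    ∀ z ∈ (d.KX τ).ψ.source, (J.K _ _ _ _ k).ψ z = (d.KX τ).ψ z := by
  have c := H.ok.nk _ _ _ _ k
  have c' := H.ok.nk _ _ _ _ τ.2
  have e : (J.Θ (d.s τ t)).2 d.x = (J.Θ (d.s τ 0)).2 d.x := T.px.trans (T.lg.x 0).symm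
  refine ⟨c.lo, c.hi.trans (congrArg (some ∘ nl) T.px), fun z hz => ?_⟩
  have h1 := (d.KX τ).mem_src.1 hz
  rw [isNk_ψ τ.2 c' h1, isNk_ψ k c (by rwa [isNk_J k c, e, ← isNk_J τ.2 c']), e]

end Lit

theorem hS_ψ (b : Bool) {z : d.Y × ℝ} (hz : z ∈ (d.KS b).ψ.source) :
    d.hS ((d.KS b).ψ z) = gh d.R0 (-pm b * z.2) := by
  rw [hS_side H b ((S_tgt H b).1 ((d.KS b).ψ.map_source hz)).2.le, (d.KS b).tm_ψ _ hz]

/-- the ends of the face in the long neck -/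
theorem X_S (T : Lg d τ) (b : Bool) {z : d.Y × ℝ} (hz : z ∈ (d.KS b).ψ.source)
    (k : (d.KS b).ψ z ∈ (d.φ τ).source) : (z.1, z.2 + bif b then nl τ else 0) ∈ (d.KX τ).ψ.source ∧
    (d.KX τ).ψ (z.1, z.2 + bif b then nl τ else 0) = d.φ τ ((d.KS b).ψ z) := by
  obtain ⟨h1, h2⟩ := (S_tgt H b).1 ((d.KS b).ψ.map_source hz)
  obtain ⟨b', hb⟩ := ex_side (hc d ((d.KS b).ψ z))
  obtain rfl : b' = b := by
    have := abs_nonneg (hc d ((d.KS b).ψ z))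
    cases b <;> cases b' <;> simp [pm] at h2 hb ⊢ <;> linarith
  have h3 : d.φ τ ((d.KS b').ψ z) ∈ (d.KX τ).ψ.target := (X_tgt H T).2 (by rwa [φ_eq H, h0_up H])
  have h4 := X_tm H T ((X_tgt H T).1 h3)
  have h5 := len_side T.half T.lt b' (hb ▸ hS_low H T (by rwa [φ_src H] at k))
  rw [← S_tm H b' ((d.KS b').ψ.map_source hz), (d.KS b').tm_ψ _ hz] at h5
  rw [φ_eq H, h0_up H] at h4
  have h6 : z.2 + (bif b' then nl τ else 0) = len τ false (hc d ((d.KS b').ψ z)) := by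
    cases b' <;> simp [pm] at h5 ⊢ <;> linarith
  have h8 : hc d ((d.KS b').ψ z) ∈ Hs ((J.Θ d.y.s).2 d.x) b' := by
    have := (d.KS b').ψ.map_source hz
    rwa [isNk_target (d.hb b') (H.ok.nk _ _ _ _ _)] at this
  have k1 := isNk_len (d.hb b') (H.ok.nk _ _ _ _ (d.hb b')) h8 z.1
  have k2 := isNk_len τ.2 (H.ok.nk _ _ _ _ τ.2) (s := hc d ((d.KS b').ψ z))
    ⟨abs_lt.1 h1, .inl ((T.x 0).trans_lt T.lt)⟩ z.1
  rw [show (J.Θ (d.s τ 0)).2 d.x = τ from T.x 0] at k2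
  rw [px, Option.getD_some, ← S_tm H b' ((d.KS b').ψ.map_source hz), (d.KS b').tm_ψ _ hz] at k1
  refine ⟨(d.KX τ).mem_src.2 ?_, ?_⟩
  · rw [φ_eq H, (d.KX τ).tgt, mem_preimage, h4] at h3
    exact h6 ▸ h3
  · rw [h6, φ_eq H]
    exact k2.trans ((W.up_φ (up0 H) (Mark.j_not_mem _ (.inl ⟨H.hd, hc_ne H _⟩))).symm.trans
      (congrArg _ k1.symm))

end Crest.Agent.X212.Gb50
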