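import Crest.Agent.X212.Gb50.Geo
import Crest.Agent.X212.Pj41.Grl
import Crest.Agent.X212.Loc66.Paste
import Crest.Agent.X212.Cay24.GlB

/-!
# Row 212, GL (helper50): data pushed forward along a literal chart
-/

set_option autoImplicit false
set_option linter.unusedSectionVars false
noncomputable section
open scoped Manifold ContDiff Topology
open Set Function Filter

namespace Crest.Agent.X212.Gb50
open An Prm93 Gj67 Sob92
open Pj41 (FRel GRel OKOn ConnOn)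
open Gl67 (Sid)

variable {E : Type} [NormedAddCommGroup E] [NormedSpace ℝ E] [FiniteDimensional ℝ E]
  [MeasurableSpace E] [BorelSpace E]
  {HM : Type} [TopologicalSpace HM] {I : ModelWithCorners ℝ E HM} [I.Boundaryless]
  {M : Type} [TopologicalSpace M] [ChartedSpace HM M] [IsManifold I ∞ M]
  [MeasurableSpace M] [T2Space M] [BorelSpace M] [SecondCountableTopology M]
  {E' : Type} [NormedAddCommGroup E'] [NormedSpace ℝ E'] [FiniteDimensional ℝ E']
  [MeasurableSpace E'] [BorelSpace E']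
  {HM' : Type} [TopologicalSpace HM'] {I' : ModelWithCorners ℝ E' HM'} [I'.Boundaryless]
  {M' : Type} [TopologicalSpace M'] [ChartedSpace HM' M'] [IsManifold I' ∞ M']
  [MeasurableSpace M'] [T2Space M'] [BorelSpace M'] [SecondCountableTopology M']
  {ι lam : Type} [Fintype ι] [Fintype lam] {V : Type} [NormedAddCommGroup V] [NormedSpace ℝ V]
  {φ : OpenPartialHomeomorph M' M} {c : M → ℝ} {f g : M' → V} {C : ℕ → ℝ}

/-- `c` lives in the chart -/
def Sup (φ : OpenPartialHomeomorph M' M) (c : M → ℝ) : Prop :=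
  ∀ z, (∃ w ∈ φ.source, φ w = z) ∨ ∀ᶠ y in 𝓝 z, c y = 0

theorem Sup.of (k : ∀ z ∉ φ.target, ∀ᶠ y in 𝓝 z, c y = 0) : Sup φ c := fun z =>
  (em (z ∈ φ.target)).imp (fun hz => ⟨_, φ.map_target hz, φ.right_inv hz⟩) (k z)

theorem Sup.fix (k : Sup φ c) {L : M → V →L[ℝ] V} (e : ∀ w ∈ φ.source, L (φ w) (f w) = f w) (z : M) :
    L z (c z • f (φ.symm z)) = c z • f (φ.symm z) := by
  rcases k z with ⟨w, hw, rfl⟩ | hz
  · rw [φ.left_inv hw, map_smul, e w hw]
  · rw [hz.self_of_nhds, zero_smul, map_zero]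

section fr
variable {F' : Fr I' M' ι} {F : Fr I M ι} (h : FRel F' F φ φ.source) (k : Sup φ c) (hc : Sm I c)
  (hf : Sm I' f)
include h k hc hf

theorem sm_ps : Sm I fun z => c z • f (φ.symm z) := fun z => by
  rcases k z with ⟨w, hw, rfl⟩ | hz
  · exact (hc _).smul (Pj41.fsm_ld (h.ld w hw) (u := fun z => f (φ.symm z))
      ((hf w).congr_of_eventuallyEq ((φ.eventually_left_inverse hw).mono fun y e => congrArg f e)))
  · exact (contMDiffAt_const (c := 0)).congr_of_eventuallyEq (hz.mono fun y e => by simp [e])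

theorem cbs_ps (e : ∀ w ∈ φ.source, g w = c (φ w) • f w) (hg : F'.CBs g C) (C0 : ∀ n, 0 ≤ C n) :
    F.CBs (fun z => c z • f (φ.symm z)) C := Pj41.cbs_of_bAt (sm_ps h k hc hf) fun z => by
  rcases k z with ⟨w, hw, rfl⟩ | hz
  · exact h.bAt hw ((φ.open_source.eventually_mem hw).mono fun y hy => by
      rw [e y hy, φ.left_inv hy]) hg
  · exact (FRel.refl F isOpen_univ).bAt (x := z) trivial (hz.mono fun y e => by simp [e])
      (cbs_zero C0)

end fr

theorem uc_ps {α : Type} {l : Filter α} {F' : α → Fr I' M' ι} {F : α → Fr I M ι}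
    {φ : α → OpenPartialHomeomorph M' M} {c : α → M → ℝ} {c' : α → M' → ℝ}
    (h : ∀ᶠ i in l, FRel (F' i) (F i) (φ i) (φ i).source ∧ Sup (φ i) (c i) ∧ Sm I (c i) ∧
      ∀ w ∈ (φ i).source, c' i w = c i (φ i w)) (hf : Sm I' f)
    (k : UC l (fun i => (F' i).toPre) fun i w => c' i w • f w) :
    UC l (fun i => (F i).toPre) fun i z => c i z • f ((φ i).symm z) :=
  let ⟨C, k⟩ := k
  ⟨fun n => |C n|, (h.and k).mono fun _ ⟨h, k⟩ => cbs_ps h.1 h.2.1 h.2.2.1 hf
    (fun w hw => congrArg (· • f w) (h.2.2.2 w hw)) (Pj41.CBs_mono k fun _ => le_abs_self _)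
      fun _ => abs_nonneg _⟩

theorem UC.of_cb {α : Type} {l : Filter α} {F : Pre I' M' ι} (k : F.Cb f) :
    UC l (fun _ => F) fun _ => f := k.imp fun _ k => .of_forall fun _ => k

variable {T U Up R : Type} [NormedAddCommGroup T] [NormedSpace ℝ T] [NormedAddCommGroup U]
  [NormedSpace ℝ U] [NormedAddCommGroup Up] [NormedSpace ℝ Up] [NormedAddCommGroup R]
  [NormedSpace ℝ R] {N : ℕ} {Jc : En (Fin N)} {𝔉' : Mod61.Fam I' M' ι lam T}
  {𝔉 : Mod61.Fam I M ι lam T}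

/-- the module of `s` is literally the module of `s'` in the chart -/
structure Ch (s' : Sid 𝔉' N Jc U Up R) (s : Sid 𝔉 N Jc U Up R) (φ : OpenPartialHomeomorph M' M) :
    Prop where
  g : GRel 𝔉'.B 𝔉'.G0 𝔉.B 𝔉.G0 φ φ.source
  p : ∀ w ∈ φ.source, s.p (φ w) = s'.p w
  ρ : ∀ a, ∀ w ∈ φ.source, s.ρ a (φ w) = s'.ρ a w
  j : ∀ w ∈ φ.source, s.j (φ w) = s'.j w

namespace Ch
variable {s' : Sid 𝔉' N Jc U Up R} {s : Sid 𝔉 N Jc U Up R} (h : Ch s' s φ)
include h

theorem okOn (H : s'.OK) : OKOn I 𝔉.B s.md φ.target :=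
  φ.image_source_eq_target ▸ h.g.okOn_iff.1
    (Pj41.OKOn.same φ.open_source h.p h.ρ h.j (Pj41.OK.on H.ok _)).1

theorem connOn (H : s'.OK) : ConnOn 𝔉.B 𝔉.G0 s.md (fun a z => s'.A0 a (φ.symm z)) φ.target :=
  φ.image_source_eq_target ▸ h.g.connOn_iff.1
    (Pj41.ConnOn.same φ.open_source h.p h.ρ h.j (Pj41.OK.on H.ok _) (Pj41.IsConn.on H.conn _)
      fun b _ hw => congrArg (s'.A0 b) (φ.left_inv hw))

variable {w : M'} (hw : w ∈ φ.source)
include hw

theorem pp : s.md.pp 𝔉.B (φ w) = s'.md.pp 𝔉'.B w := by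
  rw [← h.g.pp s.md hw]; simp only [Md.pp, Md.om, h.p w hw, h.ρ _ w hw]

theorem pg : s.md.pg (φ w) = s'.md.pg w :=
  Cay24.pg_congr (h.p w hw) (fun a => h.ρ a w hw) (h.j w hw)

theorem p1 : s.md.p1 𝔉.B (φ w) = s'.md.p1 𝔉'.B w := by
  simp only [Md.p1, h.pg hw, h.g.P _ _ w hw]

theorem pC (o' : 𝔉'.Om = univ ∧ 𝔉'.Om' = univ) (o : 𝔉.Om = univ ∧ 𝔉.Om' = univ) :
    s'.bd.pC w = s.bd.pC (φ w) := by
  simp only [Map77.ps, Sid.P1, Sid.Pg, Sid.Pp, o.1, o.2, o'.1, o'.2, indicator_univ, h.pg hw,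
    h.pp hw, h.g.P _ _ w hw]

end Ch

end Crest.Agent.X212.Gb50
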