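import Crest.Agent.X212.Gb50.Ub

/-!
# Row 212, GL (helper50): the patched backgrounds on the unbroken manifold
-/

set_option autoImplicit false
set_option linter.unusedSectionVars false
noncomputable section
open scoped Manifold ContDiff Topology
open Set Function Filter

namespace Crest.Agent.X212.Gb50
open An M Prm93 Cht98 Cyf70
open Met55 (atx FAt rFr VJ fam)
open Dr59 (mf)

variable {X : Mf 4} {A κ lam : Type} [Fintype A] [Fintype κ] [Fintype lam]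
  [DecidableEq lam] {M : Mark X A κ} {W : World M} {L : ML M lam} (Λ : Lns W L) {m : M.Cl} {x : A}
  {p p' p₁ p₁' : Prm A} {z : (W.Z M.c0).M} {T : Type} [NormedAddCommGroup T] [NormedSpace ℝ T]

instance cpt0 (W : World M) : CompactSpace (W.Z M.c0).M :=
  Cyl58.caps_compact W.toCaps fun _ h => h.elim

theorem fr0 (x : A) : x ∈ M.sys.fr M.c0.1 := ⟨id, fun _ h => h.elim⟩

variable (W x) in
/-- the height on the unbroken manifold -/
abbrev h0 : (W.Z M.c0).M → ℝ := hZ W.toCaps M.c0 x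

theorem cont_h0 : Continuous fun z => |h0 W x z| := (sm_hZ _ (.inr (fr0 x))).continuous.abs

variable (M m x) in
/-- only the literal wall `x` may be broken -/
structure Gp (p : Prm A) : Prop where
  cyl : ¬M.pin x
  mem : x ∈ m.1
  lt : M.Lt M.c0.1 p.2 x
  o : ∀ a, a ≠ x → p.2 a < 1

theorem gp_of (h : NkOK M m M.c0 p x) : Gp M m x p :=
  ⟨h.cyl, h.lit.resolve_left id, h.lt, fun a _ => h.O a (fr0 a)⟩

theorem Gp.half (h : Gp M m x p) : 1 / 2 ≤ p.2 x := (h.lt.resolve_left id).2.1.1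

theorem Gp.nk (h : Gp M m x p) (k : p.2 x < 1) : NkOK M m M.c0 p x :=
  ⟨h.cyl, h.lt, fun a _ => (em (a = x)).elim (fun e => e ▸ k) (h.o a), .inr h.mem⟩

theorem Gp.Ω (h : Gp M m x p) (hz : h0 W x z ≠ 0) : (p, z) ∈ M.Ω M.c0.1 (W.φ M.c0) := fun a _ => by
  by_cases e : a = x
  · subst e
    exact .inr fun ⟨y, hy, k⟩ => hz ((congrArg _ k.symm).trans ((hZ_φ W.toCaps (.inr (fr0 a))
      (by simp [Mark.c0, Sys.cores])).trans ((M.bn a).s_eq_zero.2 hy)))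
  · exact .inl (h.o a e)

theorem ex_nj (hz : |h0 W x z| ≤ 1) : ∃ y, W.nj M.c0 x (y, h0 W x z) = z :=
  let ⟨y, _, k⟩ := exists_of_hZ W.toCaps (.inr (fr0 x)) (hz.trans_lt (by norm_num)); ⟨y, k⟩

theorem Gp.e_eq (h : Gp M m x p) (h' : Gp M m x p') (hz : |h0 W x z| ≤ 1) (h0' : h0 W x z ≠ 0)
    (k : (1 - p.2 x) / 2 ≤ |h0 W x z|) (k' : (1 - p'.2 x) / 2 ≤ |h0 W x z|) (i : Option κ) :
    (W.L m M.c0).e p i z = (W.L m M.c0).e p' i z := by
  obtain ⟨y, hy⟩ := ex_nj hz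
  have hl : M.Lit m.1 M.c0.1 x (y, h0 W x z).2 := ⟨hz, .inr ⟨h.mem, fr0 x⟩⟩
  have h1 := W.lit' h.cyl hl h.lt (.inr h0') p.1 i
  have h2 := W.lit' h.cyl hl h'.lt (.inr h0') p'.1 i
  rw [hy, Mark.tv_fr (fr0 x)] at h1 h2
  refine h1.trans (Eq.trans (congrArg _ ?_) h2.symm)
  cases i with
  | none => simp only [Mark.nf, Mark.wt_none h.cyl, sig_eq_sig_one h.half k, sig_eq_sig_one h'.half k']
  | some k => simp only [Mark.nf, Mark.wt_some h.cyl]

theorem Gp.cm_eq (h : Gp M m x p) (h' : Gp M m x p') (hz : |h0 W x z| < 1) (v : (W.Z M.c0).E) :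
    ((Λ.Λ m M.c0).ln p).cm (W.Z M.c0).I z v = ((Λ.Λ m M.c0).ln p').cm (W.Z M.c0).I z v := by
  obtain ⟨y, hy⟩ := ex_nj hz.le
  have hl : M.Lit m.1 M.c0.1 x (y, h0 W x z).2 := ⟨hz.le, .inr ⟨h.mem, fr0 x⟩⟩
  obtain ⟨w, rfl⟩ := (Met55.ld_bij (W.ld_nj hl.not_mem)).2 v
  have h1 := Λ.cm_lit hl hz h.lt p.1 w
  have h2 := Λ.cm_lit hl hz h'.lt p'.1 w
  rw [hy] at h1 h2
  exact h1.trans h2.symm

variable (W m x) in
open Classical in
/-- the frame of `p` with the neck of `p₁` -/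
def pe (p₁ p : Prm A) (i : Option κ) (z : (W.Z M.c0).M) : TangentSpace (W.Z M.c0).I z :=
  if |h0 W x z| < 3 / 4 then (W.L m M.c0).e p₁ i z else (W.L m M.c0).e p i z

variable (m x) in
open Classical in
/-- the patched background -/
def PG (p₁ p : Prm A) : Geo (W.Z M.c0).I (W.Z M.c0).M (Option κ) (lam ⊕ lam) :=
  ((Λ.Λ m M.c0).ln p).geo
    (if h : ∀ z, FAt (pe W m x p₁ p) z then rFr (pe W m x p₁ p) h else (W.L m M.c0).F0)

theorem PG_self (p : Prm A) : PG Λ m x p p = Λ.G m M.c0 p := by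
  rw [PG, show pe W m x p p = (W.L m M.c0).e p from funext fun _ => funext fun _ => ite_self _]; rfl

theorem pe_in (h₁ : Gp M m x p₁) (h : Gp M m x p) (hz : |h0 W x z| ≤ 1) (i : Option κ) :
    pe W m x p₁ p i z = (W.L m M.c0).e p₁ i z := by
  unfold pe; split_ifs with k
  · rfl
  · exact h.e_eq h₁ hz (fun e => k (by rw [e]; norm_num)) (by linarith [h.half])
      (by linarith [h₁.half]) i

theorem pe_out (h₁ : Gp M m x p₁) (h : Gp M m x p) (h0' : h0 W x z ≠ 0)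
    (k₁ : (1 - p₁.2 x) / 2 ≤ |h0 W x z|) (k : (1 - p.2 x) / 2 ≤ |h0 W x z|) (i : Option κ) :
    pe W m x p₁ p i z = (W.L m M.c0).e p i z := by
  unfold pe; split_ifs with k'
  exacts [h₁.e_eq h (by linarith) h0' k₁ k i, rfl]

theorem pe_out' (h₁ : Gp M m x p₁) (h : Gp M m x p) (k : 1 / 4 < |h0 W x z|) (i : Option κ) :
    pe W m x p₁ p i z = (W.L m M.c0).e p i z :=
  pe_out h₁ h (fun e => by rw [e] at k; norm_num at k) (by linarith [h₁.half]) (by linarith [h.half]) i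

theorem pe_cases (h₁ : NkOK M m M.c0 p₁ x) (h : Gp M m x p) (z : (W.Z M.c0).M) :
    ∃ q, (q, z) ∈ M.Ω M.c0.1 (W.φ M.c0) ∧ atx (pe W m x p₁ p) z = atx ((W.L m M.c0).e q) z := by
  by_cases k : |h0 W x z| ≤ 1
  · exact ⟨p₁, Mark.mem_Ω _ h₁.O z, funext (pe_in (gp_of h₁) h k)⟩
  · exact ⟨p, h.Ω fun e => k (by rw [e]; norm_num), funext (pe_out' (gp_of h₁) h (by linarith))⟩

variable (m x) in
/-- good parameters of a patched family -/
def gd (θ₁ θ : T → Prm A) : Set T := {t | ∀ᶠ s in 𝓝 t, NkOK M m M.c0 (θ₁ s) x ∧ Gp M m x (θ s)}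

variable {θ₁ θ : T → Prm A} (s₁ : ContDiff ℝ ∞ θ₁) (s : ContDiff ℝ ∞ θ)

variable (W m x) in
/-- the patched layer -/
def pL : Lay (W.Z M.c0) (W.o M.c0) T (Option κ) {q | q.1 ∈ gd (M := M) m x θ₁ θ} where
  F0 := (W.L m M.c0).F0
  vol := (W.L m M.c0).vol
  e t := pe W m x (θ₁ t) (θ t)
  sm t z k a := by
    have k0 := Eventually.self_of_nhds k
    have k1 := (continuous_fst.tendsto (t, z)).eventually k
    have c := (cont_h0 (W := W) (x := x)).comp (continuous_snd (X := T))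
    by_cases hz : |h0 W x z| < 1
    · refine (VJ.reparam (X := fun s => (W.L m M.c0).e s a) s₁.contDiffAt
        ((W.L m M.c0).sm _ z (Mark.mem_Ω _ k0.1.O z) a)).congr_of_eventuallyEq ?_
      filter_upwards [k1, (isOpen_lt c continuous_const).mem_nhds hz] with q k2 k3
      rw [pe_in (gp_of k2.1) k2.2 (le_of_lt k3)]
    · refine (VJ.reparam (X := fun s => (W.L m M.c0).e s a) s.contDiffAt
        ((W.L m M.c0).sm _ z (k0.2.Ω fun e => hz (by rw [e]; norm_num)) a)).congr_of_eventuallyEq ?_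
      filter_upwards [k1, (isOpen_lt continuous_const c).mem_nhds
        (show (1 / 4 : ℝ) < |h0 W x z| by linarith)] with q k2 k3
      rw [pe_out' (gp_of k2.1) k2.2 k3]
  sp t z k := by
    obtain ⟨q, h1, h2⟩ := pe_cases (Eventually.self_of_nhds k).1 (Eventually.self_of_nhds k).2 z
    exact h2 ▸ (W.L m M.c0).sp q z h1
  P t z k := by
    obtain ⟨q, h1, h2⟩ := pe_cases (Eventually.self_of_nhds k).1 (Eventually.self_of_nhds k).2 z
    rw [← (W.L m M.c0).P q z h1, Met55.fP, Met55.fP, h2]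
  ob t z k a b c d := by
    obtain ⟨q, h1, h2⟩ := pe_cases (Eventually.self_of_nhds k).1 (Eventually.self_of_nhds k).2 z
    have h3 : Int54.fv (pe W m x (θ₁ t) (θ t)) z = Int54.fv ((W.L m M.c0).e q) z := h2
    rw [← (W.L m M.c0).ob q z h1]
    simp only [ov, Int54.oc, Int54.cf, Int54.volF, Pi.smul_apply', Int54.nf, h3]

variable (m x) in
/-- the line on the patched layer -/
def pΛ : LLay (pL W m x s₁ s) lam where
  p := (Λ.Λ m M.c0).p
  a t := (Λ.Λ m M.c0).a (θ t)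
  ok t := (Λ.Λ m M.c0).ok (θ t)
  sm k t z := JAt.reparam (f := fun s y => Num57.e1 ((Λ.Λ m M.c0).a s y) (atx (W.L m M.c0).F0.e y k))
    s.contDiffAt ((Λ.Λ m M.c0).sm k (θ t) z)

theorem isOpen_gd : IsOpen (gd (M := M) m x θ₁ θ) := isOpen_setOfPred_eventually_nhds

section fixed
variable (h₁ : NkOK M m M.c0 p₁ x) (h : Gp M m x p)
include h₁ h

theorem PG_ok : (PG Λ m x p₁ p).OK (Λ.B m M.c0) :=
  (pΛ Λ m x (θ₁ := fun _ : ℝ => p₁) (θ := fun _ => p) contDiff_const contDiff_const).G_ok (t := 0)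
    fun _ => .of_forall fun _ => ⟨h₁, h⟩

theorem PG_e : (PG Λ m x p₁ p).F.e = pe W m x p₁ p :=
  (pL W m x (θ₁ := fun _ : ℝ => p₁) (θ := fun _ => p) contDiff_const contDiff_const).F_e (t := 0)
    fun _ => .of_forall fun _ => ⟨h₁, h⟩

theorem PG_a (i : Option κ) (z : (W.Z M.c0).M) : (PG Λ m x p₁ p).a i z =
    Line51.rl (((Λ.Λ m M.c0).ln p).cm (W.Z M.c0).I z (pe W m x p₁ p i z)) := by
  rw [← PG_e Λ h₁ h]; rfl

theorem agr_out (h₁' : NkOK M m M.c0 p₁' x) :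
    Agr (PG Λ m x p₁ p) (PG Λ m x p₁' p) {z | 1 / 4 < |h0 W x z|} :=
  ⟨isOpen_lt continuous_const cont_h0, fun z hz i => by
    rw [PG_e Λ h₁ h, PG_e Λ h₁' h, pe_out' (gp_of h₁) h hz, pe_out' (gp_of h₁') h hz], fun z hz i => by
    rw [PG_a Λ h₁ h, PG_a Λ h₁' h, pe_out' (gp_of h₁) h hz, pe_out' (gp_of h₁') h hz]⟩

theorem agr_in (h' : Gp M m x p') : Agr (PG Λ m x p₁ p) (PG Λ m x p₁ p') {z | |h0 W x z| < 1} :=
  ⟨isOpen_lt cont_h0 continuous_const, fun z hz i => by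
    rw [PG_e Λ h₁ h, PG_e Λ h₁ h', pe_in (gp_of h₁) h (le_of_lt hz), pe_in (gp_of h₁) h' (le_of_lt hz)],
    fun z hz i => by
    rw [PG_a Λ h₁ h, PG_a Λ h₁ h', pe_in (gp_of h₁) h (le_of_lt hz), pe_in (gp_of h₁) h' (le_of_lt hz)]
    exact congrArg _ (h'.cm_eq Λ h hz _)⟩

theorem agr_G : Agr (Λ.G m M.c0 p₁) (PG Λ m x p₁ p) {z | |h0 W x z| < 1} :=
  PG_self (x := x) Λ p₁ ▸ agr_in Λ h₁ (gp_of h₁) h

end fixed

include s₁ s

theorem jf_PG : JF (gd (M := M) m x θ₁ θ) fun t => (PG Λ m x (θ₁ t) (θ t)).F.toPre := fun _ ht z i =>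
  JV.of_tangent ((pL W m x s₁ s).vj_F ((isOpen_gd.eventually_mem ht).mono fun _ k _ => k) i z)

theorem js_PG (i : Option κ) :
    JS (W.Z M.c0).I (gd (M := M) m x θ₁ θ) fun t => (PG Λ m x (θ₁ t) (θ t)).a i := fun t ht z =>
  (jAt_A (pΛ Λ m x s₁ s) (t := t) (x := z) ht i).congr
    ((continuousAt_fst.eventually (isOpen_gd.mem_nhds ht)).mono fun q hq =>
      PG_a Λ (Eventually.self_of_nhds hq).1 (Eventually.self_of_nhds hq).2 i q.2)

end Crest.Agent.X212.Gb50
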