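import Crest.Agent.X212.Gb50.Pnq
import Crest.Agent.X212.Gb50.Tri
import Crest.Agent.X212.Cay24.Px
import Crest.Agent.X212.Loc45.Cg

/-! # Row 212, GL-LOCS (helper50): `PertS` -/

set_option autoImplicit false
noncomputable section

namespace Crest.Agent.X212.Gb50
open An An.Job M Nd18 Gj67

variable {Wi : Type} {X : Mf 4} {A κ lam : Type} [Fintype A] [Fintype κ] [Fintype lam]
  [DecidableEq lam] {M : Mark X A κ} {W : World M} {L : ML M lam} {Λ : Lns W L}
  {A' h : Type} [Fintype A'] [DecidableEq A'] [Fintype h] {r n : ℕ}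
  {J : Job Wi Λ A' h r n} {σ : Cel A'} {a : A'}
  {U Up R : Type} [NormedAddCommGroup U] [NormedSpace ℝ U] [NormedAddCommGroup Up]
  [NormedSpace ℝ Up] [NormedAddCommGroup R] [NormedSpace ℝ R]
  {d : Dat J σ a U Up R} {q₀ : Wi →₀ ℝ} {δ : ℝ} {k : ℕ}

/-- **LEAF PERT-S** -/
theorem pertS (H : d.OK q₀ δ) (hS : Gb50.Sd Λ) (hk : 7 ≤ k) : PertS d q₀ δ k :=
  Cay24.Px.pertS_of H hS hk fun I f => fin_cg I.cgS f

end Crest.Agent.X212.Gb50
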