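import Crest.Agent.X212.Loc45.Ix
import Crest.Agent.X212.Tmc7.Job

/-! # Row 212, GL-LOCS (helper50): the field terms and the cut terms of the pair -/

set_option autoImplicit false
set_option linter.unusedSectionVars false
noncomputable section
open scoped Manifold ContDiff Topology NNReal
open Set Function Filter

namespace Crest.Agent.X212.Gb50
open An An.Job M Nd18 Gj67 Sob92 Loc45 Wrd81 Prm93
open Rsp69 (Cx Tw Ub)

section gen
variable {E : Type} [NormedAddCommGroup E] [NormedSpace ℝ E] [FiniteDimensional ℝ E]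
  [MeasurableSpace E] [BorelSpace E]
  {HM : Type} [TopologicalSpace HM] {I : ModelWithCorners ℝ E HM} [I.Boundaryless]
  {M : Type} [TopologicalSpace M] [ChartedSpace HM M] [IsManifold I ∞ M]
  [MeasurableSpace M] [T2Space M] [BorelSpace M] [SecondCountableTopology M] {𝒟 : Type*}
  {lam ι : Type} [Fintype lam] [Fintype ι] {X : Cx I M ι 𝒟} {T : Tw X lam}
  {N N' : Type} [NormedAddCommGroup N] [NormedSpace ℝ N] [NormedAddCommGroup N'] [NormedSpace ℝ N']
  {c c' : 𝒟 → Bool → N}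

theorem sp_congr (h : SP T c) (e : ∀ᶠ d in X.l, ∀ i, c' d i = c d i) : SP T c' :=
  let ⟨K, hK, h⟩ := h
  ⟨K, hK, (h.and e).mono fun _ h => by simp only [h.2]; exact h.1⟩

theorem sp_same {u : 𝒟 → N} (h : Ub X.l fun d => ‖u d‖) : SP T fun d _ => u d :=
  let ⟨K, hK, h⟩ := h
  ⟨K, hK, (h.and T.lw.2).mono fun _ h => ⟨fun _ => h.1, by
    rw [sub_self, norm_zero]; exact mul_nonneg hK (h.2 0 0).1.le⟩⟩

theorem sp_clm {L : 𝒟 → N →L[ℝ] N'} (hL : Ub X.l fun d => ‖L d‖) (h : SP T c) :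
    SP T fun d i => L d (c d i) :=
  let ⟨K, hK, h⟩ := h; let ⟨K', hK', hL⟩ := hL
  ⟨K' * K, by positivity, (h.and hL).mono fun d h =>
    ⟨fun i => (L d).le_of_opNorm_le_of_le h.2 (h.1.1 i), by
      rw [← map_sub, mul_assoc]; exact (L d).le_of_opNorm_le_of_le h.2 h.1.2⟩⟩

theorem sp_pi {α : Type} [Fintype α] {u : 𝒟 → Bool → α → N} (h : ∀ a, SP T fun d i => u d i a) :
    SP T u := by
  choose K hK h using h
  have s := fun a => Finset.single_le_sum (fun a _ => hK a) (Finset.mem_univ a)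
  have p := Finset.sum_nonneg fun a (_ : a ∈ Finset.univ) => hK a
  exact ⟨_, p, ((eventually_all.2 h).and T.lw.2).mono fun d h =>
    have q := (h.2 0 0).1.le
    ⟨fun i => (pi_norm_le_iff_of_nonneg p).2 fun a => ((h.1 a).1 i).trans (s a),
      (pi_norm_le_iff_of_nonneg (mul_nonneg p q)).2 fun a =>
        (h.1 a).2.trans (mul_le_mul_of_nonneg_right (s a) q)⟩⟩

theorem ub_mul {l : Filter 𝒟} {u v w : 𝒟 → ℝ} (hu : Ub l u) (hv : Ub l v) (v0 : ∀ d, 0 ≤ v d)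
    (e : ∀ d, w d ≤ u d * v d) : Ub l w :=
  let ⟨K, hK, hu⟩ := hu; let ⟨K', hK', hv⟩ := hv
  ⟨K * K', by positivity, (hu.and hv).mono fun d h => (e d).trans (mul_le_mul h.1 h.2 (v0 d) hK)⟩

theorem pull_eq {M' : Type} [TopologicalSpace M'] {φ : OpenPartialHomeomorph M M'} {v : M → N}
    {v' : M' → N} (e : ∀ z, v' (φ z) = v z) (s : ∀ y, v' y ≠ 0 → y ∈ range φ)
    (h : ∀ z, v z ≠ 0 → z ∈ φ.source) : v' = pull φ.symm v := funext fun y => by
  by_cases k : y ∈ φ.target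
  · exact ((indicator_of_mem k _).trans (((e _).symm.trans (congrArg v' (φ.right_inv k))))).symm
  · refine Eq.trans ?_ (indicator_of_notMem k _).symm
    by_contra c
    obtain ⟨z, rfl⟩ := s y c
    exact k (φ.map_source (h z (e z ▸ c)))

/-- the projector of a cut is bounded for all frames -/
theorem pi_bd (k : Cut M lam) (B : Base M ι lam) (m : Md M ι lam) (x : M) :
    ∃ K, ∀ F : Fr I M ι, ‖k.pi B F m x‖ ≤ K := by
  refine ⟨‖m.pp B x‖ + ‖m.J‖ * ∑ s : ι × ι, ‖m.ρ s.1 x * m.ρ s.2 x‖, fun F => ?_⟩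
  have h1 : ∀ w, ‖m.c2 x w‖ ≤ ‖w‖ * ∑ s : ι × ι, ‖m.ρ s.1 x * m.ρ s.2 x‖ := fun w => by
    rw [Finset.mul_sum]
    exact norm_sum_le_of_le _ fun s _ => (ContinuousLinearMap.opNorm_smul_le _ _).trans
      (mul_le_mul_of_nonneg_right (PiLp.norm_apply_le w s) (norm_nonneg _))
  have h2 : ∀ t : ℝ, 0 ≤ t → |(2 * t)⁻¹| * t ≤ 1 := fun t ht => by
    rw [abs_of_nonneg (by positivity), mul_inv, mul_assoc]
    exact mul_le_one₀ (by norm_num) (by positivity) inv_mul_le_one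
  refine (norm_smul_le _ _).trans ((mul_le_of_le_one_left (norm_nonneg _) (by norm_num)).trans
    (norm_sub_le_of_le le_rfl ((norm_smul_le _ _).trans ?_)))
  refine (mul_le_mul_of_nonneg_left ((norm_mul_le _ _).trans
    (mul_le_mul_of_nonneg_left (h1 _) (norm_nonneg _))) (norm_nonneg _)).trans ?_
  rw [mul_left_comm, ← mul_assoc ‖_‖ ‖k.om B F x‖]
  exact mul_le_mul_of_nonneg_left (mul_le_of_le_one_left (by positivity) (h2 _ (norm_nonneg _)))
    (norm_nonneg _)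

/-- the value of an elementary term of a cut -/
def fv {n : ℕ} (J p : En (Fin n)) (a b : ℕ) (w : ℂ) (π : En (Fin n)) (u : L2c (Fin n)) :
    En (Fin n) →L[ℝ] L2c (Fin n) :=
  ((Hd J p).starProjection ∘L An.md J a ∘L (π * csE J w : En (Fin n))) ∘L
    ContinuousLinearMap.apply ℝ _ (π (fc J b ((Hd J p).starProjection u)))

theorem fv_eq {r : ℕ} (k : Cut M lam) (B : Base M ι lam) (F : Fr I M ι) (t : An.Tc M lam r) (s : ℝ)
    (c : Cfg M ι lam r) (u : L2c (Fin c.m.N)) :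
    sg k B (fun x => s • x.tc B F k t) c u = (s • fv c.m.J (c.m.pp B k.x0) t.m t.n t.w
      (k.pi B F c.m k.x0) u) (c.xi F t.ξ k.x0) := rfl

theorem ub_fv {l : Filter 𝒟} {n : ℕ} (J p : En (Fin n)) (a b : ℕ) (w : ℂ) {π : 𝒟 → En (Fin n)}
    {u : 𝒟 → L2c (Fin n)} {s : 𝒟 → ℝ} (hπ : Ub l fun d => ‖π d‖) (hu : Ub l fun d => ‖u d‖)
    (hs : Ub l fun d => ‖s d‖) : Ub l fun d => ‖s d • fv J p a b w (π d) (u d)‖ := by
  obtain ⟨K₁, p₁, hπ⟩ := hπ
  obtain ⟨K₂, p₂, hu⟩ := hu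
  obtain ⟨K₃, p₃, hs⟩ := hs
  refine ⟨K₃ * (‖(Hd J p).starProjection‖ * (‖An.md J a‖ * (K₁ * (‖csE J w‖ *
    (K₁ * (‖fc J b‖ * (‖(Hd J p).starProjection‖ * K₂))))))), by positivity, ?_⟩
  filter_upwards [hπ, hu, hs] with d hπ hu hs
  refine (ContinuousLinearMap.opNorm_smul_le _ _).trans (mul_le_mul hs
    (ContinuousLinearMap.opNorm_le_bound _ (by positivity) fun ξ => ?_) (norm_nonneg _) p₃)
  have h1 := (π d).le_of_opNorm_le_of_le hπ ((fc J b).le_of_opNorm_le_of_le le_rfl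
    ((Hd J p).starProjection.le_of_opNorm_le_of_le le_rfl hu))
  have h2 := (Hd J p).starProjection.le_of_opNorm_le_of_le le_rfl ((An.md J a).le_of_opNorm_le_of_le
    le_rfl ((π d).le_of_opNorm_le_of_le hπ ((csE J w).le_of_opNorm_le_of_le le_rfl
      (ξ.le_of_opNorm_le_of_le le_rfl h1))))
  exact h2.trans_eq (by ring)

theorem cbs_G {T : Type} [NormedAddCommGroup T] [NormedSpace ℝ T] {𝔉 : Mod61.Fam I M ι lam T}
    (h : 𝔉.OK) {r : ℝ} {C D : ℕ → ℝ} (fu : FU 𝔉 r C) {t : T} (ht : ‖t‖ ≤ r) {f : M → N}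
    (hf : 𝔉.F0.CBs f D) : (𝔉.G t).F.CBs f fun k => cM (Fintype.card ι) (C k) k * |D k| := by
  have ht' := mem_closedBall_zero_iff.2 ht
  have c := fun a b => (h.sS a b).cb _ (fu.sub ht')
  refine ⟨hf.1, fun k => (h.mix _ (fu.sub ht')).CB (fun a b => Cb.sm (c a b)) k (fun a b => ?_) hf.1
    (hf.2 k)⟩
  have := CB_mono (B.CB _) ((norm_iteratedFDeriv_zero ..).symm.trans_le (fu.S a b k 0 t ht'))
  rwa [fn_toB (c a b)] at this

end gen

variable {Wi : Type} {X : Mf 4} {A κ lam : Type} [Fintype A] [Fintype κ] [Fintype lam]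
  [DecidableEq lam] {M : Mark X A κ} {W : World M} {L : ML M lam} {Λ : Lns W L}
  {A' h : Type} [Fintype A'] [DecidableEq A'] [Fintype h] {r n : ℕ}
  {J : Job Wi Λ A' h r n} {σ : Cel A'} {a : A'}
  {U Up R : Type} [NormedAddCommGroup U] [NormedSpace ℝ U] [NormedAddCommGroup Up]
  [NormedSpace ℝ Up] [NormedAddCommGroup R] [NormedSpace ℝ R]
  {d : Dat J σ a U Up R} {q₀ : Wi →₀ ℝ} {δ : ℝ} {k : ℕ} (I : Ix d q₀ δ k)

/-- fixed bounded functions are bounded in the moving frames -/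
def Fw : Prop := ∀ (V : Type) [NormedAddCommGroup V] [NormedSpace ℝ V] (f : (W.Z (J.cf a)).M → V),
  d.FS.F0.Cb f → ∃ C, ∀ e, (I.GS e).F.CBs f C

theorem fw_of {r₀ : ℝ} {C : ℕ → ℝ} (fu : FU (FE d) r₀ C)
    (hr : ∀ e, ‖(Loc45.up d (I.τ e) (I.p e)).1‖ ≤ r₀) : Fw I := fun _ _ _ _ ⟨_, hf⟩ =>
  ⟨_, fun e => by
    have := cbs_G (FE_ok I.ok) fu (hr e) hf
    show ((jb J d.x).G _ (d.s _ _)).F.CBs _ _
    rw [← θE_up (I.lit e).lg]
    exact this⟩

variable (J) in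
theorem tcw_eq (c : M.Cl) (s : A' → ℝ) (j : h) (w : Wi)
    (x : Cfg (W.Z c).M (Option κ) (lam ⊕ lam) r) (u : L2c (Fin x.m.N)) :
    sg (J.cut c j) (J.B c) (tcw J c s j w) x u = (J.cc j w s • fv x.m.J (x.m.pp (J.B c) (J.cut c j).x0)
      (J.tc j w).m (J.tc j w).n (J.tc j w).w ((J.cut c j).pi (J.B c) (J.G c s).F x.m (J.cut c j).x0) u)
      (x.xi (J.G c s).F ((J.tp c).xi (J.tc j w).ξ) (J.cut c j).x0) :=
  fv_eq (J.cut c j) (J.B c) (J.G c s).F ((J.tp c).tc (J.tc j w)) (J.cc j w s) x u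

/-- the transports -/
abbrev tp (e : I.𝒟) (i : Bool) : Tp X.M ((I.T ⊤).S e i).M (lam ⊕ lam) (lam ⊕ lam) :=
  Bool.rec (J.tp (J.cf a)) (J.tp M.c0) i

/-- the scalars -/
abbrev zz (e : I.𝒟) (_ : Bool) : EuclideanSpace ℂ (Fin r) := d.cm.z0 + (I.p e).2.2.1

theorem ub_co {f : (A' → ℝ) → ℝ} (hf : ContDiff ℝ ∞ f) : Ub I.l fun e => ‖f (I.s e)‖ :=
  let ⟨K, hK⟩ := ((isCompact_Icc (a := (0 : ℝ)) (b := 1)).prod
    (isCompact_closedBall (0 : Gj67.Tc σ a) 1)).exists_bound_of_continuousOn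
      (hf.continuous.comp (cd_ee d.y.s).continuous).continuousOn
  .of_le K fun e => hK (_, _) ⟨⟨one_half_pos.le.trans (I.lit e).lg.half, (I.lit e).lg.lt.le⟩,
    mem_closedBall_zero_iff.2 ((norm_fst_le _).trans (I.np e))⟩

theorem alt {V : Set A} {f : (A' → ℝ) → ℝ} (hV : ∃ s₀ < (1 : ℝ), ∀ σ ∈ J.𝒦, ∀ s ∈ J.dom σ,
    ∀ a x, J.hd a = some x → x ∈ V → s₀ ≤ s a → f s = 0) : (∀ᶠ e in I.l, f (I.s e) = 0) ∨
      (M.sys.cores (J.hw \ V))ᶜ ⊆ (M.sys.cores (J.cf a).1)ᶜ := by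
  by_cases k : d.x ∈ V
  · obtain ⟨s₀, h1, h2⟩ := hV
    exact .inl (((tendsto_comap.comp I.tτ).eventually (Ici_mem_nhds h1)).mono fun e k2 =>
      h2 σ I.ok.mem _ (I.dom e) a _ I.ok.hd k (le_of_le_of_eq k2 (ee_a _ _ _).symm))
  · exact .inr (compl_subset_compl.2 (biUnion_subset_biUnion_left fun x hx =>
      (mem_cf I.ok).1 hx ▸ ⟨⟨a, I.ok.hd⟩, k⟩))

theorem tm_top (e : I.𝒟) (x) : I.tm ⊤ e x = d.hS x := Ix.tm_of trivial

variable {I} (fw : Fw I)
include fw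

theorem ps {V : Type} [NormedAddCommGroup V] [NormedSpace ℝ V] {v : (W.Z (J.cf a)).M → V}
    {v' : (W.Z M.c0).M → V} (hv : Sm (W.Z (J.cf a)).I v) (hc : HasCompactSupport v)
    (e : ∀ τ z, v' (d.φ τ z) = v z)
    (s : tsupport v' ⊆ W.φ M.c0 '' (M.sys.cores (J.cf a).1)ᶜ) :
    Ps (I.T ⊤) (I.sc ⊤ (fun _ => v) fun _ => v') := by
  obtain ⟨C, hC⟩ := fw _ v (Cb_of_hcs hv hc)
  obtain ⟨R₀, hR⟩ := hc.exists_bound_of_continuousOn d.sm_hS.continuous.continuousOn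
  refine ⟨fun _ => v, C, R₀, (I.tτ.eventually ((geo I.ok).la.eventually_gt_atTop R₀)).mono
    fun j hj => ⟨hC j, fun x hx => by_contra fun c => hx.not_ge ?_, fun i => ?_⟩⟩
  · exact (congrArg abs (tm_top I j x)).trans_le (hR x (subset_tsupport _ c))
  · cases i
    · exact funext fun x => (indicator_of_mem (mem_univ x) _).symm
    · refine pull_eq (e _) (fun y hy => ?_) fun z hz => ?_
      · obtain ⟨x, hx, rfl⟩ := s (subset_tsupport _ hy)
        exact ⟨_, tp_p I.ok hx _⟩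
      · rw [φ_src I.ok]
        exact ((le_abs_self _).trans (hR z (subset_tsupport _ hz))).trans_lt hj

variable (hC : I.CgS)
include hC

theorem th' {Ω : Set X.M} (hΩ : Ω ⊆ (M.sys.cores (J.cf a).1)ᶜ) :
    TH X.I (I.c ⊤) (zz I) Ω (tp I) (k + 1) where
  toCG := (hC ⊤).1
  toT0 := (hC ⊤).2
  z b := sp_same (.of_le (‖d.cm.z0‖ + 1) fun e => (PiLp.norm_apply_le _ b).trans
    (norm_add_le_of_le le_rfl ((norm_fst_le _).trans ((norm_snd_le _).trans
      ((norm_snd_le _).trans (I.np e))))))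
  f g hg := by
    have h1 := (Tmc7.tpS hΩ d).f g hg
    have h2 := (Tmc7.tpX hΩ d).f g hg
    convert ps fw h1.sm h1.hcs (tp_f I.ok g) (h2.sub.trans (image_mono hΩ)) using 3 with e i
    cases i <;> rfl
  s g hg := by
    have h1 := (Tmc7.tpS hΩ d).s g hg
    have h2 := (Tmc7.tpX hΩ d).s g hg
    convert ps fw h1.sm h1.hcs (tp_s I.ok g) (h2.sub.trans (image_mono hΩ)) using 3 with e i
    cases i <;> rfl

/-- **LEAF TW** -/
theorem twS : I.TwS := fun w => by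
  obtain ⟨V, h1, h2⟩ := I.ok.ok.tw w
  have b := ub_co I (I.ok.ok.co w)
  rcases alt I h2 with e | e
  · refine ⟨⟨Tw.EL.zero.congr (e.mono fun j e i => ?_), Tw.EL.zero.congr (e.mono fun j e i => ?_)⟩,
      sp_congr (sp_same (u := fun _ => 0) (.const _)) (e.mono fun j e i => ?_)⟩
    · cases i <;> exact funext fun x => ((congrArg (· • _) e).trans (zero_smul _ _)).symm
    · cases i <;> exact funext fun x => ((congrArg (· • _) e).trans (zero_smul _ _)).symm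
    · cases i <;> exact funext fun x => (congrArg (fun t : ℝ => (t : ℂ) * _) e).trans (by simp)
  · have t := th' fw hC e
    have c := (Tw.EC.const (T := I.T ⊤) (k := k + 1) (N := fun _ => ℝ) b).el
    have h7 := I.hk.trans k.le_succ
    obtain ⟨x, -⟩ := I.ok.top
    refine ⟨⟨(c.smul h7 k.le_succ ((t.tD h1).of_le k.le_succ)).congr' fun j i y => ?_,
      (c.smul h7 k.le_succ ((t.tC h1).of_le k.le_succ)).congr' fun j i y => ?_⟩, sp_pi fun s =>
        sp_congr (sp_clm (L := fun e => J.co w (I.s e) • ContinuousLinearMap.id ℝ ℂ) (ub_mul b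
          (.const ‖ContinuousLinearMap.id ℝ ℂ‖) (fun _ => norm_nonneg _) fun _ =>
            ContinuousLinearMap.opNorm_smul_le _ _)
          (t.toT0.pt (x := fun _ => x) (R := |d.hS x|) ((t.tS h1 s).of_le (h7.trans' (by omega)))
            (.of_forall fun e => (congrArg _ (tm_top I e x)).le))) (.of_forall fun j i => ?_)⟩
    · cases i <;> rfl
    · cases i <;> rfl
    · cases i <;> exact Complex.real_smul.symm

set_option maxRecDepth 4000 in
/-- **LEAF SG** -/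
theorem sgS : I.SgS := fun j w => by
  obtain ⟨V, h1, h2⟩ := I.ok.ok.tc j w
  rcases alt I h2 with e | e
  · refine sp_congr (sp_same (u := fun _ => 0) (.const _)) (e.mono fun l e i => ?_)
    cases i
    · refine (cond_false _ _).trans ((tcw_eq (jb J d.x) _ _ j w (I.cS l) _).trans ?_)
      rw [show (jb J d.x).cc j w _ = 0 from e, zero_smul]; rfl
    · refine (cond_true _ _).trans ((tcw_eq J _ _ j w (I.cX l) _).trans ?_)
      rw [show J.cc j w _ = 0 from e, zero_smul]; rfl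
  · obtain ⟨K, hK⟩ := pi_bd (I := (W.Z (J.cf a)).I) (J.cut (J.cf a) j) (J.B _) d.S.md (J.cut _ j).x0
    refine sp_congr (sp_clm (ub_fv d.Jc (d.S.md.pp (J.B _) (J.cut _ j).x0) (J.tc j w).m (J.tc j w).n
      (J.tc j w).w (.of_le K fun e => hK (I.GS e).F) (u := fun e => d.cm.ψ0 j + (I.p e).2.2.2 j)
      (.of_le (‖d.cm.ψ0 j‖ + 1) fun e => norm_add_le_of_le le_rfl ((norm_le_pi_norm _ j).trans
        ((norm_snd_le _).trans ((norm_snd_le _).trans ((norm_snd_le _).trans (I.np e))))))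
      (ub_co I (I.ok.ok.cc j w))) ((th' fw hC e).xi h1 (x := fun _ => (J.cut _ j).x0)
        (R := |d.hS (J.cut _ j).x0|) (.of_forall fun e => (congrArg _ (tm_top I e _)).le)))
      (.of_forall fun l i => ?_)
    cases i
    · exact (cond_false _ _).trans (tcw_eq (jb J d.x) _ _ j w (I.cS l) _)
    · have T := I.lit l
      have k1 := (T.mr I.ok (I.w l)).pi (T.g.mono isOpen_O2 (O2_sub T.ta))
        (fun u y _ => (tp_f I.ok u _ y).symm) (k := J.ct j) (Jc := d.Jc) (T.x0_mem I.ok j)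
      have k2 := T.pp_x0 I.ok (I.w l) j
      have k3 := φ_x0 I.ok (I.τ l) j
      refine (cond_true _ _).trans ((tcw_eq J _ _ j w (I.cX l) _).trans ?_)
      rw [k3] at k1
      exact congrArg₂ (fun u v => u v) (congrArg₂ (fun u v => J.cc j w (I.s l) •
        fv d.Jc u _ _ _ v _) k2.symm k1.symm) (congrArg _ k3.symm)

end Crest.Agent.X212.Gb50
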