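import Crest.Agent.X212.Gl67.Leaf

/-!
# Row 212, GL (helper50): uniform bounds of families of backgrounds from two patches
-/

set_option autoImplicit false
set_option linter.unusedSectionVars false
noncomputable section
open scoped Manifold ContDiff Topology
open MeasureTheory Set Function Filter Metric

namespace Crest.Agent.X212.Gb50
open An Prm93 Sob92 Met55 Gj67 Cht98

/-- eventually, for all large constants -/
def EC {α : Type} (l : Filter α) (P : α → (ℕ → ℝ) → Prop) : Prop :=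
  ∀ᶠ C : ℕ → ℝ in atTop, ∀ᶠ i in l, P i C

section ec
variable {α : Type} {l : Filter α} {P P' : α → (ℕ → ℝ) → Prop}

theorem EC.of (hm : ∀ i C C', P i C → (∀ k, C k ≤ C' k) → P i C') (h : ∃ C, ∀ᶠ i in l, P i C) :
    EC l P := let ⟨C, h⟩ := h
  (eventually_ge_atTop C).mono fun _ e => h.mono fun _ k => hm _ _ _ k e

theorem EC.all {J : Type} [Finite J] {P : J → α → (ℕ → ℝ) → Prop} (h : ∀ j, EC l (P j)) :
    EC l fun i C => ∀ j, P j i C := (eventually_all.2 h).mono fun _ k => eventually_all.2 k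

theorem EC.and (h : EC l P) (h' : EC l P') : EC l fun i C => P i C ∧ P' i C :=
  (Eventually.and h h').mono fun _ k => k.1.and k.2

theorem EC.mono (h : EC l P) (e : ∀ᶠ i in l, ∀ C, P i C → P' i C) : EC l P' :=
  Eventually.mono h fun C k => (k.and e).mono fun _ k => k.2 C k.1

theorem EC.ex (h : EC l P) : ∃ C, ∀ᶠ i in l, P i C := h.exists

end ec

variable {E : Type} [NormedAddCommGroup E] [NormedSpace ℝ E] [FiniteDimensional ℝ E]
  [MeasurableSpace E] [BorelSpace E]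
  {HM : Type} [TopologicalSpace HM] {I : ModelWithCorners ℝ E HM} [I.Boundaryless]
  {M : Type} [TopologicalSpace M] [ChartedSpace HM M] [IsManifold I ∞ M]
  [MeasurableSpace M] [T2Space M] [BorelSpace M] [SecondCountableTopology M]
  {ι : Type} [Fintype ι] {lam : Type} [Fintype lam]
  {T : Type} [NormedAddCommGroup T] [NormedSpace ℝ T]
  {N : Type} [NormedAddCommGroup N] [NormedSpace ℝ N]

section pb
variable {F : Pre I M ι} {Q : Set T} {f : T → M → N} {r : ℝ} {C C' : ℕ → ℝ} {k n : ℕ} {t : T}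

/-- evaluation of a derivative -/
def evw (F : Pre I M ι) (k : ℕ) (w : Wd ι k) (x : M) : B F k N →L[ℝ] N :=
  LinearMap.mkContinuous ((BoundedContinuousFunction.evalCLM ℝ x).toLinearMap ∘ₗ
    LinearMap.proj (φ := fun _ => BoundedContinuousFunction M N) w ∘ₗ B.jet) 1 fun f => (f.CB w.1 w.2 x).trans_eq (one_mul _).symm

theorem evw_apply (w : Wd ι k) (x : M) (g : B F k N) : evw F k w x g = F.Dw w.1 (B.fn g) x := rfl

theorem iFD_evw (h : SB F Q f) (hQ : IsOpen Q) (ht : t ∈ Q) (w : Wd ι k) (x : M) :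
    iteratedFDeriv ℝ n (fun s => F.Dw w.1 (f s) x) t = (evw F k w x).compContinuousMultilinearMap
      (iteratedFDeriv ℝ n (fun s => toB F k (f s)) t) := by
  rw [← (evw F k w x).iteratedFDeriv_comp_left ((h.sm k).contDiffAt (hQ.mem_nhds ht))
    (by exact_mod_cast le_top)]
  refine (EventuallyEq.iteratedFDeriv ℝ ?_ n).self_of_nhds
  filter_upwards [hQ.mem_nhds ht] with s hs
  rw [comp_apply, evw_apply, fn_toB (h.cb s hs)]

/-- pointwise form of `UBn` -/
def PB (F : Pre I M ι) (r : ℝ) (C : ℕ → ℝ) (f : T → M → N) (x : M) : Prop :=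
  ∀ k n, ∀ t ∈ closedBall (0 : T) r, ∀ w : List ι, w.length ≤ k →
    ‖iteratedFDeriv ℝ n (fun s => F.Dw w (f s) x) t‖ ≤ C (k + n)

theorem ubn_of_pb (h : SB F Q f) (hQ : IsOpen Q) (hr : closedBall 0 r ⊆ Q) (h0 : ∀ k, 0 ≤ C k)
    (p : ∀ x, PB F r C f x) : UBn F r C f := fun k n t ht =>
  ContinuousMultilinearMap.opNorm_le_bound (h0 _) fun m =>
    (B.norm_le (mul_nonneg (h0 _) (by positivity))).2 fun w hw x => by
      have := (iteratedFDeriv ℝ n (fun s => F.Dw w (f s) x) t).le_of_opNorm_le (p x k n t ht w hw) m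
      rwa [iFD_evw h hQ (hr ht) ⟨w, hw⟩] at this

theorem pb_of_ubn (h : SB F Q f) (hQ : IsOpen Q) (hr : closedBall 0 r ⊆ Q) (p : UBn F r C f)
    (x : M) : PB F r C f x := fun k n t ht w hw => by
  rw [iFD_evw h hQ (hr ht) ⟨w, hw⟩]
  refine (ContinuousLinearMap.norm_compContinuousMultilinearMap_le _ _).trans
    ((mul_le_of_le_one_left (norm_nonneg _) ?_).trans (p k n t ht))
  exact LinearMap.mkContinuous_norm_le _ zero_le_one _

theorem ubn_mono (h : UBn F r C f) (e : ∀ k, C k ≤ C' k) : UBn F r C' f :=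
  fun k n t ht => (h k n t ht).trans (e _)

theorem ubn_sb [FiniteDimensional ℝ T] (h : SB F Q f) (hQ : IsOpen Q) (hr : closedBall 0 r ⊆ Q) :
    ∃ C, UBn F r C f := by
  have : ∀ k n, ∃ A, ∀ t ∈ closedBall (0 : T) r,
      ‖iteratedFDeriv ℝ n (fun t => toB F k (f t)) t‖ ≤ A := fun k n =>
    (isCompact_closedBall 0 r).exists_bound_of_continuousOn fun t ht =>
      (((h.sm k).contDiffAt (hQ.mem_nhds (hr ht))).continuousAt_iteratedFDeriv
        (by exact_mod_cast le_top)).continuousWithinAt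
  choose A hA using this
  refine ⟨fun m => ∑ j ∈ Finset.range (m + 1), |A j (m - j)|, fun k n t ht =>
    (hA k n t ht).trans ((le_abs_self _).trans (le_trans (by simp) (Finset.single_le_sum
      (f := fun j => |A j (k + n - j)|) (fun _ _ => abs_nonneg _) (a := k) (by simp))))⟩

theorem ubn_slice {Q : Set (ℝ × T)} {f : ℝ × T → M → N} (h : SB F Q f) (hQ : IsOpen Q)
    (hr : closedBall 0 r ⊆ Q) (p : UBn F r C f) {u : ℝ} (hu : |u| ≤ r) (x : M) :
    PB F r C (fun t => f (u, t)) x := by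
  have m : ∀ t ∈ closedBall (0 : T) r, (u, t) ∈ closedBall (0 : ℝ × T) r := fun t ht => by
    simpa [Prod.norm_def, hu] using ht
  have c : Continuous fun t : T => (u, t) := by fun_prop
  refine pb_of_ubn (Q := (fun t => (u, t)) ⁻¹' Q) (h.reparam (by fun_prop) fun _ k => k)
    (hQ.preimage c) (fun t ht => hr (m t ht)) (fun k n t ht => le_trans ?_ (p k n _ (m t ht))) x
  have o1 : IsOpen ((fun q => (u, 0) + q) ⁻¹' Q) := hQ.preimage (by fun_prop)
  have o2 := o1.preimage (ContinuousLinearMap.inr ℝ ℝ T).continuous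
  have m' : ContinuousLinearMap.inr ℝ ℝ T t ∈ (fun q => (u, 0) + q) ⁻¹' Q := by
    simpa using hr (m t ht)
  have := (ContinuousLinearMap.inr ℝ ℝ T).iteratedFDerivWithin_comp_right
    (f := fun q => toB F k (f ((u, 0) + q))) (i := n) (s := (fun q => (u, 0) + q) ⁻¹' Q)
    ((h.sm k).comp (contDiff_const.add contDiff_id).contDiffOn fun _ k => k)
    o1.uniqueDiffOn o2.uniqueDiffOn m' (by exact_mod_cast le_top)
  rw [iteratedFDerivWithin_of_isOpen n o2 m', iteratedFDerivWithin_of_isOpen n o1 m',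
    iteratedFDeriv_comp_add_left (f := fun q => toB F k (f q))] at this
  rw [show (fun t => toB F k (f (u, t))) = (fun q => toB F k (f ((u, 0) + q))) ∘
    ContinuousLinearMap.inr ℝ ℝ T from funext fun t => by simp, this]
  refine (ContinuousMultilinearMap.norm_compContinuousLinearMap_le _ _).trans ?_
  rw [show (u, 0) + ContinuousLinearMap.inr ℝ ℝ T t = (u, t) by simp]
  exact mul_le_of_le_one_right (norm_nonneg _) (Finset.prod_le_one (fun _ _ => norm_nonneg _)
    fun _ _ => ContinuousLinearMap.norm_inr_le_one ℝ ℝ T)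

end pb

variable {B : Base M ι lam} {G G' G0 G0' G1 : Geo I M ι lam} {U U1 U2 : Set M} {x : M}
  {C : ℕ → ℝ} {r : ℝ}

theorem agr_refl (G : Geo I M ι lam) (hU : IsOpen U) : Agr G G U := ⟨hU, fun _ _ _ => rfl, fun _ _ _ => rfl⟩

theorem agr_symm (h : Agr G G' U) : Agr G' G U :=
  ⟨h.op, fun x hx a => (h.e x hx a).symm, fun x hx a => (h.a x hx a).symm⟩

theorem agr_trans (h : Agr G G' U) (h' : Agr G' G1 U) : Agr G G1 U :=
  ⟨h.op, fun x hx a => (h'.e x hx a).trans (h.e x hx a), fun x hx a => (h'.a x hx a).trans (h.a x hx a)⟩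

theorem agr_Dw (h : Agr G G' U) (hx : x ∈ U) (w : List ι) {f g : M → N} (e : EqOn f g U) :
    G'.F.Dw w f x = G.F.Dw w g x := h.rel.Dw hx w ((h.op.eventually_mem hx).mono fun _ k => e k)

theorem agr_bOn (h : Agr G G' U) {f g : M → N} (e : EqOn f g U) (k : G.F.CBs g C) :
    BOn G'.F.toPre U f C := fun n w hw x hx => agr_Dw h hx w e ▸ k.2 n w hw x

/-- a local expression in two backgrounds -/
def Loc (φ : Geo I M ι lam → Geo I M ι lam → M → N) : Prop :=
  ∀ ⦃G0 G0' G G' U⦄, G.F.IsVol → G'.F.IsVol → Agr G0 G0' U → Agr G G' U → EqOn (φ G0' G') (φ G0 G) U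

theorem loc_S (a b : ι) : Loc fun (G0 G : Geo I M ι lam) x => trS G0.F G.F x a b :=
  fun G0 _ _ G' _ _ _ h h' x hx =>
    (trS_congr G'.F G0.F x a b (h.e x hx)).2.trans (trS_congr G0.F _ x a b (h'.e x hx)).1

theorem loc_Si (a b : ι) : Loc fun (G0 G : Geo I M ι lam) x => trS G.F G0.F x a b :=
  fun G0 _ _ G' _ _ _ h h' x hx => (trS_congr G'.F G0.F x a b (h.e x hx)).1.trans
    (trS_congr G0.F _ x a b (h'.e x hx)).2

theorem loc_cf (a b k : ι) : Loc fun (G0 G : Geo I M ι lam) x => cfS G0.F G.F x a b k :=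
  fun _ _ _ _ _ v v' h h' _ hx => by
    simp only [cfS, Spn45.dG, h.rel.Gam hx, h'.rel.Gam hx, id, fun a b => loc_S a b v v' h h' hx]

theorem loc_la (a : ι) : Loc fun (G0 G : Geo I M ι lam) x => laS B G0 G x a :=
  fun _ _ _ _ _ v v' h h' x hx => by
    simp only [laS, dA, h.a x hx, h'.a x hx, fun a b => loc_S a b v v' h h' hx]

theorem loc_c (a b k : ι) : Loc fun (_ G : Geo I M ι lam) => G.F.c a b k :=
  fun _ _ _ _ _ _ _ _ h' _ hx => h'.rel.c hx a b k

theorem loc_dv (a : ι) : Loc fun (_ G : Geo I M ι lam) => G.F.dv a :=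
  fun _ _ _ _ _ v v' _ h' _ hx => by
    simp only [dv_vol v, dv_vol v', h'.rel.c hx, h'.rel.P hx, id]

theorem loc_a (a : ι) : Loc fun (_ G : Geo I M ι lam) => G.a a :=
  fun _ _ _ _ _ _ _ _ h' x hx => h'.a x hx a

/-- the logarithm of the density -/
def lr (G0 G : Geo I M ι lam) (x : M) : ℝ := Real.log (rd G0.F.toPre G.F.toPre x)

theorem loc_lr : Loc (lr : Geo I M ι lam → _) := fun G0 G0' G G' _ _ _ h h' x hx => by
  have e : rj G0'.F.e x = rj G0.F.e x := congrArg (rjb _) (funext (h.e x hx))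
  have e' : rj G'.F.e x = rj G.F.e x := congrArg (rjb _) (funext (h'.e x hx))
  simp only [lr, rd, e, e']

theorem sb_lr {H : T → Geo I M ι lam} {Q : Set T} {K : Set M} (hK : IsCompact K) (hQ : IsOpen Q)
    (hJ : JF Q fun t => (H t).F.toPre) (out : ∀ t ∈ Q, Agr G0 (H t) Kᶜ) :
    SB G0.F.toPre Q fun t => lr G0 (H t) :=
  sb_out hK hQ (fun t ht x => ContMDiffAt.comp (g := Real.log) (I' := 𝓘(ℝ, ℝ)) (t, x)
    (f := fun z : T × M => rd G0.F.toPre (H z.1).F.toPre z.2)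
    (Real.contDiffAt_log.2 (rd_pos _ _ _).ne').contMDiffAt ((JF.fixed G0.F.toPre).rd hJ t ht x))
    (Cb_const 0) fun t ht x hx => by rw [lr, (out t ht).rd hx, Real.log_one]

theorem vol_lr (h : G0.F.IsVol) (h' : G.F.IsVol) :
    G.F.μ = G0.F.μ.withDensity fun x => ENNReal.ofReal (Real.exp (lr G0 G x)) := by
  simp only [lr, Real.exp_log (rd_pos _ _ _)]; exact vol_eq h h'

variable [FiniteDimensional ℝ T] {H : T → Geo I M ι lam} {Q : Set T}

/-- explicit bounds of one family -/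
theorem fu_fam (h : (fam B G0.F G0 H Q univ univ).OK) (hr : closedBall 0 r ⊆ Q)
    (tG : ∃ C, ∀ t ∈ closedBall (0 : T) r, (H t).F.Tame C) (s : SB G0.F.toPre Q fun t => lr G0 (H t)) :
    EC (⊤ : Filter Unit) fun _ C => FU (fam B G0.F G0 H Q univ univ) r C := by
  have u : ∀ {N : Type} [NormedAddCommGroup N] [NormedSpace ℝ N] {f : T → M → N},
      SB G0.F.toPre Q f → EC (⊤ : Filter Unit) fun _ C => UBn G0.F.toPre r C f := fun k =>
    .of (fun _ _ _ => ubn_mono) ((ubn_sb k h.opn hr).imp fun _ k => .of_forall fun _ => k)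
  have c : ∀ {N : Type} [NormedAddCommGroup N] [NormedSpace ℝ N] {f : M → N},
      G0.F.Cb f → EC (⊤ : Filter Unit) fun _ C => G0.F.CBs f C := fun k =>
    .of (fun _ _ _ => CBs_mono) (k.imp fun _ k => .of_forall fun _ => k)
  refine (((((EC.of (fun _ _ _ => Tame_mono) (h.tame.imp fun _ k => .of_forall fun _ => k)).and
    (EC.of (P := fun _ C => ∀ t ∈ closedBall (0 : T) r, (H t).F.Tame C)
      (fun _ _ _ k e t ht => Tame_mono (k t ht) e) (tG.imp fun _ k => .of_forall fun _ => k))).and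
    ((EC.all fun a => EC.all fun b => EC.all fun k => EC.all fun l => c (h.co a b k l)).and
      (c h.cl))).and (((EC.all fun a => EC.all fun b => u (h.sS a b)).and
    (EC.all fun a => EC.all fun b => u (h.sSi a b))).and
    ((EC.all fun a => EC.all fun b => EC.all fun k => u (h.scf a b k)).and
      (EC.all fun a => u (h.sla a))))).and
    (((EC.all fun a => EC.all fun b => EC.all fun k => u (h.sc a b k)).and
      (EC.all fun a => u (h.sdv a))).and ((EC.all fun a => u (h.sa a)).and (u s)))).mono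
    (.of_forall fun _ C k => ?_)
  obtain ⟨⟨⟨⟨k1, k2⟩, k3, k4⟩, ⟨k5, k6⟩, k7, k8⟩, ⟨k9, k10⟩, k11, k12⟩ := k
  exact ⟨hr, k1, k2, k3, k4, k5, k6, k7, k8, k9, k10, k11, _, s, k12,
    fun t ht => vol_lr h.G0.vol (h.G t ht).vol⟩

/-- the family `(G0, H)` is `(A0, A)` on `U1` and constant (`= G1`) on `U2` -/
structure Pat (G0 : Geo I M ι lam) (H : T → Geo I M ι lam) (Q : Set T) (A0 : Geo I M ι lam)
    (A : T → Geo I M ι lam) (G1 : Geo I M ι lam) (U1 U2 : Set M) (r : ℝ) : Prop where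
  sub : closedBall 0 r ⊆ Q
  v1 : G1.F.IsVol
  a0 : Agr A0 G0 U1
  b0 : Agr G1 G0 U2
  t : ∀ t ∈ ball (0 : T) (2 * r), (H t).F.IsVol ∧ (A t).F.IsVol ∧ Agr (A t) (H t) U1 ∧ Agr G1 (H t) U2

theorem Pat.cbs {A0 : Geo I M ι lam} {A : T → Geo I M ι lam} (h : Pat G0 H Q A0 A G1 U1 U2 r)
    (cov : ∀ x, x ∈ U1 ∨ x ∈ U2) {f f0 f1 : M → N} (s : Sm I f) (e0 : EqOn f f0 U1) (e1 : EqOn f f1 U2)
    (k0 : A0.F.CBs f0 C) (k1 : G1.F.CBs f1 C) : G0.F.CBs f C :=
  CBs_of_BOn s fun x => (cov x).elim (fun k => ⟨_, k, agr_bOn h.a0 e0 k0⟩)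
    fun k => ⟨_, k, agr_bOn h.b0 e1 k1⟩

theorem Pat.ubn {A0 : Geo I M ι lam} {A : T → Geo I M ι lam} (h : Pat G0 H Q A0 A G1 U1 U2 r)
    (r0 : 0 < r) (cov : ∀ x, x ∈ U1 ∨ x ∈ U2) (hQ : IsOpen Q)
    {φ : Geo I M ι lam → Geo I M ι lam → M → N} (hφ : Loc φ) (s : SB G0.F.toPre Q fun t => φ G0 (H t))
    (C0 : ∀ k, 0 ≤ C k) (k0 : ∀ x, PB A0.F.toPre r C (fun t => φ A0 (A t)) x)
    (k1 : G1.F.CBs (φ G1 G1) C) : UBn G0.F.toPre r C fun t => φ G0 (H t) := by
  refine ubn_of_pb s hQ h.sub C0 fun x k n t ht w hw => ?_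
  have ev : ∀ᶠ s in 𝓝 t, s ∈ ball (0 : T) (2 * r) :=
    isOpen_ball.mem_nhds (closedBall_subset_ball (by linarith) ht)
  rcases cov x with hx | hx
  · refine (congrArg norm (EventuallyEq.iteratedFDeriv ℝ (ev.mono fun s hs => ?_) n).self_of_nhds).trans_le
      (k0 x k n t ht w hw)
    exact agr_Dw h.a0 hx w (hφ (h.t s hs).2.1 (h.t s hs).1 h.a0 (h.t s hs).2.2.1)
  · rw [(EventuallyEq.iteratedFDeriv ℝ (f₂ := fun _ => G1.F.Dw w (φ G1 G1) x) (ev.mono fun s hs =>
      agr_Dw h.b0 hx w (hφ h.v1 (h.t s hs).1 h.b0 (h.t s hs).2.2.2)) n).self_of_nhds]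
    cases n with
    | zero => rw [norm_iteratedFDeriv_zero]; exact k1.2 k w hw x
    | succ n => rw [iteratedFDeriv_succ_const]; simpa using C0 _

theorem cbs_zero {F : Pre I M ι} (C0 : ∀ k, 0 ≤ C k) : F.CBs (fun _ => (0 : N)) C :=
  ⟨contMDiff_const, fun k => CB_mono (CB_const k (0 : N)) (by simpa using C0 k)⟩

/-- **uniform bounds from two patches** -/
theorem fu_pat [CompactSpace M] {α : Type} {l : Filter α} {G0 G1 : α → Geo I M ι lam}
    {H : α → T → Geo I M ι lam} {Q : α → Set T} {u : α → ℝ} {A0 : Geo I M ι lam}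
    {A : ℝ × T → Geo I M ι lam} {R : Set (ℝ × T)} (r0 : 0 < r) (cov : ∀ x, x ∈ U1 ∨ x ∈ U2)
    (hA : (fam B A0.F A0 A R univ univ).OK) (sA : SB A0.F.toPre R fun q => lr A0 (A q))
    (hR : closedBall 0 r ⊆ R)
    (h : ∀ᶠ i in l, |u i| ≤ r ∧ Pat (G0 i) (H i) (Q i) A0 (fun t => A (u i, t)) (G1 i) U1 U2 r ∧
      (fam B (G0 i).F (G0 i) (H i) (Q i) univ univ).OK ∧ (G1 i).OK B ∧
      SB (G0 i).F.toPre (Q i) fun t => lr (G0 i) (H i t))
    (t0 : EC l fun i C => (G0 i).F.Tame C)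
    (tG : EC l fun i C => ∀ t ∈ closedBall (0 : T) r, (H i t).F.Tame C)
    (b : EC l fun i C => (G1 i).F.Tame C ∧ (∀ a b k n, (G1 i).F.CBs (B.o a b k n) C) ∧
      (G1 i).F.CBs B.l C ∧ ∀ a, (G1 i).F.CBs ((G1 i).a a) C) :
    EC l fun i C => FU (fam B (G0 i).F (G0 i) (H i) (Q i) univ univ) r C := by
  have p : EC l fun _ C => ∀ k, 0 ≤ C k := .of (fun _ _ _ k e n => (k n).trans (e n))
    ⟨0, .of_forall fun _ _ => le_rfl⟩
  have u : ∀ {N : Type} [NormedAddCommGroup N] [NormedSpace ℝ N]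
      {φ : Geo I M ι lam → Geo I M ι lam → M → N}, Loc φ → (SB A0.F.toPre R fun q => φ A0 (A q)) →
      EC l fun i C => (SB (G0 i).F.toPre (Q i) fun t => φ (G0 i) (H i t)) →
        (G1 i).F.CBs (φ (G1 i) (G1 i)) C → UBn (G0 i).F.toPre r C fun t => φ (G0 i) (H i t) :=
    fun hφ s => (p.and (EC.of (fun _ _ _ => ubn_mono) ((ubn_sb s hA.opn hR).imp
      fun _ k => .of_forall fun _ => k))).mono (h.mono fun i h C k s' =>
        h.2.1.ubn r0 cov h.2.2.1.opn hφ s' k.1 (ubn_slice s hA.opn hR k.2 h.1))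
  have c : ∀ {N : Type} [NormedAddCommGroup N] [NormedSpace ℝ N] {f : M → N},
      A0.F.Cb f → EC l fun _ C => A0.F.CBs f C := fun k =>
    .of (fun _ _ _ => CBs_mono) (k.imp fun _ k => .of_forall fun _ => k)
  refine (((((t0.and tG).and (b.and p)).and
    ((EC.all fun a => EC.all fun b => EC.all fun k => EC.all fun l => c (hA.co a b k l)).and
      (c hA.cl))).and (((EC.all fun a => EC.all fun b => u (loc_S a b) (hA.sS a b)).and
    (EC.all fun a => EC.all fun b => u (loc_Si a b) (hA.sSi a b))).and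
    ((EC.all fun a => EC.all fun b => EC.all fun k => u (loc_cf a b k) (hA.scf a b k)).and
      (EC.all fun a => u (loc_la a) (hA.sla a))))).and
    (((EC.all fun a => EC.all fun b => EC.all fun k => u (loc_c a b k) (hA.sc a b k)).and
      (EC.all fun a => u (loc_dv a) (hA.sdv a))).and
      ((EC.all fun a => u (loc_a a) (hA.sa a)).and (u loc_lr sA)))).mono (h.mono fun i h C k => ?_)
  obtain ⟨⟨⟨⟨⟨k1, k2⟩, ⟨b1, b2, b3, b4⟩, C0⟩, k3, k4⟩, ⟨k5, k6⟩, k7, k8⟩, ⟨k9, k10⟩, k11, k12⟩ := k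
  obtain ⟨-, h1, h2, h3, h4⟩ := h
  have a := agr_refl (G1 i) isOpen_univ
  have hP : ∀ a b, (G1 i).F.CBs (fun x => trS (G1 i).F (G1 i).F x a b) C := fun a b => by
    simp only [trS_self]; exact b1.P a b
  exact ⟨h1.sub, k1, k2, fun a b k n => h1.cbs cov (h2.B.so a b k n) (fun _ _ => rfl)
      (fun _ _ => rfl) (k3 a b k n) (b2 a b k n),
    h1.cbs cov h2.B.sl (fun _ _ => rfl) (fun _ _ => rfl) k4 b3,
    fun a b => k5 a b (h2.sS a b) (hP a b), fun a b => k6 a b (h2.sSi a b) (hP a b),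
    fun j b k => k7 j b k (h2.scf j b k) (by simp only [a.cf trivial]; exact cbs_zero C0),
    fun j => k8 j (h2.sla j) (by simp only [a.la h3 trivial]; exact cbs_zero C0),
    fun a b k => k9 a b k (h2.sc a b k) (b1.c a b k), fun a => k10 a (h2.sdv a) (b1.dv a),
    fun a => k11 a (h2.sa a) (b4 a), _, h4,
    k12 h4 (by rw [show lr (G1 i) (G1 i) = fun _ => 0 from funext fun x => by
      rw [lr, a.rd trivial, Real.log_one]]; exact cbs_zero C0),
    fun t ht => vol_lr h2.G0.vol (h2.G t ht).vol⟩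

end Crest.Agent.X212.Gb50
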