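import Crest.Agent.X212.Gb50.Lit
import Crest.Agent.X212.Nka63.B

/-! # Row 212, GL-LOCS (helper50): the windows of the height of the face -/

set_option autoImplicit false
set_option linter.unusedSectionVars false
noncomputable section
open scoped Manifold ContDiff Topology NNReal
open MeasureTheory Set Function Filter Metric

namespace Crest.Agent.X212.Gb50
open An An.Job M Nd18 Gj67

variable {Wi : Type} {X : Mf 4} {A κ lam : Type} [Fintype A] [Fintype κ] [Fintype lam]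
  [DecidableEq lam] {M : Mark X A κ} {W : World M} {L : ML M lam} {Λ : Lns W L}
  {A' h : Type} [Fintype A'] [DecidableEq A'] [Fintype h] {r n : ℕ}
  {J : Job Wi Λ A' h r n} {σ : Cel A'} {a : A'}
  {U Up R : Type} [NormedAddCommGroup U] [NormedSpace ℝ U] [NormedAddCommGroup Up]
  [NormedSpace ℝ Up] [NormedAddCommGroup R] [NormedSpace ℝ R]
  {d : Dat J σ a U Up R} {q₀ : Wi →₀ ℝ} {δ : ℝ} (H : d.OK q₀ δ)
include H

/-- the height is proper -/
theorem cpt_hS (t : ℝ) : IsCompact (d.hS ⁻¹' Iic t) := by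
  obtain ⟨τ, h1, h2⟩ := ((act H).and (nhdsWithin_le_nhds (eventually_comap.1
    ((Cay24.ev_at (geo H)).and ((geo H).la.eventually_gt_atTop t))))).exists
  obtain ⟨G, k⟩ := h2 ⟨τ, h1⟩ rfl
  have s : d.hX ⟨τ, h1⟩ ⁻¹' Iic t ⊆ (d.φ τ).target :=
    G.φ.2.2.1 ▸ fun x hx => lt_of_le_of_lt hx k
  refine ((isClosed_Iic.preimage (d.sm_hX _).continuous).isCompact.image_of_continuousOn
    ((d.φ τ).continuousOn_symm.mono s)).of_isClosed_subset
      (isClosed_Iic.preimage d.sm_hS.continuous) fun w hw => ?_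
  have e : w ∈ (d.φ τ).source := G.φ.2.1 ▸ lt_of_le_of_lt hw k
  exact ⟨_, (G.φ.2.2.2 w e).1.le.trans hw, (d.φ τ).left_inv e⟩

/-- **the windows are compact and have bounded volumes** -/
theorem vol_hS (c : ℝ) : ∃ v : ℝ → ℝ, ∀ μ : Measure (W.Z (J.cf a)).M,
    μ ≤ ENNReal.ofReal c • d.FS.F0.μ → ∀ t ρ, IsCompact {x | |d.hS x - t| ≤ ρ} ∧
      μ.real {x | |d.hS x - t| ≤ ρ} ≤ v ρ := by
  have := d.FS.F0.fin
  have := d.D.F.fin
  let V := fun ρ : ℝ => ENNReal.ofReal c * (d.FS.F0.μ (d.hS ⁻¹' Iic 0) +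
    ∑ _b : Bool, d.D.F.μ univ * ENNReal.ofReal (2 * (ρ + 1)))
  refine ⟨fun ρ => (V ρ).toReal, fun μ hμ t ρ => ⟨(cpt_hS H (t + ρ)).of_isClosed_subset
    (isClosed_le (d.sm_hS.continuous.sub continuous_const).abs continuous_const) fun x hx =>
      show d.hS x ≤ t + ρ from sub_le_iff_le_add'.1 (abs_le.1 (show |d.hS x - t| ≤ ρ from hx)).2, ENNReal.toReal_mono (ENNReal.mul_ne_top
        ENNReal.ofReal_ne_top (ENNReal.add_ne_top.2 ⟨(cpt_hS H 0).measure_lt_top.ne,
          ENNReal.sum_ne_top.2 fun _ _ => ENNReal.mul_ne_top isCompact_univ.measure_lt_top.ne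
            ENNReal.ofReal_ne_top⟩)) ((Measure.le_iff'.1 hμ _).trans (mul_le_mul_right ?_ _))⟩⟩
  let S := fun b => (d.KS b).J ∩ closedBall (-pm b * (t + d.R0)) (ρ + 1)
  have s : {x | |d.hS x - t| ≤ ρ} ⊆ d.hS ⁻¹' Iic 0 ∪ ⋃ b, (d.KS b).tm ⁻¹' S b := fun x hx =>
    (le_or_gt (d.hS x) 0).imp_right fun k => by
      obtain ⟨b, hb⟩ := ex_side (hc d x)
      have e := hS_side H b (hb ▸ abs_nonneg _)
      have h1 := gh_pos (by linarith [H.R1]) (e ▸ k)
      rw [gh_one (by linarith [H.R1])] at e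
      have h2 := Gl67.ka_lip (sub_pos.2 h1).le
      have h3 : -pm b * (d.KS b).tm x - d.R0 - 1 ≤ Gl67.ka (-pm b * (d.KS b).tm x - d.R0) := by
        rcases le_total (-pm b * (d.KS b).tm x - d.R0) 1 with l | l
        · linarith [Gl67.ka_nonneg (-pm b * (d.KS b).tm x - d.R0)]
        · linarith [Gl67.ka_lin le_rfl l, Gl67.ka_nonneg 1]
      rw [Gl67.ka_zero le_rfl] at h2
      obtain ⟨h4, h5⟩ := abs_le.1 (show |d.hS x - t| ≤ ρ from hx)
      refine mem_iUnion.2 ⟨b, (S_J H b).2 (by linarith [H.R1]), mem_closedBall.2 (abs_le.2 ?_)⟩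
      cases b <;> simp only [pm, if_true, Bool.false_eq_true, if_false] at * <;>
        constructor <;> linarith
  refine (measure_mono s).trans ((measure_union_le _ _).trans (add_le_add le_rfl
    ((measure_iUnion_fintype_le _ _).trans (Finset.sum_le_sum fun b _ => ?_))))
  exact (Nka63.measure_slab (d.KS b) (isOpen_Jv.measurableSet.inter measurableSet_closedBall)
    inter_subset_left).trans_le (mul_le_mul_right ((measure_mono inter_subset_right).trans_eq
      (Real.volume_closedBall _ _)) _)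

end Crest.Agent.X212.Gb50
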